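import Mathlib

/-!
# Sums over the sheets of `y j ^ 2 = c j`
-/

open Set Filter Topology ContinuousAlternatingMap
open scoped ContDiff

set_option linter.unusedSectionVars false

namespace Vale.P273.H887

section Alg

variable {ι κ : Type*} [Fintype ι] [DecidableEq ι] {W W' : Type*} [AddCommGroup W] [AddCommGroup W']

/-- The sheets over `c`. -/
def shSet (c : ι → ℂ) : Set (ι → ℂ) := {y | ∀ j, y j ^ 2 = c j}

/-- The sum over the sheets. -/
noncomputable def shSum (Q : (ι → ℂ) → W) (c : ι → ℂ) : W := ∑ᶠ y ∈ shSet c, Q y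

/-- The sign of a Boolean. -/
def sgB (e : Bool) : ℂ := if e then 1 else -1

theorem sgB_sq (e : Bool) : sgB e ^ 2 = 1 := by
  cases e <;> simp [sgB]

theorem sgB_ne (e : Bool) : sgB e ≠ 0 := by
  cases e <;> simp [sgB]

theorem shSet_eq_range {c r : ι → ℂ} (hr : r ∈ shSet c) :
    shSet c = range fun e : ι → Bool => fun j => sgB (e j) * r j := by
  classical
  ext y
  constructor
  · intro hy
    refine ⟨fun j => decide (y j = r j), funext fun j => ?_⟩
    have h : y j ^ 2 = r j ^ 2 := (hy j).trans (hr j).symm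
    by_cases h1 : y j = r j
    · simp [sgB, h1]
    · have h2 : y j = - r j := (sq_eq_sq_iff_eq_or_eq_neg.1 h).resolve_left h1
      simp [sgB, h2]
      intro h3
      rw [h2] at h1
      exact absurd h3 h1
  · rintro ⟨e, rfl⟩ j
    simp only [mul_pow, sgB_sq, one_mul]
    exact hr j

theorem shSet_finite (c : ι → ℂ) : (shSet c).Finite := by
  have h : (fun j => (c j) ^ (((2 : ℕ) : ℂ)⁻¹)) ∈ shSet c := fun j =>
    Complex.cpow_nat_inv_pow (c j) two_ne_zero
  rw [shSet_eq_range h]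
  exact finite_range _

theorem shSum_eq {c r : ι → ℂ} (hr : r ∈ shSet c) (h0 : ∀ j, r j ≠ 0)
    (Q : (ι → ℂ) → W) :
    shSum Q c = ∑ e : ι → Bool, Q fun j => sgB (e j) * r j := by
  rw [shSum, shSet_eq_range hr, finsum_mem_range, finsum_eq_sum_of_fintype]
  intro e e' h
  funext j
  have h1 : sgB (e j) * r j = sgB (e' j) * r j := congrFun h j
  have h2 := mul_right_cancel₀ (h0 j) h1
  revert h2
  cases e j <;> cases e' j <;> simp [sgB] <;> norm_num

theorem ne_zero_of_mem {c r : ι → ℂ} (hr : r ∈ shSet c) (h0 : ∀ j, c j ≠ 0) (j : ι) :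
    r j ≠ 0 := by
  intro h
  apply h0 j
  rw [← hr j, h]
  simp

theorem shSum_eq_zero {c : ι → ℂ} {Q : (ι → ℂ) → W} (h : ∀ y ∈ shSet c, Q y = 0) :
    shSum Q c = 0 :=
  finsum_mem_eq_zero_of_forall_eq_zero h

theorem shSum_congr {c : ι → ℂ} {Q Q' : (ι → ℂ) → W} (h : ∀ y ∈ shSet c, Q y = Q' y) :
    shSum Q c = shSum Q' c :=
  finsum_mem_congr rfl h

theorem shSum_add (Q Q' : (ι → ℂ) → W) (c : ι → ℂ) :
    shSum (fun y => Q y + Q' y) c = shSum Q c + shSum Q' c :=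
  finsum_mem_add_distrib (shSet_finite c)

theorem shSum_map {F : Type*} [FunLike F W W'] [AddMonoidHomClass F W W'] (L : F)
    (Q : (ι → ℂ) → W) (c : ι → ℂ) : L (shSum Q c) = shSum (fun y => L (Q y)) c := by
  have h := AddMonoidHom.map_finsum_mem Q (L : W →+ W') (shSet_finite c)
  exact h

/-- change of the variables `y` -/
theorem shSum_equiv (e : (ι → ℂ) ≃ (κ → ℂ)) {c : ι → ℂ} {c' : κ → ℂ}
    (h : ∀ y, y ∈ shSet c ↔ e y ∈ shSet c') (Q : (κ → ℂ) → W) :
    shSum Q c' = shSum (fun y => Q (e y)) c := by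
  have hi : shSet c' = e '' shSet c := by
    ext y'
    constructor
    · intro hy
      exact ⟨e.symm y', (h _).2 (by simpa using hy), by simp⟩
    · rintro ⟨y, hy, rfl⟩
      exact (h y).1 hy
  rw [shSum, hi, finsum_mem_image e.injective.injOn]
  rfl

/-- permutation of the marks -/
theorem shSum_perm (s : Equiv.Perm ι) (c : ι → ℂ) (Q : (ι → ℂ) → W) :
    shSum Q (fun j => c (s j)) = shSum (fun y => Q fun j => y (s j)) c := by
  have h := shSum_equiv (Equiv.arrowCongr s.symm (Equiv.refl ℂ)) (c := c)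
    (c' := fun j => c (s j)) (fun y => ?_) Q
  · exact h
  · constructor
    · intro hy j
      exact hy (s j)
    · intro hy j
      have := hy (s.symm j)
      simpa using this

/-- rescaling of the sheets -/
theorem shSum_smul {a : ι → ℂ} (ha : ∀ j, a j ≠ 0) (c : ι → ℂ) (Q : (ι → ℂ) → W) :
    shSum Q (fun j => a j ^ 2 * c j) = shSum (fun y => Q fun j => a j * y j) c := by
  let e : (ι → ℂ) ≃ (ι → ℂ) :=
    { toFun := fun y j => a j * y j
      invFun := fun y j => (a j)⁻¹ * y j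
      left_inv := fun y => funext fun j => by simp [ha j]
      right_inv := fun y => funext fun j => by simp [ha j] }
  refine shSum_equiv e (fun y => ?_) Q
  constructor
  · intro hy j
    change (a j * y j) ^ 2 = _
    rw [mul_pow, hy j]
  · intro hy j
    have h1 : (a j * y j) ^ 2 = a j ^ 2 * c j := hy j
    rw [mul_pow] at h1
    exact mul_left_cancel₀ (pow_ne_zero 2 (ha j)) h1

end Alg

section Analysis

variable {ι : Type*} [Fintype ι] [DecidableEq ι] {k : ℕ} {P W : Type*} [NormedAddCommGroup P] [NormedSpace ℂ P] [NormedSpace ℝ P]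
  [IsScalarTower ℝ ℂ P] [NormedAddCommGroup W] [NormedSpace ℝ W]

/-- local analytic branch through a given sheet. -/
theorem exists_branch {c : P → ι → ℂ} {p₀ : P} (hc : AnalyticAt ℂ c p₀)
    (h0 : ∀ j, c p₀ j ≠ 0) {y₀ : ι → ℂ} (hy₀ : y₀ ∈ shSet (c p₀)) :
    ∃ y : P → ι → ℂ, AnalyticAt ℂ y p₀ ∧ y p₀ = y₀ ∧ ∀ p, y p ∈ shSet (c p) := by
  have hcj : ∀ j, AnalyticAt ℂ (fun p => c p j) p₀ := fun j => (analyticAt_pi_iff.1 hc) j
  refine ⟨fun p j => y₀ j * (c p j / c p₀ j) ^ (((2 : ℕ) : ℂ)⁻¹), ?_, ?_, ?_⟩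
  · rw [analyticAt_pi_iff]
    intro j
    refine analyticAt_const.mul ?_
    refine AnalyticAt.cpow ((hcj j).div analyticAt_const (h0 j)) analyticAt_const ?_
    rw [div_self (h0 j)]
    exact Complex.one_mem_slitPlane
  · funext j
    change y₀ j * (c p₀ j / c p₀ j) ^ (((2 : ℕ) : ℂ)⁻¹) = y₀ j
    rw [div_self (h0 j), Complex.one_cpow, mul_one]
  · intro p j
    rw [mul_pow, Complex.cpow_nat_inv_pow _ two_ne_zero, hy₀ j, mul_div_cancel₀ _ (h0 j)]

/-- near a point with `c ≠ 0` the sum over the sheets is a finite sum over analytic branches. -/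
theorem eventually_shSum {c : P → ι → ℂ} {p₀ : P} (hc : ContinuousAt c p₀)
    (h0 : ∀ j, c p₀ j ≠ 0) {y : P → ι → ℂ} (hy : ∀ᶠ p in 𝓝 p₀, y p ∈ shSet (c p))
    {V : Type*} [AddCommGroup V] (Q : P → (ι → ℂ) → V) :
    ∀ᶠ p in 𝓝 p₀, shSum (Q p) (c p) = ∑ e : ι → Bool, Q p fun j => sgB (e j) * y p j := by
  have h1 : ∀ᶠ p in 𝓝 p₀, ∀ j, c p j ≠ 0 := by
    rw [eventually_all]
    intro j
    have h2 : ContinuousAt (fun p => c p j) p₀ := (continuous_apply j).continuousAt.comp hc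
    exact h2.eventually_ne (h0 j)
  filter_upwards [h1, hy] with p hp hyp
  exact shSum_eq hyp (fun j => ne_zero_of_mem hyp hp j) (Q p)

theorem branch_sign {c : P → ι → ℂ} {p₀ : P} {y : P → ι → ℂ} (hya : AnalyticAt ℂ y p₀)
    (hy : ∀ p, y p ∈ shSet (c p)) (e : ι → Bool) :
    AnalyticAt ℂ (fun p j => sgB (e j) * y p j) p₀ ∧
      ∀ p, (fun j => sgB (e j) * y p j) ∈ shSet (c p) := by
  constructor
  · rw [analyticAt_pi_iff]
    exact fun j => analyticAt_const.mul ((analyticAt_pi_iff.1 hya) j)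
  · intro p j
    simp only [mul_pow, sgB_sq, one_mul]
    exact hy p j

/-- the smoothness of the sum over the sheets from the smoothness along branches. -/
theorem contDiffAt_shSum {r : WithTop ℕ∞} {c : P → ι → ℂ} {p₀ : P} (hc : AnalyticAt ℂ c p₀)
    (h0 : ∀ j, c p₀ j ≠ 0) {Q : P → (ι → ℂ) → W}
    (hQ : ∀ y : P → ι → ℂ, AnalyticAt ℂ y p₀ → (∀ p, y p ∈ shSet (c p)) →
      ContDiffAt ℝ r (fun p => Q p (y p)) p₀) :
    ContDiffAt ℝ r (fun p => shSum (Q p) (c p)) p₀ := by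
  obtain ⟨y, hya, -, hy⟩ := exists_branch hc h0
    (y₀ := fun j => (c p₀ j) ^ (((2 : ℕ) : ℂ)⁻¹))
    (fun j => Complex.cpow_nat_inv_pow (c p₀ j) two_ne_zero)
  refine ContDiffAt.congr_of_eventuallyEq (f := fun p => ∑ e : ι → Bool,
    Q p fun j => sgB (e j) * y p j) ?_
    (eventually_shSum hc.continuousAt h0 (Eventually.of_forall hy) Q)
  refine ContDiffAt.sum fun e _ => ?_
  obtain ⟨h1, h2⟩ := branch_sign hya hy e
  exact hQ _ h1 h2

/-- the sum over the sheets of a closed form is closed. -/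
theorem extDeriv_shSum {c : P → ι → ℂ} {p₀ : P} (hc : AnalyticAt ℂ c p₀)
    (h0 : ∀ j, c p₀ j ≠ 0) {Q : P → (ι → ℂ) → P [⋀^Fin k]→L[ℝ] W}
    (hd : ∀ y : P → ι → ℂ, AnalyticAt ℂ y p₀ → (∀ p, y p ∈ shSet (c p)) →
      DifferentiableAt ℝ (fun p => Q p (y p)) p₀)
    (hQ : ∀ y : P → ι → ℂ, AnalyticAt ℂ y p₀ → (∀ p, y p ∈ shSet (c p)) →
      extDeriv (fun p => Q p (y p)) p₀ = 0) :
    extDeriv (fun p => shSum (Q p) (c p)) p₀ = 0 := by
  obtain ⟨y, hya, -, hy⟩ := exists_branch hc h0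
    (y₀ := fun j => (c p₀ j) ^ (((2 : ℕ) : ℂ)⁻¹))
    (fun j => Complex.cpow_nat_inv_pow (c p₀ j) two_ne_zero)
  have h3 : (fun p => shSum (Q p) (c p)) =ᶠ[𝓝 p₀] fun p => ∑ e : ι → Bool,
      Q p fun j => sgB (e j) * y p j :=
    eventually_shSum hc.continuousAt h0 (Eventually.of_forall hy) Q
  rw [h3.extDeriv_eq]
  have h4 : HasFDerivAt (fun p => ∑ e : ι → Bool, Q p fun j => sgB (e j) * y p j)
      (∑ e : ι → Bool, fderiv ℝ (fun p => Q p fun j => sgB (e j) * y p j) p₀) p₀ := by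
    refine HasFDerivAt.fun_sum fun e _ => ?_
    obtain ⟨h1, h2⟩ := branch_sign hya hy e
    exact (hd _ h1 h2).hasFDerivAt
  rw [extDeriv, h4.fderiv, ← alternatizeUncurryFinCLM_apply, _root_.map_sum]
  refine Finset.sum_eq_zero fun e _ => ?_
  obtain ⟨h1, h2⟩ := branch_sign hya hy e
  exact hQ _ h1 h2

/-- the sum over the sheets of a smooth closed form that vanishes near the branch points is a
smooth closed form. -/
theorem shSum_smooth_closed {r : WithTop ℕ∞} (hr : r ≠ 0) {O : Set P} {c : P → ι → ℂ}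
    (hc : ∀ p ∈ O, AnalyticAt ℂ c p) {Q : P → (ι → ℂ) → P [⋀^Fin k]→L[ℝ] W}
    (hQ : ∀ p₀ ∈ O, (∀ j, c p₀ j ≠ 0) → ∀ y : P → ι → ℂ, AnalyticAt ℂ y p₀ →
      (∀ p, y p ∈ shSet (c p)) →
      ContDiffAt ℝ r (fun p => Q p (y p)) p₀ ∧ extDeriv (fun p => Q p (y p)) p₀ = 0)
    (hz : ∀ p₀ ∈ O, (∃ j, c p₀ j = 0) → ∀ᶠ p in 𝓝 p₀, ∀ y ∈ shSet (c p), Q p y = 0) :
    ∀ p₀ ∈ O, ContDiffAt ℝ r (fun p => shSum (Q p) (c p)) p₀ ∧
      extDeriv (fun p => shSum (Q p) (c p)) p₀ = 0 := by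
  intro p₀ hp₀
  by_cases h : ∃ j, c p₀ j = 0
  · have h1 : (fun p => shSum (Q p) (c p)) =ᶠ[𝓝 p₀] fun _ => 0 := by
      filter_upwards [hz p₀ hp₀ h] with p hp
      exact shSum_eq_zero hp
    refine ⟨contDiffAt_const.congr_of_eventuallyEq h1, ?_⟩
    rw [h1.extDeriv_eq, extDeriv, fderiv_fun_const]
    exact _root_.map_zero (alternatizeUncurryFinCLM ℝ P W)
  · push Not at h
    exact ⟨contDiffAt_shSum (hc p₀ hp₀) h fun y h1 h2 => (hQ p₀ hp₀ h y h1 h2).1,
      extDeriv_shSum (hc p₀ hp₀) h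
        (fun y h1 h2 => (hQ p₀ hp₀ h y h1 h2).1.differentiableAt hr)
        fun y h1 h2 => (hQ p₀ hp₀ h y h1 h2).2⟩

end Analysis

end Vale.P273.H887
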