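import Vale.Agent.P273.H95.Wall
import Vale.Agent.P273.H973.Theta
import Vale.Agent.P273.H887.Sheets

/-!
# Algebra of the polynomial with roots `b`, in both charts
-/

noncomputable section

namespace Vale.P273.H887

open Set Filter Polynomial Vale.Agent.P273.H95
open Vale.Agent.P273.H681 (C6 XX swL)
open scoped Topology ContDiff

/-- The monic polynomial with the given roots. -/
def pb (b : C6) : ℂ[X] := ∏ k : Fin 6, (X - C (b k))

theorem pb_monic (b : C6) : (pb b).Monic := monic_prod_of_monic _ _ fun _ _ => monic_X_sub_C _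

theorem pb_natDegree (b : C6) : (pb b).natDegree = 6 := by
  rw [pb, natDegree_prod_of_monic _ _ fun _ _ => monic_X_sub_C _]
  simp

theorem rts_eq (b : C6) (i : Fin 6) : rts b i = (pb b).coeff i := rfl

theorem pb_eq (b : C6) : pb b = X ^ 6 + ∑ i : Fin 6, C (rts b i) * X ^ (i : ℕ) := by
  conv_lhs => rw [(pb b).as_sum_range_C_mul_X_pow, pb_natDegree]
  rw [Finset.sum_range_succ, Finset.sum_range]
  have h : (pb b).coeff 6 = 1 := by
    have := pb_monic b
    rw [Monic, leadingCoeff, pb_natDegree] at this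
    exact this
  rw [h, map_one, one_mul, add_comm]
  rfl

theorem eval_pb (b : C6) (z : ℂ) : (pb b).eval z = ∏ k, (z - b k) := by
  rw [pb, eval_prod]
  simp

theorem sx_rts (b : C6) (z : ℂ) : sx (rts b) z = ∏ k, (z - b k) := by
  rw [← eval_pb, pb_eq, sx]
  simp [eval_add, eval_pow, eval_finsetSum]

theorem sw_of_ne (a : C6) {w : ℂ} (hw : w ≠ 0) : sw a w = w ^ 6 * sx a w⁻¹ := by
  rw [sw, sx, mul_add, Finset.mul_sum]
  congr 1
  · rw [inv_pow, mul_inv_cancel₀ (pow_ne_zero 6 hw)]
  · refine Finset.sum_congr rfl fun i _ => ?_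
    have h : w ^ 6 = w ^ (6 - (i : ℕ)) * w ^ (i : ℕ) := by
      rw [← pow_add]
      congr 1
      omega
    have h2 : w ^ (i : ℕ) ≠ 0 := pow_ne_zero _ hw
    rw [h, inv_pow]
    field_simp

theorem sw_rts (b : C6) (w : ℂ) : sw (rts b) w = ∏ k, (1 - b k * w) := by
  by_cases hw : w = 0
  · subst hw
    rw [sw]
    simp only [mul_zero, sub_zero, Finset.prod_const_one]
    rw [Finset.sum_eq_zero, add_zero]
    intro i _
    rw [zero_pow (by omega), mul_zero]
  · rw [sw_of_ne _ hw, sx_rts]
    have h : w ^ 6 = ∏ _k : Fin 6, w := by simp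
    rw [h, ← Finset.prod_mul_distrib]
    refine Finset.prod_congr rfl fun k _ => ?_
    field_simp

/-- The factor of the root `k` in the chart `s`. -/
def fac (s : Bool) (b : C6) (z : ℂ) (k : Fin 6) : ℂ := if s then 1 - b k * z else z - b k

theorem pol_rts (s : Bool) (b : C6) (z : ℂ) : pol s (rts b) z = ∏ k, fac s b z k := by
  cases s
  · simpa [pol, fac] using sx_rts b z
  · simpa [pol, fac] using sw_rts b z

/-- the values of the polynomial at the marks -/
def cf (S : L → Bool) (e : E) (j : L) : ℂ := pol (S j) (rts e.1) (e.2 j)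

theorem cf_eq (S : L → Bool) (e : E) (j : L) : cf S e j = ∏ k, fac (S j) e.1 (e.2 j) k :=
  pol_rts _ _ _

theorem analyticAt_coord1 (k : Fin 6) (e : E) : AnalyticAt ℂ (fun e : E => e.1 k) e :=
  ((ContinuousLinearMap.proj (R := ℂ) (φ := fun _ : Fin 6 => ℂ) k).comp
    (ContinuousLinearMap.fst ℂ C6 (L → ℂ))).analyticAt e

theorem analyticAt_coord2 (j : L) (e : E) : AnalyticAt ℂ (fun e : E => e.2 j) e :=
  ((ContinuousLinearMap.proj (R := ℂ) (φ := fun _ : L => ℂ) j).comp
    (ContinuousLinearMap.snd ℂ C6 (L → ℂ))).analyticAt e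

theorem analyticAt_cf (S : L → Bool) (e : E) : AnalyticAt ℂ (cf S) e := by
  rw [analyticAt_pi_iff]
  intro j
  have h : (fun e : E => cf S e j) = fun e => ∏ k, fac (S j) e.1 (e.2 j) k := by
    funext e
    exact cf_eq S e j
  rw [h]
  refine Finset.analyticAt_fun_prod _ fun k _ => ?_
  cases S j
  · change AnalyticAt ℂ (fun e : E => e.2 j - e.1 k) e
    exact (analyticAt_coord2 j e).fun_sub (analyticAt_coord1 k e)
  · change AnalyticAt ℂ (fun e : E => 1 - e.1 k * e.2 j) e
    exact analyticAt_const.fun_sub ((analyticAt_coord1 k e).fun_mul (analyticAt_coord2 j e))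

theorem cf_eq_zero {S : L → Bool} {e : E} {j : L} (h : cf S e j = 0) :
    ∃ k, fac (S j) e.1 (e.2 j) k = 0 := by
  rw [cf_eq, Finset.prod_eq_zero_iff] at h
  obtain ⟨k, -, hk⟩ := h
  exact ⟨k, hk⟩

/-- The coefficients are polynomial functions of the roots. -/
theorem analyticAt_rts (b : C6) : AnalyticAt ℂ rts b := by
  rw [analyticAt_pi_iff]
  intro i
  let P : MvPolynomial (Fin 6) ℂ :=
    (∏ k : Fin 6, ((X : (MvPolynomial (Fin 6) ℂ)[X]) - C (MvPolynomial.X k))).coeff i
  have h : (fun b : C6 => rts b i) = fun b => MvPolynomial.aeval b P := by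
    funext b
    rw [MvPolynomial.aeval_eq_eval, rts]
    have h1 : (∏ k : Fin 6, ((X : ℂ[X]) - C (b k))) =
        (∏ k : Fin 6, ((X : (MvPolynomial (Fin 6) ℂ)[X]) - C (MvPolynomial.X k))).map
          (MvPolynomial.eval b) := by
      rw [Polynomial.map_prod]
      refine Finset.prod_congr rfl fun k _ => ?_
      simp
    rw [h1, coeff_map]
  rw [h]
  exact AnalyticAt.aeval_mvPolynomial (f := fun b : C6 => b) (fun k =>
    (ContinuousLinearMap.proj (R := ℂ) (φ := fun _ : Fin 6 => ℂ) k).analyticAt b) P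

theorem contDiff_rts : ContDiff ℝ ∞ rts := by
  rw [contDiff_iff_contDiffAt]
  intro b
  exact ((analyticAt_rts b).contDiffAt).restrict_scalars ℝ

theorem injective_of_mem_XX {b : C6} (hb : b ∈ XX) : Function.Injective b := by
  intro i j h
  by_contra hij
  rcases lt_or_gt_of_ne hij with h1 | h1
  · have := hb i j h1 (by rw [h])
    rw [h] at this
    exact lt_irrefl _ this
  · have := hb j i h1 (by rw [h])
    rw [h] at this
    exact lt_irrefl _ this

theorem isOpen_XX : IsOpen XX := by
  have h : XX = ⋂ i : Fin 6, ⋂ j : Fin 6, ⋂ _ : i < j,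
      ({b : C6 | (b i).re ≠ (b j).re} ∪ {b : C6 | (b j).im < (b i).im}) := by
    ext b
    simp only [XX, mem_setOf_eq, mem_iInter, mem_union]
    constructor
    · intro h i j hij
      by_cases h1 : (b i).re = (b j).re
      · exact Or.inr (h i j hij h1)
      · exact Or.inl h1
    · intro h i j hij h1
      rcases h i j hij with h2 | h2
      · exact absurd h1 h2
      · exact h2
  rw [h]
  refine isOpen_iInter_of_finite fun i => isOpen_iInter_of_finite fun j =>
    isOpen_iInter_of_finite fun _ => ?_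
  refine IsOpen.union (isOpen_ne_fun ?_ ?_) (isOpen_lt ?_ ?_)
  · exact Complex.continuous_re.comp (continuous_apply i)
  · exact Complex.continuous_re.comp (continuous_apply j)
  · exact Complex.continuous_im.comp (continuous_apply j)
  · exact Complex.continuous_im.comp (continuous_apply i)

theorem sx1_rts (b : C6) (z : ℂ) : sx1 (rts b) z = (pb b).derivative.eval z := by
  rw [pb_eq, sx1]
  simp only [derivative_add, derivative_X_pow, derivative_sum, derivative_C_mul, eval_add,
    eval_finsetSum, eval_mul, eval_C, eval_pow, eval_X]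
  congr 1
  refine Finset.sum_congr rfl fun i _ => ?_
  ring

theorem rts_mem_K6 {b : C6} (hb : b ∈ XX) : rts b ∈ K6 := by
  intro z hz
  have h1 : (pb b).Separable := separable_prod_X_sub_C_iff.2 (injective_of_mem_XX hb)
  have h2 : (pb b).eval z = 0 := by rw [eval_pb, ← sx_rts]; exact hz.1
  have h3 : (pb b).derivative.eval z = 0 := by rw [← sx1_rts]; exact hz.2.1
  obtain ⟨u, v, huv⟩ := h1
  have := congrArg (eval z) huv
  simp [h2, h3] at this

/-- change of charts for the polynomial -/
theorem pol_flip {s s' : Bool} (hs : s ≠ s') (a : C6) {z : ℂ} (hz : z ≠ 0) :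
    pol s' a z⁻¹ = (z⁻¹ ^ 3) ^ 2 * pol s a z := by
  cases s <;> cases s'
  · exact absurd rfl hs
  · simp only [pol, if_true]
    rw [sw_of_ne a (inv_ne_zero hz), inv_inv]
    simp only [Bool.false_eq_true, if_false]
    ring
  · simp only [pol, if_true]
    rw [sw_of_ne a hz]
    simp only [Bool.false_eq_true, if_false]
    have : z ^ 6 ≠ 0 := pow_ne_zero 6 hz
    field_simp
  · exact absurd rfl hs

end Vale.P273.H887
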