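import Vale.Agent.P273.H887.WfSm

/-!
# Change of charts for the integrand `Wf`
-/

noncomputable section

set_option linter.unusedSectionVars false

namespace Vale.P273.H887

open Set Filter Vale.Agent.P273.H95 Vale.Agent.P273.H973 ContinuousAlternatingMap
open Vale.Agent.P273.H681 (C6 XX swL)
open scoped Topology ContDiff

/-- the factor of the sheets under a change of charts -/
def fl (S S' : L → Bool) (e : E) (j : L) : ℂ := if S j = S' j then 1 else ((e.2 j)⁻¹) ^ 3

theorem fl_ne {S S' : L → Bool} {e : E} (hz : ∀ j, S j ≠ S' j → e.2 j ≠ 0) (j : L) :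
    fl S S' e j ≠ 0 := by
  unfold fl
  split_ifs with h
  · exact one_ne_zero
  · exact pow_ne_zero 3 (inv_ne_zero (hz j h))

theorem flipv_eq (S S' : L → Bool) (e : E) (v : L → ℂ) :
    flipv S S' e.2 v = fun j => fl S S' e j * v j := by
  funext j
  unfold flipv fl
  split_ifs
  · rw [one_mul]
  · rw [mul_comm]

theorem cf_flip {S S' : L → Bool} {e : E} (hz : ∀ j, S j ≠ S' j → e.2 j ≠ 0) :
    cf S' (flip S S' e) = fun j => fl S S' e j ^ 2 * cf S e j := by
  funext j
  change pol (S' j) (rts e.1) (if S j = S' j then e.2 j else (e.2 j)⁻¹) =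
    fl S S' e j ^ 2 * pol (S j) (rts e.1) (e.2 j)
  unfold fl
  by_cases h : S j = S' j
  · rw [if_pos h, if_pos h, h, one_pow, one_mul]
  · rw [if_neg h, if_neg h]
    exact pol_flip h _ (hz j h)

theorem mem_flip {S S' : L → Bool} {e : E} (hz : ∀ j, S j ≠ S' j → e.2 j ≠ 0) {v : L → ℂ}
    (hv : v ∈ shSet (cf S e)) : flipv S S' e.2 v ∈ shSet (cf S' (flip S S' e)) := by
  intro j
  rw [flipv_eq, cf_flip hz]
  simp only
  rw [mul_pow, hv j]

theorem differentiableAt_flip {S S' : L → Bool} {e : E} (hz : ∀ j, S j ≠ S' j → e.2 j ≠ 0) :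
    DifferentiableAt ℝ (flip S S') e := by
  have h2 : ∀ j : L, DifferentiableAt ℝ (fun p : E => p.2 j) e := fun j => by fun_prop
  refine DifferentiableAt.prodMk differentiableAt_fst ?_
  rw [differentiableAt_pi]
  intro j
  by_cases h : S j = S' j
  · simp only [if_pos h]
    exact h2 j
  · simp only [if_neg h]
    exact (h2 j).fun_inv (hz j h)

theorem comp_comp {M N P : Type*} [NormedAddCommGroup M] [NormedSpace ℝ M]
    [NormedAddCommGroup N] [NormedSpace ℝ N] [NormedAddCommGroup P] [NormedSpace ℝ P] {n : ℕ}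
    (f : P [⋀^Fin n]→L[ℝ] ℝ) (A : N →L[ℝ] P) (B : M →L[ℝ] N) :
    (f.compContinuousLinearMap A).compContinuousLinearMap B =
      f.compContinuousLinearMap (A.comp B) := by
  ext v
  rfl

theorem fderiv_flip_ρ {S S' : L → Bool} {e : E} (hz : ∀ j, S j ≠ S' j → e.2 j ≠ 0) :
    (fderiv ℝ (flip S S') (ρ e)).comp (fderiv ℝ ρ e) =
      (fderiv ℝ ρ (flip S S' e)).comp (fderiv ℝ (flip S S') e) := by
  have hρ : ∀ p, DifferentiableAt ℝ ρ p := fun p => (hasFDerivAt_ρ p).differentiableAt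
  have h1 : DifferentiableAt ℝ (flip S S') (ρ e) := differentiableAt_flip hz
  have h2 : HasFDerivAt (fun p => flip S S' (ρ p))
      ((fderiv ℝ (flip S S') (ρ e)).comp (fderiv ℝ ρ e)) e :=
    h1.hasFDerivAt.comp e (hρ e).hasFDerivAt
  have h3 : HasFDerivAt (fun p => ρ (flip S S' p))
      ((fderiv ℝ ρ (flip S S' e)).comp (fderiv ℝ (flip S S') e)) e :=
    (hρ _).hasFDerivAt.comp e (differentiableAt_flip hz).hasFDerivAt
  exact h2.unique h3

theorem GR_eq (X : Ext) (S : L → Bool) (e : E) (v : L → ℂ) :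
    GR X.G S e v = (X.G S (ρ e) v).compContinuousLinearMap (fderiv ℝ ρ e) := by
  rw [(hasFDerivAt_ρ e).fderiv]
  rfl

theorem GR_chg (X : Ext) {S S' : L → Bool} {e : E} (he : e.1 ∈ XX)
    (hz : ∀ j, S j ≠ S' j → e.2 j ≠ 0) {v : L → ℂ} (hon : OnC S (rts e.1) e.2 v)
    (hsep : Vale.Agent.P273.H95.Sep S e.2 v) :
    GR X.G S e v = (GR X.G S' (flip S S' e) (flipv S S' e.2 v)).compContinuousLinearMap
      (fderiv ℝ (flip S S') e) := by
  rw [GR_eq, GR_eq, comp_comp, ← fderiv_flip_ρ hz, ← comp_comp]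
  congr 1
  exact X.chg S S' (ρ e) v (rts_mem_K6 he) hon hsep hz

theorem th_chg (Θ : Gauge) {S S' : L → Bool} {e : E} (he : e.1 ∈ XX)
    (hz : ∀ j, S j ≠ S' j → e.2 j ≠ 0) {v : L → ℂ} (hon : OnC S (rts e.1) e.2 v) (i : Fin 14) :
    Θ.th i S e v = (Θ.th i S' (flip S S' e) (flipv S S' e.2 v)).comp
      (fderiv ℝ (flip S S') e) := by
  refine ContinuousLinearMap.ext fun w => funext fun a => ?_
  change Θ.θ (mrk i) (col4 a) S e v w = _
  rw [Θ.chg (mrk i) (col4 a) S S' e v (isCl_col4 a) he hon hz]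
  rfl

variable (X : Ext) (Θ : Gauge) {T : MT}

theorem Qf_chg (hT : SymT T) {S S' : L → Bool} {e : E} (he : e.1 ∈ XX)
    (hz : ∀ j, S j ≠ S' j → e.2 j ≠ 0) {v : L → ℂ} (hv : v ∈ shSet (cf S e)) :
    Qf X Θ T S e v = (Qf X Θ T S' (flip S S' e) (flipv S S' e.2 v)).compContinuousLinearMap
      (fderiv ℝ (flip S S') e) := by
  by_cases h0 : ∃ j, cf S e j = 0
  · obtain ⟨j, hj⟩ := h0
    obtain ⟨k, hk⟩ := cf_eq_zero hj
    have hj' : cf S' (flip S S' e) j = 0 := by
      rw [cf_flip hz]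
      simp [hj]
    obtain ⟨k', hk'⟩ := cf_eq_zero hj'
    rw [(Qf_root X Θ T he hk).self_of_nhds v hv,
      (Qf_root X Θ T (e₀ := flip S S' e) he hk').self_of_nhds _ (mem_flip hz hv)]
    rfl
  · push Not at h0
    have hon := onC_of_mem hv h0
    by_cases hsep : Vale.Agent.P273.H95.Sep S e.2 v
    · unfold Qf
      rw [wedgeT_comp, ← GR_chg X he hz hon hsep]
      congr 1
      funext i
      exact th_chg Θ he hz hon i
    · unfold Vale.Agent.P273.H95.Sep at hsep
      push Not at hsep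
      obtain ⟨i, j, hij, hty, hsame⟩ := hsep
      obtain ⟨r, hr, h⟩ := Θ.col i j hij hty S e v he hon hsame
      obtain ⟨a, ha⟩ := mrk_surj i
      obtain ⟨b, hb⟩ := mrk_surj j
      have hab : a ≠ b := fun hab => hij (by rw [← ha, ← hb, hab])
      have hs : SymAt T a b := hT a b (by rw [ha, hb]; exact hty)
      have hth : Θ.th a S e v = Θ.th b S e v := th_eq Θ fun ξ hξ => by
        rw [ha, hb]
        exact h e v (by simpa using hr) (fun l => by simpa using hr) hv ξ hξ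
      unfold Qf
      rw [wedgeT_comp, wedgeT_eq_zero_of_eq _ hab hs hth]
      symm
      refine wedgeT_eq_zero_of_eq _ hab hs ?_
      rw [← th_chg Θ he hz hon a, ← th_chg Θ he hz hon b, hth]

/-- **(W2)** -/
theorem Wf_chg (T : MT) (hT : SymT T) (S S' : L → Bool) (e : E) (he : e.1 ∈ XX)
    (hz : ∀ j, S j ≠ S' j → e.2 j ≠ 0) :
    Wf X Θ T S e = (Wf X Θ T S' (flip S S' e)).compContinuousLinearMap
      (fderiv ℝ (flip S S') e) := by
  rw [Wf_eq X Θ T S he, Wf_eq X Θ T S' (e := flip S S' e) he, cf_flip hz,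
    shSum_smul (fl_ne hz)]
  have h1 := shSum_map (compContinuousLinearMapCLM (F := ℝ) (ι := Fin (16 + 14))
    (fderiv ℝ (Vale.Agent.P273.H95.flip S S') e))
    (fun y => Qf X Θ T S' (flip S S' e) fun j => fl S S' e j * y j) (cf S e)
  refine Eq.trans ?_ h1.symm
  refine shSum_congr fun v hv => ?_
  rw [Qf_chg X Θ hT he hz hv, flipv_eq]
  rfl

end Vale.P273.H887
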