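import Vale.Agent.P273.H887.Close1
import Vale.Agent.P273.H214.OneZ

/-!
# P273, row ASY1 (helper887): `OneZ` for the one mark gauge of a flat family
-/

noncomputable section

namespace Vale.P273.H887

open Vale.Agent.P273

/-- the one mark gauge of a flat family has the uniform zones -/
theorem oneZ_oneOf (Φ : H214.FlatFam) : OneZ (H214.oneOf Φ) where
  root := fun ξ b x y j hξ hb hy h => H214.oneOf_root Φ ξ b x y j hξ hb hy h
  far := ⟨fun ξ b => H604.Cinf (Φ.η ξ) (Φ.A ξ) b,
    fun ξ b w v hξ hb hv h => H214.oneOf_far Φ ξ b w v hξ hb hv h⟩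

end Vale.P273.H887

end
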