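import Vale.Agent.P273.H730.Glue
import Vale.Agent.P273.H887.OneZOf

/-!
# P273, row ASY1 (vii): the clauses `ClRoot` and `ClCol` in the form asked by `H730.Glue`
-/

noncomputable section

namespace Vale.P273.H887

open Vale.Agent.P273
open H681 H95 H879 H356

variable {O : H973.One}

/-- clause `root` near every merged configuration -/
theorem clRoot (hZ : OneZ O) : ∀ k, ∀ q₀ ∈ H828.XD k, H730.NearQ k q₀ (H730.ClRoot O k) := by
  intro k q₀ hq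
  obtain ⟨U, hU, c₀, hc₀, h⟩ := root_loc hZ k q₀ hq
  refine ⟨U, hU, c₀, hc₀, fun c hc hcc => ?_⟩
  obtain ⟨R₁, hR₁, h⟩ := h c hc hcc
  exact ⟨R₁, hR₁, fun R₀ hR₀ => h R₀ hR₀⟩

/-- clause `col` near every merged configuration -/
theorem clCol (hZ : OneZ O) : ∀ k, ∀ q₀ ∈ H828.XD k, H730.NearQ k q₀ (H730.ClCol O k) := by
  intro k q₀ hq
  obtain ⟨U, hU, c₀, hc₀, h⟩ := col_loc hZ k q₀ hq
  refine ⟨U, hU, c₀, hc₀, fun c hc hcc => ?_⟩
  obtain ⟨R₁, hR₁, h⟩ := h c hc hcc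
  exact ⟨R₁, hR₁, fun R₀ hR₀ => h R₀ hR₀⟩

/-- both clauses for the one form attached to a flat family -/
theorem clRoot_oneOf (Φ : H214.FlatFam) : ∀ k, ∀ q₀ ∈ H828.XD k,
    H730.NearQ k q₀ (H730.ClRoot (H214.oneOf Φ) k) := clRoot (oneZ_oneOf Φ)

theorem clCol_oneOf (Φ : H214.FlatFam) : ∀ k, ∀ q₀ ∈ H828.XD k,
    H730.NearQ k q₀ (H730.ClCol (H214.oneOf Φ) k) := clCol (oneZ_oneOf Φ)

end Vale.P273.H887

end
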