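import Vale.Agent.P273.H887.Geo2
import Vale.Agent.P273.H578.Col
import Vale.Agent.P273.H401.Ch1

/-!
# P273, row ASY1 (helper887): clauses (II), (III) of `Asy1C` for `θ = th O`

Uniform vanishing near the other roots and uniform coincidence of the forms of close marks, near the
divisor where the roots `k`, `k+1` coincide.
-/

noncomputable section

namespace Vale.P273.H887

open Set Filter Vale.Agent.P273 Vale.Agent.P273.H681 Vale.Agent.P273.H95 Vale.Agent.P273.H973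
open Vale.Agent.P273.H578 (Pt fb rad rad_pos)
open Vale.Agent.P273.H214 (hh)
open Vale.Agent.P273.H604 (Rr)
open Vale.Agent.P273.H879 (oj toSp zh toE InReg Co1 Dir1 wr cw1)
open scoped Topology ContDiff

variable {O : One} {ξ : Fin 6 → ℝ} {S : L → Bool} {e : E} {v : L → ℂ}

/-! ### close marks -/

/-- close finite marks have the same form -/
theorem th_of_cls (hb : e.1 ∈ XX) (hv : OnC S (rts e.1) e.2 v) {i j : L} (hne : i ≠ j)
    (ht : i.2 = j.2) (hi : ¬ (S i = true ∧ e.2 i = 0)) (hj : ¬ (S j = true ∧ e.2 j = 0))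
    (h : Cls e.1 (Xp S e i, Yp S e v i) (Xp S e j, Yp S e v j)) (hξ : IsCl ξ) :
    th O i ξ S e v = th O j ξ S e v := by
  have key : ∀ (t : Bool) (k l : Fin 7), l < k → ¬ (S (k, t) = true ∧ e.2 (k, t) = 0) →
      ¬ (S (l, t) = true ∧ e.2 (l, t) = 0) →
      Cls e.1 (Xp S e (k, t), Yp S e v (k, t)) (Xp S e (l, t), Yp S e v (l, t)) →
      th O (k, t) ξ S e v = th O (l, t) ξ S e v := by
    intro t k l hlk hk hl hc
    rw [th_good O ξ hb hv, th_good O ξ hb hv]
    refine (H578.thE_close O (brE_BrE hb hv) hlk hk hl ?_).self_of_nhds ξ hξ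
    rw [brE_self hv]
    exact (hc k k.2).1
  obtain ⟨k, t⟩ := i
  obtain ⟨l, t'⟩ := j
  obtain rfl : t = t' := ht
  have hkl : k ≠ l := fun h0 => hne (by rw [h0])
  rcases lt_or_gt_of_ne hkl with h1 | h1
  · exact (key t l k h1 hj hi h.symm).symm
  · exact key t k l h1 hi hj h

theorem pt_false (hv : OnC S (rts e.1) e.2 v) {j : L} (hS : S j = false) :
    Pt e.1 (e.2 j, v j) := by
  have h := hv j
  rw [hS, pol_false] at h
  exact h

theorem pt_true (hv : OnC S (rts e.1) e.2 v) {j : L} (hS : S j = true) (hw : e.2 j ≠ 0) :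
    Pt e.1 ((e.2 j)⁻¹, v j * ((e.2 j)⁻¹) ^ 3) := by
  have h := pt_PP (S := S) (t := j.2) (k := j.1) (e := e) (v := v) hv (fun h0 => hw h0.2)
  have h1 : PP S j.2 e v j.1 = ((e.2 j)⁻¹, v j * ((e.2 j)⁻¹) ^ 3) := by
    show (Xp S e j, Yp S e v j) = _
    unfold Xp Yp
    rw [hS]
    simp
  rwa [h1] at h

theorem XY_false {j : L} (hS : S j = false) : (Xp S e j, Yp S e v j) = (e.2 j, v j) := by
  unfold Xp Yp
  rw [hS]
  simp

theorem XY_true {j : L} (hS : S j = true) :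
    (Xp S e j, Yp S e v j) = ((e.2 j)⁻¹, v j * ((e.2 j)⁻¹) ^ 3) := by
  unfold Xp Yp
  rw [hS]
  simp

/-! ### compact sets of merged configurations -/

/-- the index of the root `l` outside of the pair -/
def jo (k : Fin 5) (l : Fin 4) : Fin 6 :=
  ⟨if l.1 < k.1 then l.1 else l.1 + 2, by have := l.2; split_ifs <;> omega⟩

theorem jo_ne (k : Fin 5) (l : Fin 4) : jo k l ≠ k.castSucc ∧ jo k l ≠ k.succ := by
  constructor <;> intro h <;> have h1 := congrArg Fin.val h <;> simp only [jo, Fin.val_castSucc,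
    Fin.val_succ] at h1 <;> split_ifs at h1 <;> omega

theorem oj_jo (k : Fin 5) (l : Fin 4) : oj k (jo k l) = l := by
  apply Fin.ext
  show (if (jo k l).1 < k.1 then (jo k l).1 else (jo k l).1 - 2) = l.1
  unfold jo
  simp only
  split_ifs <;> omega

theorem exists_low {K : Set C6} (hK : IsCompact K) {i j : Fin 6}
    (h : ∀ b ∈ K, b i ≠ b j) : ∃ δ > 0, ∀ b ∈ K, δ ≤ ‖b i - b j‖ := by
  rcases K.eq_empty_or_nonempty with rfl | hne
  · exact ⟨1, one_pos, fun b hb => absurd hb (notMem_empty b)⟩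
  · have hc : Continuous fun b : C6 => ‖b i - b j‖ := by fun_prop
    obtain ⟨b0, hb0, hmin⟩ := hK.exists_isMinOn hne hc.continuousOn
    exact ⟨‖b0 i - b0 j‖, norm_pos_iff.2 (sub_ne_zero.2 (h b0 hb0)), fun b hb => hmin hb⟩

theorem ne_of_XD {k : Fin 5} {b : C6} (hb : b ∈ H828.XD k) {i j : Fin 6} (hij : i ≠ j)
    (h1 : ¬ (i = k.castSucc ∧ j = k.succ)) (h2 : ¬ (i = k.succ ∧ j = k.castSucc)) :
    b i ≠ b j := by
  have key : ∀ i j : Fin 6, i < j → ¬ (i = k.castSucc ∧ j = k.succ) → b i ≠ b j := by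
    intro i j hlt h3 heq
    have h4 := hb.2 i j hlt (by tauto) (by rw [heq])
    rw [heq] at h4
    exact lt_irrefl _ h4
  rcases lt_or_gt_of_ne hij with h | h
  · exact key i j h h1
  · exact fun heq => key j i h (fun h3 => h2 ⟨h3.2, h3.1⟩) heq.symm

/-- the separation of the roots on a compact set of merged configurations -/
theorem exists_sep {k : Fin 5} {K : Set C6} (hKX : K ⊆ H828.XD k) (hK : IsCompact K) :
    ∃ δ > 0, ∃ M > 0, ∀ b ∈ K, (∀ j, ‖b j‖ ≤ M) ∧ ∀ i j, i ≠ j →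
      ¬ (i = k.castSucc ∧ j = k.succ) → ¬ (i = k.succ ∧ j = k.castSucc) → δ ≤ ‖b i - b j‖ := by
  obtain ⟨M, hM⟩ := hK.isBounded.exists_norm_le
  have h1 : ∀ p : Fin 6 × Fin 6, ∃ δ > 0, ∀ b ∈ K, p.1 ≠ p.2 →
      ¬ (p.1 = k.castSucc ∧ p.2 = k.succ) → ¬ (p.1 = k.succ ∧ p.2 = k.castSucc) →
      δ ≤ ‖b p.1 - b p.2‖ := by
    intro p
    by_cases hp : p.1 ≠ p.2 ∧ ¬ (p.1 = k.castSucc ∧ p.2 = k.succ) ∧
      ¬ (p.1 = k.succ ∧ p.2 = k.castSucc)
    · obtain ⟨δ, hδ, h⟩ := exists_low hK (i := p.1) (j := p.2)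
        fun b hb => ne_of_XD (hKX hb) hp.1 hp.2.1 hp.2.2
      exact ⟨δ, hδ, fun b hb _ _ _ => h b hb⟩
    · exact ⟨1, one_pos, fun b _ h2 h3 h4 => absurd ⟨h2, h3, h4⟩ hp⟩
  choose d hd hd' using h1
  obtain ⟨p0, hp0⟩ := Finite.exists_min d
  refine ⟨d p0, hd p0, max M 1, lt_max_of_lt_right one_pos, fun b hb =>
    ⟨fun j => ((norm_le_pi_norm b j).trans (hM b hb)).trans (le_max_left _ _),
      fun i j h1 h2 h3 => (hp0 (i, j)).trans (hd' (i, j) b hb h1 h2 h3)⟩⟩

/-! ### the region -/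

section Region

variable {R : Region1} {m : Fin (R.n + 1)} {k : Fin 5} {K : Set C6} {c R₀ M₀ : ℝ}
  {p : Co1 R m} {g : ℂ}

theorem norm_zh (hc : 0 < c) (p : Co1 R m) : ‖zh c p‖ = c * Real.exp (-p.2.2.1 () / 2) := by
  unfold zh
  rw [norm_mul, Complex.norm_real, Real.norm_of_nonneg hc.le, Complex.norm_exp]
  congr 2
  simp

theorem norm_gap_le (hp : (wr R m).Inr p) (hy : 0 ≤ p.2.2.1 ())
    (a : Fin (R.n + 1)) : ‖(toSp c p).1 a‖ ≤ ‖cw1 c a‖ := by
  show ‖cw1 c a * (wr R m).tau p ⟨(), a⟩‖ ≤ _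
  rw [norm_mul]
  refine mul_le_of_le_one_right (norm_nonneg _) ?_
  rw [(wr R m).norm_tau, Real.exp_le_one_iff, neg_nonpos]
  exact (wr R m).ug_nonneg hp (fun k => (wr R m).ul_nonneg hp k (by cases k; exact hy)) _

theorem norm_cw1_le_one (hc : 0 < c) (hc1 : c ≤ 1) (a : Fin (R.n + 1)) :
    ‖(cw1 c a : ℂ)‖ ≤ 1 := by
  unfold cw1
  rw [norm_mul]
  have h : ∀ P : Prop, ∀ [Decidable P], ‖(if P then (c : ℂ) else 1)‖ ≤ 1 := by
    intro P _
    split_ifs
    · rw [Complex.norm_real, Real.norm_of_nonneg hc.le]; exact hc1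
    · simp
  exact mul_le_one₀ (h _) (norm_nonneg _) (h _)

/-- the neck coordinates are at most `c` -/
theorem norm_XX_le (hc : 0 < c) (hc1 : c ≤ 1) (hp : (wr R m).Inr p) (hy : 0 ≤ p.2.2.1 ())
    (i : ℕ) : ‖R.XX (toSp c p) i‖ ≤ c := by
  unfold Region1.XX
  rw [norm_prod]
  have h1 : ∀ a : Fin (R.n + 1), ‖(if (a : ℕ) ≤ i then (toSp c p).1 a else 1)‖ ≤
      if a = 0 then c else 1 := by
    intro a
    by_cases ha : a = 0
    · subst ha
      rw [if_pos (by simp), if_pos rfl]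
      refine (norm_gap_le hp hy 0).trans ?_
      unfold cw1
      rw [if_pos rfl, norm_mul, Complex.norm_real, Real.norm_of_nonneg hc.le]
      refine mul_le_of_le_one_right hc.le ?_
      split_ifs
      · rw [Complex.norm_real, Real.norm_of_nonneg hc.le]; exact hc1
      · simp
    · rw [if_neg ha]
      split_ifs
      · exact (norm_gap_le hp hy a).trans (norm_cw1_le_one hc hc1 a)
      · simp
  refine (Finset.prod_le_prod (fun _ _ => norm_nonneg _) fun a _ => h1 a).trans ?_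
  rw [Finset.prod_ite_eq' Finset.univ (0 : Fin (R.n + 1)) fun _ => c]
  simp

theorem norm_YY_le (hc : 0 < c) (hc1 : c ≤ 1) (hp : (wr R m).Inr p) (hy : 0 ≤ p.2.2.1 ())
    {i : ℕ} (hi : i < R.n) : ‖R.YY (toSp c p) i‖ ≤ c := by
  unfold Region1.YY
  rw [norm_prod]
  have h1 : ∀ a : Fin (R.n + 1), ‖(if i < (a : ℕ) then (toSp c p).1 a else 1)‖ ≤
      if a = Fin.last R.n then c else 1 := by
    intro a
    by_cases ha : a = Fin.last R.n
    · subst ha
      rw [if_pos (by simpa using hi), if_pos rfl]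
      refine (norm_gap_le hp hy _).trans ?_
      unfold cw1
      rw [if_pos (rfl : Fin.last R.n = Fin.last R.n), norm_mul, Complex.norm_real,
        Real.norm_of_nonneg hc.le]
      refine mul_le_of_le_one_left hc.le ?_
      split_ifs
      · rw [Complex.norm_real, Real.norm_of_nonneg hc.le]; exact hc1
      · simp
    · rw [if_neg ha]
      split_ifs
      · exact (norm_gap_le hp hy a).trans (norm_cw1_le_one hc hc1 a)
      · simp
  refine (Finset.prod_le_prod (fun _ _ => norm_nonneg _) fun a _ => h1 a).trans ?_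
  rw [Finset.prod_ite_eq' Finset.univ (Fin.last R.n) fun _ => c]
  simp

/-- the roots of a point of the region -/
theorem pair_of_reg {δ M : ℝ} (hc : 0 < c) (hcδ : c ≤ δ / 64)
    (hM : c ≤ 1) (hs : ∀ b ∈ K, (∀ j, ‖b j‖ ≤ M) ∧ ∀ i j, i ≠ j →
      ¬ (i = k.castSucc ∧ j = k.succ) → ¬ (i = k.succ ∧ j = k.castSucc) → δ ≤ ‖b i - b j‖)
    (hM₀ : 0 ≤ M₀) (h : InReg k K c R₀ M₀ S p g v) :
    Pair1 k δ (M + 1) (toE k c p).1 (R.ctr (toSp c p)) (zh c p) ∧
      (∀ l, (toE k c p).1 (jo k l) = R.oth (toSp c p) l) ∧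
      (∀ l, δ ≤ ‖R.ctr (toSp c p) - R.oth (toSp c p) l‖) ∧ ‖R.ctr (toSp c p)‖ ≤ M := by
  set q := toSp c p with hq
  set b0 : C6 := H828.pr k (fun j => R.oth q (oj k j)) (R.ctr q) 0 with hb0
  obtain ⟨hbd, hsep⟩ := hs b0 h.base
  have hne : k.castSucc ≠ k.succ := by
    intro h0
    have := congrArg Fin.val h0
    simp at this
  have v1 : b0 k.castSucc = R.ctr q := by
    rw [hb0]
    simp [H828.pr]
  have v2 : b0 k.succ = R.ctr q := by
    rw [hb0]
    simp [H828.pr, hne.symm]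
  have v3 : ∀ j, j ≠ k.castSucc → j ≠ k.succ → b0 j = R.oth q (oj k j) := by
    intro j h1 h2
    rw [hb0]
    simp [H828.pr, h1, h2]
  have w1 : (toE k c p).1 k.castSucc = R.ctr q - zh c p := by
    simp [toE, H828.pr, ← hq]
  have w2 : (toE k c p).1 k.succ = R.ctr q + zh c p := by
    simp [toE, H828.pr, hne.symm, ← hq]
  have w3 : ∀ j, j ≠ k.castSucc → j ≠ k.succ → (toE k c p).1 j = R.oth q (oj k j) := by
    intro j h1 h2
    simp [toE, H828.pr, h1, h2, ← hq]
  have hz : ‖zh c p‖ ≤ c := by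
    rw [norm_zh hc]
    refine mul_le_of_le_one_right hc.le ?_
    rw [Real.exp_le_one_iff]
    have := h.y
    linarith
  have hδ0 : ∀ l, δ ≤ ‖R.ctr q - R.oth q l‖ := by
    intro l
    obtain ⟨h1, h2⟩ := jo_ne k l
    have h3 := hsep k.castSucc (jo k l) (Ne.symm h1) (fun h4 => h2 h4.2) (fun h4 => hne h4.1)
    rw [v1, v3 _ h1 h2, oj_jo] at h3
    exact h3
  have hctr : ‖R.ctr q‖ ≤ M := by
    have := hbd k.castSucc
    rwa [v1] at this
  refine ⟨⟨w1, w2, fun j h1 h2 => ?_, fun i j hij h1 h2 h3 h4 => ?_, fun j => ?_, ?_, ?_⟩,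
    fun l => ?_, hδ0, hctr⟩
  · rw [w3 j h1 h2]
    have h3 := hsep j k.castSucc h1 (fun h4 => h1 h4.1) (fun h4 => h2 h4.1)
    rwa [v1, v3 j h1 h2] at h3
  · rw [w3 i h1 h2, w3 j h3 h4]
    have h5 := hsep i j hij (fun h6 => h1 h6.1) (fun h6 => h2 h6.1)
    rwa [v3 i h1 h2, v3 j h3 h4] at h5
  · by_cases h1 : j = k.castSucc
    · rw [h1, w1]
      have := norm_sub_le (R.ctr q) (zh c p)
      linarith
    · by_cases h2 : j = k.succ
      · rw [h2, w2]
        have := norm_add_le (R.ctr q) (zh c p)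
        linarith
      · rw [w3 j h1 h2, ← v3 j h1 h2]
        linarith [hbd j]
  · exact hz.trans hcδ
  · unfold zh
    exact mul_ne_zero (by exact_mod_cast hc.ne') (Complex.exp_ne_zero _)
  · obtain ⟨h1, h2⟩ := jo_ne k l
    rw [w3 _ h1 h2, oj_jo]

theorem XX_mul_mid (q : R.Sp) {i j : ℕ} (hij : i < j) : R.XX q j =
    (∏ a : Fin (R.n + 1), (if i < (a : ℕ) ∧ (a : ℕ) ≤ j then q.1 a else 1)) * R.XX q i := by
  unfold Region1.XX
  rw [← Finset.prod_mul_distrib]
  refine Finset.prod_congr rfl fun a _ => ?_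
  by_cases h1 : (a : ℕ) ≤ i
  · rw [if_pos (by omega), if_neg (by omega), if_pos h1, one_mul]
  · rw [if_neg h1, mul_one]
    by_cases h2 : (a : ℕ) ≤ j
    · rw [if_pos h2, if_pos ⟨by omega, h2⟩]
    · rw [if_neg h2, if_neg (by omega)]

theorem YY_mul_mid (q : R.Sp) {i j : ℕ} (hij : i < j) : R.YY q i =
    (∏ a : Fin (R.n + 1), (if i < (a : ℕ) ∧ (a : ℕ) ≤ j then q.1 a else 1)) * R.YY q j := by
  unfold Region1.YY
  rw [← Finset.prod_mul_distrib]
  refine Finset.prod_congr rfl fun a _ => ?_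
  by_cases h1 : i < (a : ℕ)
  · rw [if_pos h1]
    by_cases h2 : (a : ℕ) ≤ j
    · rw [if_pos ⟨h1, h2⟩, if_neg (by omega), mul_one]
    · rw [if_neg (by omega), if_pos (by omega), one_mul]
  · rw [if_neg h1, if_neg (by omega), if_neg (by omega), one_mul]

end Region

/-- **clauses (II) and (III)**, over a set of merged configurations with separated roots -/
theorem root_col_of_sep (hZ : OneZ O) (k : Fin 5) {K : Set C6} {δ M : ℝ} (hδ : 0 < δ) (hM : 0 < M)
    (hs : ∀ b ∈ K, (∀ j, ‖b j‖ ≤ M) ∧ ∀ i j, i ≠ j →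
      ¬ (i = k.castSucc ∧ j = k.succ) → ¬ (i = k.succ ∧ j = k.castSucc) → δ ≤ ‖b i - b j‖) :
    ∃ c₀ > 0, ∀ c, 0 < c → c ≤ c₀ → ∃ R₁ > 0, ∀ R₀ ≥ R₁,
    ∃ (M₀ r : ℝ), 0 < M₀ ∧ 0 < r ∧
    ∀ (R : Region1) (m : Fin (R.n + 1)) (S : L → Bool) (p : Co1 R m) (g : ℂ) (v : L → ℂ),
      InReg k K c R₀ M₀ S p g v →
      (∀ j : L, R.nk j = false → S j = false →
        (∃ l, ‖R.pos (toSp c p) j - R.oth (toSp c p) l‖ < r) →
        ∀ ξ, IsCl ξ → th O j ξ S (toE k c p) (R.sht (toSp c p) g v) = 0) ∧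
      ∀ i j : L, i ≠ j → i.2 = j.2 → H879.Close r S (toSp c p) g v i j →
        ∀ ξ, IsCl ξ → th O i ξ S (toE k c p) (R.sht (toSp c p) g v) =
          th O j ξ S (toE k c p) (R.sht (toSp c p) g v) := by
  refine ⟨min 1 (δ / 64), lt_min one_pos (by positivity), fun c hc hc0 => ?_⟩
  have hc1 : c ≤ 1 := hc0.trans (min_le_left _ _)
  have hcδ : c ≤ δ / 64 := hc0.trans (min_le_right _ _)
  refine ⟨M + 3, by positivity, fun R₀ hR₀ => ?_⟩
  have hR₀ : M + 3 ≤ R₀ := hR₀
  have hM1 : 0 ≤ M + 1 := by positivity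
  have hMR : M + 1 + 2 ≤ R₀ := by linarith
  have hR0 : 0 < R₀ := by linarith
  obtain ⟨r1, hr1, H1⟩ := close_core hδ hc
  obtain ⟨r2, hr2, H2⟩ := close_far hM1 hMR
  obtain ⟨r3, hr3, H3⟩ := close_mixed hM1 hMR
  have hr6 := rad_pos 6
  refine ⟨30, min (min (δ / 50) (min (1 / 1000) (rad 6 / 1000))) (min r1 (min r2 r3)), by norm_num,
    lt_min (lt_min (by positivity) (lt_min (by norm_num) (by positivity)))
      (lt_min hr1 (lt_min hr2 hr3)), ?_⟩
  intro R m S p g v h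
  set r : ℝ := min (min (δ / 50) (min (1 / 1000) (rad 6 / 1000))) (min r1 (min r2 r3)) with hr
  have q1 : r ≤ δ / 50 := (min_le_left _ _).trans (min_le_left _ _)
  have q2 : r ≤ 1 / 1000 := (min_le_left _ _).trans ((min_le_right _ _).trans (min_le_left _ _))
  have q3 : r ≤ rad 6 / 1000 :=
    (min_le_left _ _).trans ((min_le_right _ _).trans (min_le_right _ _))
  have q4 : r ≤ r1 := (min_le_right _ _).trans (min_le_left _ _)
  have q5 : r ≤ r2 := (min_le_right _ _).trans ((min_le_right _ _).trans (min_le_left _ _))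
  have q6 : r ≤ r3 := (min_le_right _ _).trans ((min_le_right _ _).trans (min_le_right _ _))
  obtain ⟨hP, hoth, hδo, hctr⟩ := pair_of_reg hc hcδ hc1 hs (by norm_num) h
  have hy0 : 0 ≤ p.2.2.1 () := le_trans (by norm_num) h.y
  set q := toSp c p with hq
  set e : E := toE k c p with he
  have he2 : ∀ j, e.2 j = R.pos q j := fun j => rfl
  have hzc : ‖zh c p‖ ≤ c / 16 := by
    rw [norm_zh hc]
    have h1 : Real.exp (-p.2.2.1 () / 2) ≤ 1 / 16 := by
      have h2 : Real.exp (-p.2.2.1 () / 2) ≤ Real.exp (-15) := by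
        apply Real.exp_le_exp.2
        have := h.y
        linarith
      have h3 : Real.exp (-15 : ℝ) ≤ 1 / 16 := by
        rw [Real.exp_neg, ← one_div]
        refine one_div_le_one_div_of_le (by norm_num) ?_
        have := Real.add_one_le_exp (15 : ℝ)
        linarith
      exact h2.trans h3
    nlinarith
  have zone : ∀ (j : L) (l : Fin 6) (ξ : Fin 6 → ℝ), IsCl ξ → S j = false →
      ‖e.2 j - e.1 l‖ < 29 / 256 * Real.sqrt (hh e.1 l) → th O j ξ S e (R.sht q g v) = 0 :=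
    fun j l ξ hξ hS hl => th_root_zone hZ hξ j hS l hl
  refine ⟨fun j hj hS hl ξ hξ => ?_, fun i j hne ht hcl ξ hξ => ?_⟩
  · obtain ⟨l, hl⟩ := hl
    obtain ⟨n1, n2⟩ := jo_ne k l
    refine zone j (jo k l) ξ hξ hS ?_
    rw [hoth l]
    exact (hl.trans_le q1).trans_le (hP.zone_out hδ n1 n2)
  · by_cases hg : e.1 ∈ XX ∧ OnC S (rts e.1) e.2 (R.sht q g v)
    swap
    · rw [th_bad O ξ hg i, th_bad O ξ hg j]
    obtain ⟨hb, hv⟩ := hg
    have hg0 : g ≠ 0 := by
      intro h0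
      have h1 := h.sheet.1
      rw [h0, zero_pow two_ne_zero] at h1
      obtain ⟨l, -, hl⟩ := Finset.prod_eq_zero_iff.1 h1.symm
      have := hδo l
      rw [hl, norm_zero] at this
      linarith
    have hfalse : ∀ j : L, R.nk j = true → S j = false := by
      intro j hj
      by_contra h0
      have h1 := h.far j (by simpa using h0)
      rw [hj] at h1
      exact absurd h1 (by simp)
    unfold H879.Close at hcl
    by_cases hnn : R.nk i = true ∧ R.nk j = true
    · rw [if_pos hnn] at hcl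
      obtain ⟨hrk, hμ⟩ := hcl
      have hni := R.rk_lt i hnn.1
      have hnj := R.rk_lt j hnn.2
      have hSi := hfalse i hnn.1
      have hSj := hfalse j hnn.2
      have hXY : R.XX q (R.rk i) * R.YY q (R.rk i) = zh c p ^ 2 := by
        rw [H883.XX_mul_YY, hq, H401.Ch1.eps_toSp]
      have hcX : ∀ i : ℕ, ‖R.XX q i‖ ≤ δ / 64 := fun i =>
        (norm_XX_le hc hc1 h.inr hy0 i).trans hcδ
      have hcY : ∀ i : ℕ, i < R.n → ‖R.YY q i‖ ≤ δ / 64 := fun i hi =>
        (norm_YY_le hc hc1 h.inr hy0 hi).trans hcδ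
      have key := close_neck (μ := ∏ a : Fin (R.n + 1),
          (if R.rk i < (a : ℕ) ∧ (a : ℕ) ≤ R.rk j then q.1 a else 1)) (g := g)
        (o := R.oth q) hδ hP q2 q3 hδo hg0 hXY (XX_mul_mid q hrk) (YY_mul_mid q hrk) hμ
        (hcX _) (hcY _ hni) (hcX _) (hcY _ hnj)
      rw [← H883.pos_neck (p := q) hnn.1, ← H883.pos_neck (p := q) hnn.2,
        ← H883.sht_neck (p := q) hnn.1 g v, ← H883.sht_neck (p := q) hnn.2 g v] at key
      rcases key with ⟨l, hl, h1, h2⟩ | key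
      · have h3 := hP.zone_pair hδ hl
        rw [zone i l ξ hξ hSi (h1.trans_le h3), zone j l ξ hξ hSj (h2.trans_le h3)]
      · refine th_of_cls hb hv hne ht (fun h0 => ?_) (fun h0 => ?_) ?_ hξ
        · rw [hSi] at h0
          exact absurd h0.1 (by simp)
        · rw [hSj] at h0
          exact absurd h0.1 (by simp)
        · rw [XY_false hSi, XY_false hSj]
          exact key
    · rw [if_neg hnn] at hcl
      cases hSi : S i <;> cases hSj : S j
      · -- both in the chart x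
        rw [hSi, hSj, if_pos rfl] at hcl
        have hcore : c / 4 ≤ ‖R.pos q i - R.ctr q‖ ∨ c / 4 ≤ ‖R.pos q j - R.ctr q‖ := by
          by_cases hi : R.nk i = true
          · have hj : R.nk j = false := by
              by_contra h0
              exact hnn ⟨hi, by simpa using h0⟩
            have h1 := h.zone j hj
            rw [hSj] at h1
            simp only [Bool.false_eq_true, if_false] at h1
            exact Or.inr h1.2
          · have h1 := h.zone i (by simpa using hi)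
            rw [hSi] at h1
            simp only [Bool.false_eq_true, if_false] at h1
            exact Or.inl h1.2
        have key := H1 k e.1 (R.ctr q) (zh c p) (e.2 i, R.sht q g v i) (e.2 j, R.sht q g v j)
          hP.c1 hP.c2 hzc (pt_false hv hSi) hcore (hcl.1.trans_le q4) (hcl.2.trans_le q4)
        rcases key with ⟨l, n1, n2, h1, h2⟩ | key
        · have h3 := hP.zone_out hδ n1 n2
          rw [zone i l ξ hξ hSi (h1.trans_le h3), zone j l ξ hξ hSj (h2.trans_le h3)]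
        · refine th_of_cls hb hv hne ht (fun h0 => ?_) (fun h0 => ?_) ?_ hξ
          · rw [hSi] at h0
            exact absurd h0.1 (by simp)
          · rw [hSj] at h0
            exact absurd h0.1 (by simp)
          · rw [XY_false hSi, XY_false hSj]
            exact key
      · -- i near, j far
        rw [hSi, hSj, if_neg (by simp)] at hcl
        have hnj : R.nk j = false := h.far j hSj
        have hw := h.zone j hnj
        rw [hSj, if_pos rfl] at hw
        have hx : ‖R.pos q i‖ ≤ R₀ := by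
          by_cases hi : R.nk i = true
          · rw [H883.pos_neck hi]
            have h1 := norm_XX_le hc hc1 h.inr hy0 (R.rk i)
            have h2 := norm_YY_le hc hc1 h.inr hy0 (R.rk_lt i hi)
            have h3 : ‖(R.XX q (R.rk i) + R.YY q (R.rk i)) / 2‖ ≤ c := by
              rw [norm_div, Complex.norm_ofNat]
              have := norm_add_le (R.XX q (R.rk i)) (R.YY q (R.rk i))
              linarith
            have := norm_add_le (R.ctr q) ((R.XX q (R.rk i) + R.YY q (R.rk i)) / 2)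
            linarith
          · have h1 := h.zone i (by simpa using hi)
            rw [hSi] at h1
            simp only [Bool.false_eq_true, if_false] at h1
            exact h1.1
        have hon : On1 true (e.1, e.2 j) (R.sht q g v j) := by
          have := hv j
          rwa [hSj] at this
        obtain ⟨hw0, key⟩ := H3 e.1 hP.bd (e.2 i) (R.sht q g v i) (e.2 j) (R.sht q g v j) hon
          (pt_true hv hSj) hx hw (hcl.1.trans_le q6) (Or.inl (hcl.2.trans_le q6))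
        refine th_of_cls hb hv hne ht (fun h0 => ?_) (fun h0 => hw0 h0.2) ?_ hξ
        · rw [hSi] at h0
          exact absurd h0.1 (by simp)
        · rw [XY_false hSi, XY_true hSj]
          exact key.symm
      · -- i far, j near
        rw [hSi, hSj, if_neg (by simp)] at hcl
        have hni : R.nk i = false := h.far i hSi
        have hw := h.zone i hni
        rw [hSi, if_pos rfl] at hw
        have hx : ‖R.pos q j‖ ≤ R₀ := by
          by_cases hj : R.nk j = true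
          · rw [H883.pos_neck hj]
            have h1 := norm_XX_le hc hc1 h.inr hy0 (R.rk j)
            have h2 := norm_YY_le hc hc1 h.inr hy0 (R.rk_lt j hj)
            have h3 : ‖(R.XX q (R.rk j) + R.YY q (R.rk j)) / 2‖ ≤ c := by
              rw [norm_div, Complex.norm_ofNat]
              have := norm_add_le (R.XX q (R.rk j)) (R.YY q (R.rk j))
              linarith
            have := norm_add_le (R.ctr q) ((R.XX q (R.rk j) + R.YY q (R.rk j)) / 2)
            linarith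
          · have h1 := h.zone j (by simpa using hj)
            rw [hSj] at h1
            simp only [Bool.false_eq_true, if_false] at h1
            exact h1.1
        have hon : On1 true (e.1, e.2 i) (R.sht q g v i) := by
          have := hv i
          rwa [hSi] at this
        have hxw : ‖R.pos q j * R.pos q i - 1‖ < r3 := by
          rw [mul_comm]
          exact hcl.1.trans_le q6
        obtain ⟨hw0, key⟩ := H3 e.1 hP.bd (e.2 j) (R.sht q g v j) (e.2 i) (R.sht q g v i) hon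
          (pt_true hv hSi) hx hw hxw (Or.inr (hcl.2.trans_le q6))
        refine th_of_cls hb hv hne ht (fun h0 => hw0 h0.2) (fun h0 => ?_) ?_ hξ
        · rw [hSj] at h0
          exact absurd h0.1 (by simp)
        · rw [XY_true hSi, XY_false hSj]
          exact key
      · -- both far
        rw [hSi, hSj, if_pos rfl] at hcl
        have hwi := h.zone i (h.far i hSi)
        have hwj := h.zone j (h.far j hSj)
        rw [hSi, if_pos rfl] at hwi
        rw [hSj, if_pos rfl] at hwj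
        have honi : On1 true (e.1, e.2 i) (R.sht q g v i) := by
          have := hv i
          rwa [hSi] at this
        have honj : On1 true (e.1, e.2 j) (R.sht q g v j) := by
          have := hv j
          rwa [hSj] at this
        have key := H2 e.1 hP.bd (e.2 i) (R.sht q g v i) (e.2 j) (R.sht q g v j) honi honj
          (pt_true hv hSi) hwi hwj (hcl.1.trans_le q5) (hcl.2.trans_le q5)
        rcases key with ⟨z1, z2, hre⟩ | ⟨w1, w2, key⟩
        · obtain ⟨G, hG⟩ := th_far_zone hZ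
          rw [hG ξ hξ S e (R.sht q g v) i hb hv hSi z1, hG ξ hξ S e (R.sht q g v) j hb hv hSj z2]
          simp only [hre]
        · refine th_of_cls hb hv hne ht (fun h0 => w1 h0.2) (fun h0 => w2 h0.2) ?_ hξ
          rw [XY_true hSi, XY_true hSj]
          exact key

/-- clauses (II) and (III) of `Asy1C` over compact sets -/
theorem asy_root_col (hZ : OneZ O) (k : Fin 5) {K : Set C6} (hKX : K ⊆ H828.XD k)
    (hK : IsCompact K) : ∃ c₀ > 0, ∀ c, 0 < c → c ≤ c₀ → ∃ R₁ > 0, ∀ R₀ ≥ R₁,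
    ∃ (M₀ r : ℝ), 0 < M₀ ∧ 0 < r ∧
    ∀ (R : Region1) (m : Fin (R.n + 1)) (S : L → Bool) (p : Co1 R m) (g : ℂ) (v : L → ℂ),
      InReg k K c R₀ M₀ S p g v →
      (∀ j : L, R.nk j = false → S j = false →
        (∃ l, ‖R.pos (toSp c p) j - R.oth (toSp c p) l‖ < r) →
        ∀ ξ, IsCl ξ → th O j ξ S (toE k c p) (R.sht (toSp c p) g v) = 0) ∧
      ∀ i j : L, i ≠ j → i.2 = j.2 → H879.Close r S (toSp c p) g v i j →
        ∀ ξ, IsCl ξ → th O i ξ S (toE k c p) (R.sht (toSp c p) g v) =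
          th O j ξ S (toE k c p) (R.sht (toSp c p) g v) := by
  obtain ⟨δ, hδ, M, hM, hs⟩ := exists_sep hKX hK
  exact root_col_of_sep hZ k hδ hM hs

theorem exists_sep_loc {k : Fin 5} {q₀ : C6} (hq : q₀ ∈ H828.XD k) : ∃ U ∈ 𝓝 q₀, ∃ δ > 0, ∃ M > 0,
    ∀ b ∈ U, (∀ j, ‖b j‖ ≤ M) ∧ ∀ i j, i ≠ j →
      ¬ (i = k.castSucc ∧ j = k.succ) → ¬ (i = k.succ ∧ j = k.castSucc) → δ ≤ ‖b i - b j‖ := by
  obtain ⟨δ, hδ, M, hM, hs⟩ := exists_sep (K := {q₀}) (singleton_subset_iff.2 hq)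
    isCompact_singleton
  obtain ⟨h1, h2⟩ := hs q₀ rfl
  refine ⟨Metric.ball q₀ (δ / 4), Metric.ball_mem_nhds q₀ (by positivity), δ / 2, half_pos hδ,
    M + δ / 4, by positivity, fun b hb => ?_⟩
  have hb' : ∀ j, ‖b j - q₀ j‖ ≤ δ / 4 := fun j => by
    rw [Metric.mem_ball, dist_eq_norm] at hb
    exact (norm_le_pi_norm (b - q₀) j).trans hb.le
  refine ⟨fun j => ?_, fun i j hij h3 h4 => ?_⟩
  · have h5 := norm_add_le (b j - q₀ j) (q₀ j)
    rw [sub_add_cancel] at h5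
    linarith [hb' j, h1 j]
  · have h5 := h2 i j hij h3 h4
    have h6 : q₀ i - q₀ j = (b i - b j) - (b i - q₀ i) + (b j - q₀ j) := by ring
    have h7 : ‖q₀ i - q₀ j‖ ≤ ‖b i - b j‖ + ‖b i - q₀ i‖ + ‖b j - q₀ j‖ := by
      rw [h6]
      refine (norm_add_le _ _).trans ?_
      gcongr
      exact norm_sub_le _ _
    linarith [hb' i, hb' j]

/-- **clauses `root` and `col` of `H356.Bds`, near every merged configuration** (in the shape of
`H356.AsyLoc`) -/
theorem root_col_loc (hZ : OneZ O) : ∀ k : Fin 5, ∀ q₀ ∈ H828.XD k, ∃ U ∈ 𝓝 q₀, ∃ c₀ > 0, ∀ c,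
    0 < c → c ≤ c₀ → ∃ R₁ > 0, ∀ R₀ ≥ R₁, ∃ (M₀ B r : ℝ), 0 < M₀ ∧ 0 < B ∧ 0 < r ∧
    ∀ (R : Region1) (m : Fin (R.n + 1)) (S : L → Bool) (p : Co1 R m) (g : ℂ) (v : L → ℂ),
      InReg k (U ∩ H828.XD k) c R₀ M₀ S p g v →
      (∀ j : L, R.nk j = false → S j = false →
        (∃ l, ‖R.pos (toSp c p) j - R.oth (toSp c p) l‖ < r) →
        ∀ ξ, IsCl ξ → th O j ξ S (toE k c p) (R.sht (toSp c p) g v) = 0) ∧
      ∀ i j : L, i ≠ j → i.2 = j.2 → H879.Close r S (toSp c p) g v i j →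
        ∀ ξ, IsCl ξ → th O i ξ S (toE k c p) (R.sht (toSp c p) g v) =
          th O j ξ S (toE k c p) (R.sht (toSp c p) g v) := by
  intro k q₀ hq
  obtain ⟨U, hU, δ, hδ, M, hM, hs⟩ := exists_sep_loc hq
  obtain ⟨c₀, hc₀, h⟩ := root_col_of_sep (K := U ∩ H828.XD k) hZ k hδ hM fun b hb => hs b hb.1
  refine ⟨U, hU, c₀, hc₀, fun c hc hcc => ?_⟩
  obtain ⟨R₁, hR₁, h⟩ := h c hc hcc
  refine ⟨R₁, hR₁, fun R₀ hR₀ => ?_⟩
  obtain ⟨M₀, r, hM₀, hr, h⟩ := h R₀ hR₀
  exact ⟨M₀, 1, r, hM₀, one_pos, hr, h⟩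

/-- clause `root` alone -/
theorem root_loc (hZ : OneZ O) : ∀ k : Fin 5, ∀ q₀ ∈ H828.XD k, ∃ U ∈ 𝓝 q₀, ∃ c₀ > 0, ∀ c,
    0 < c → c ≤ c₀ → ∃ R₁ > 0, ∀ R₀ ≥ R₁, ∃ (M₀ B r : ℝ), 0 < M₀ ∧ 0 < B ∧ 0 < r ∧
    ∀ (R : Region1) (m : Fin (R.n + 1)) (S : L → Bool) (p : Co1 R m) (g : ℂ) (v : L → ℂ),
      InReg k (U ∩ H828.XD k) c R₀ M₀ S p g v →
      ∀ j : L, R.nk j = false → S j = false →
        (∃ l, ‖R.pos (toSp c p) j - R.oth (toSp c p) l‖ < r) →
        ∀ ξ, IsCl ξ → th O j ξ S (toE k c p) (R.sht (toSp c p) g v) = 0 := by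
  intro k q₀ hq
  obtain ⟨U, hU, c₀, hc₀, h⟩ := root_col_loc hZ k q₀ hq
  refine ⟨U, hU, c₀, hc₀, fun c hc hcc => ?_⟩
  obtain ⟨R₁, hR₁, h⟩ := h c hc hcc
  refine ⟨R₁, hR₁, fun R₀ hR₀ => ?_⟩
  obtain ⟨M₀, B, r, hM₀, hB, hr, h⟩ := h R₀ hR₀
  exact ⟨M₀, B, r, hM₀, hB, hr, fun R m S p g v hp => (h R m S p g v hp).1⟩

/-- clause `col` alone -/
theorem col_loc (hZ : OneZ O) : ∀ k : Fin 5, ∀ q₀ ∈ H828.XD k, ∃ U ∈ 𝓝 q₀, ∃ c₀ > 0, ∀ c,
    0 < c → c ≤ c₀ → ∃ R₁ > 0, ∀ R₀ ≥ R₁, ∃ (M₀ B r : ℝ), 0 < M₀ ∧ 0 < B ∧ 0 < r ∧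
    ∀ (R : Region1) (m : Fin (R.n + 1)) (S : L → Bool) (p : Co1 R m) (g : ℂ) (v : L → ℂ),
      InReg k (U ∩ H828.XD k) c R₀ M₀ S p g v →
      ∀ i j : L, i ≠ j → i.2 = j.2 → H879.Close r S (toSp c p) g v i j →
        ∀ ξ, IsCl ξ → th O i ξ S (toE k c p) (R.sht (toSp c p) g v) =
          th O j ξ S (toE k c p) (R.sht (toSp c p) g v) := by
  intro k q₀ hq
  obtain ⟨U, hU, c₀, hc₀, h⟩ := root_col_loc hZ k q₀ hq
  refine ⟨U, hU, c₀, hc₀, fun c hc hcc => ?_⟩
  obtain ⟨R₁, hR₁, h⟩ := h c hc hcc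
  refine ⟨R₁, hR₁, fun R₀ hR₀ => ?_⟩
  obtain ⟨M₀, B, r, hM₀, hB, hr, h⟩ := h R₀ hR₀
  exact ⟨M₀, B, r, hM₀, hB, hr, fun R m S p g v hp => (h R m S p g v hp).2⟩

end Vale.P273.H887

end
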