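import Vale.Agent.P273.H887.FibL1

/-!
# `LocMaj` from bounds of components
-/

open ContinuousAlternatingMap MeasureTheory Set Filter
open scoped Topology

set_option linter.unusedSectionVars false

namespace Vale.P273.H887

variable {B Y V G : Type*} [NormedAddCommGroup B] [NormedSpace ℝ B]
  [NormedAddCommGroup Y] [NormedSpace ℝ Y]
  [NormedAddCommGroup V] [NormedSpace ℝ V]
  [NormedAddCommGroup G] [NormedSpace ℝ G] {n m k d : ℕ}

/-- a bound for the coordinates in a basis. -/
theorem exists_repr_bound [FiniteDimensional ℝ B] (e : Module.Basis (Fin d) ℝ B) :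
    ∃ C : ℝ, 0 < C ∧ ∀ (x : B) (j : Fin d), |e.repr x j| ≤ C * ‖x‖ := by
  have h : ∀ j : Fin d, ∃ C : ℝ, ∀ x : B, |e.repr x j| ≤ C * ‖x‖ := by
    intro j
    let L : B →L[ℝ] ℝ := LinearMap.toContinuousLinearMap (e.coord j)
    exact ⟨‖L‖, fun x => L.le_opNorm x⟩
  choose C hC using h
  refine ⟨1 + ∑ j, |C j|, by positivity, fun x j => (hC j x).trans ?_⟩
  refine mul_le_mul_of_nonneg_right ?_ (norm_nonneg x)
  have := Finset.single_le_sum (f := fun j => |C j|) (fun j _ => abs_nonneg _) (Finset.mem_univ j)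
  linarith [le_abs_self (C j)]

/-- the norm of an alternating form is bounded by its components. -/
theorem exists_norm_le_components [FiniteDimensional ℝ B] (e : Module.Basis (Fin d) ℝ B) (k : ℕ) :
    ∃ C : ℝ, 0 < C ∧ ∀ η : B [⋀^Fin k]→L[ℝ] G,
      ‖η‖ ≤ C * ∑ I : Fin k → Fin d, ‖η (fun i => e (I i))‖ := by
  obtain ⟨C, hC0, hC⟩ := exists_repr_bound e
  refine ⟨C ^ k, by positivity, fun η => ?_⟩
  refine ContinuousAlternatingMap.opNorm_le_bound η
    (mul_nonneg (by positivity) (Finset.sum_nonneg fun I _ => norm_nonneg _)) fun v => ?_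
  have h1 : η v = ∑ I : Fin k → Fin d, (∏ i, e.repr (v i) (I i)) • η (fun i => e (I i)) := by
    have h2 : v = fun i => ∑ j, e.repr (v i) j • e j := by
      funext i
      exact (e.sum_repr (v i)).symm
    conv_lhs => rw [h2]
    have h3 := (η.toContinuousMultilinearMap.toMultilinearMap).map_sum
      (g := fun (i : Fin k) (j : Fin d) => e.repr (v i) j • e j)
    have h4 : η (fun i => ∑ j, e.repr (v i) j • e j) =
        ∑ I : Fin k → Fin d, η (fun i => e.repr (v i) (I i) • e (I i)) := h3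
    rw [h4]
    refine Finset.sum_congr rfl fun I _ => ?_
    exact (η.toContinuousMultilinearMap.toMultilinearMap).map_smul_univ _ _
  rw [h1, Finset.mul_sum, Finset.sum_mul]
  refine (norm_sum_le _ _).trans (Finset.sum_le_sum fun I _ => ?_)
  rw [norm_smul, Real.norm_eq_abs, Finset.abs_prod]
  have h5 : ∏ i, |e.repr (v i) (I i)| ≤ ∏ i, (C * ‖v i‖) :=
    Finset.prod_le_prod (fun i _ => abs_nonneg _) fun i _ => hC _ _
  rw [Finset.prod_mul_distrib, Finset.prod_const, Finset.card_univ, Fintype.card_fin] at h5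
  calc (∏ i, |e.repr (v i) (I i)|) * ‖η fun i => e (I i)‖
      ≤ (C ^ k * ∏ i, ‖v i‖) * ‖η fun i => e (I i)‖ :=
        mul_le_mul_of_nonneg_right h5 (norm_nonneg _)
    _ = C ^ k * ‖η fun i => e (I i)‖ * ∏ i, ‖v i‖ := by ring

/-- the norm of a linear map is bounded by its values on a basis. -/
theorem exists_norm_le_basis [FiniteDimensional ℝ B] (e : Module.Basis (Fin d) ℝ B) :
    ∃ C : ℝ, 0 < C ∧ ∀ A : B →L[ℝ] V, ‖A‖ ≤ C * ∑ j : Fin d, ‖A (e j)‖ := by
  obtain ⟨C, hC0, hC⟩ := exists_repr_bound e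
  refine ⟨C, hC0, fun A => ?_⟩
  refine A.opNorm_le_bound
    (mul_nonneg hC0.le (Finset.sum_nonneg fun I _ => norm_nonneg _)) fun v => ?_
  conv_lhs => rw [← e.sum_repr v, _root_.map_sum]
  rw [Finset.mul_sum, Finset.sum_mul]
  refine (norm_sum_le _ _).trans (Finset.sum_le_sum fun j _ => ?_)
  rw [_root_.map_smul, norm_smul, Real.norm_eq_abs]
  calc |e.repr v j| * ‖A (e j)‖ ≤ (C * ‖v‖) * ‖A (e j)‖ :=
        mul_le_mul_of_nonneg_right (hC v j) (norm_nonneg _)
    _ = C * ‖A (e j)‖ * ‖v‖ := by ring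

variable [MeasurableSpace Y] [BorelSpace Y] [FiniteDimensional ℝ Y]
  {μ : Measure Y}

/-- `LocMaj` of the fibre integrand from majorants of the components and of their base
derivatives. -/
theorem locMaj_of_components [FiniteDimensional ℝ B] (e : Module.Basis (Fin d) ℝ B)
    {U : Set B} (hU : IsOpen U) (w : Fin n → Y)
    {ω : B × Y → (B × Y) [⋀^Fin (k + n)]→L[ℝ] G} (hω : ContDiffOn ℝ 1 ω (U ×ˢ univ))
    (h : ∀ b ∈ U, ∃ N ∈ 𝓝 b, ∃ g : Y → ℝ, Integrable g μ ∧ ∀ b' ∈ N, ∀ y,
      ∀ I : Fin k → Fin d, ‖ω (b', y) (tup (k + n) n k w fun i => e (I i))‖ ≤ g y ∧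
        ∀ j : Fin d, ‖fderiv ℝ (fun b'' => ω (b'', y) (tup (k + n) n k w fun i => e (I i))) b'
          (e j)‖ ≤ g y) :
    LocMaj μ U (fun p => hor n w (ω p)) := by
  obtain ⟨C1, hC1, h1⟩ := exists_norm_le_components (G := G) e k
  obtain ⟨C2, hC2, h2⟩ := exists_norm_le_basis (V := B [⋀^Fin k]→L[ℝ] G) e
  intro b hb
  obtain ⟨N, hN, g, hg, hgb⟩ := h b hb
  set K : ℝ := (Fintype.card (Fin k → Fin d) : ℝ) with hK
  refine ⟨N ∩ U, inter_mem hN (hU.mem_nhds hb),
    fun y => (C1 * K + C2 * (d * (C1 * K))) * |g y|, (hg.abs).const_mul _, ?_⟩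
  rintro b' ⟨hb', hb'U⟩ y
  have hK0 : 0 ≤ K := by positivity
  have hd : DifferentiableAt ℝ ω (b', y) :=
    (hω.contDiffAt ((hU.prod isOpen_univ).mem_nhds ⟨hb'U, mem_univ y⟩)).differentiableAt
      one_ne_zero
  have hdh : HasFDerivAt (fun p => hor n w (ω p)) ((hor n w).comp (fderiv ℝ ω (b', y))) (b', y) :=
    (hor (B := B) (G := G) (k := k) n w).hasFDerivAt.comp (b', y) hd.hasFDerivAt
  have hn1 : ‖hor n w (ω (b', y))‖ ≤ C1 * K * |g y| := by
    refine (h1 _).trans ?_
    rw [mul_assoc]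
    refine mul_le_mul_of_nonneg_left ?_ hC1.le
    calc ∑ I : Fin k → Fin d, ‖hor n w (ω (b', y)) fun i => e (I i)‖
        ≤ ∑ _I : Fin k → Fin d, |g y| := Finset.sum_le_sum fun I _ => by
          rw [hor_apply]
          exact (hgb b' hb' y I).1.trans (le_abs_self _)
      _ = K * |g y| := by
          rw [Finset.sum_const, nsmul_eq_mul, Finset.card_univ]
  have hn2 : ‖(fderiv ℝ (fun p => hor n w (ω p)) (b', y)).comp
      (ContinuousLinearMap.inl ℝ B Y)‖ ≤ C2 * (d * (C1 * K)) * |g y| := by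
    refine (h2 _).trans ?_
    have h3 : ∀ j : Fin d, ‖((fderiv ℝ (fun p => hor n w (ω p)) (b', y)).comp
        (ContinuousLinearMap.inl ℝ B Y)) (e j)‖ ≤ C1 * K * |g y| := by
      intro j
      refine (h1 _).trans ?_
      rw [mul_assoc]
      refine mul_le_mul_of_nonneg_left ?_ hC1.le
      calc ∑ I : Fin k → Fin d, ‖((fderiv ℝ (fun p => hor n w (ω p)) (b', y)).comp
            (ContinuousLinearMap.inl ℝ B Y)) (e j) fun i => e (I i)‖
          ≤ ∑ _I : Fin k → Fin d, |g y| := Finset.sum_le_sum fun I _ => by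
            rw [hdh.fderiv]
            have h4 : ((((hor n w).comp (fderiv ℝ ω (b', y))).comp
                (ContinuousLinearMap.inl ℝ B Y)) (e j)) (fun i => e (I i)) =
                fderiv ℝ ω (b', y) (e j, 0) (tup (k + n) n k w fun i => e (I i)) :=
              hor_apply n w (fderiv ℝ ω (b', y) (e j, 0)) _
            rw [h4, fderiv_apply_const_apply hd]
            have h5 : HasFDerivAt (fun p => ω p (tup (k + n) n k w fun i => e (I i)))
                (fderiv ℝ (fun p => ω p (tup (k + n) n k w fun i => e (I i))) (b', y)) (b', y) :=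
              DifferentiableAt.hasFDerivAt (hd.continuousAlternatingMap_apply_const _)
            have h6' := HasFDerivAt.comp (g := fun p : B × Y =>
              ω p (tup (k + n) n k w fun i => e (I i))) (f := fun b'' : B => (b'', y)) b' h5
              (hasFDerivAt_prodMk_left b' y)
            have h6 : HasFDerivAt (fun b'' => ω (b'', y) (tup (k + n) n k w fun i => e (I i)))
                _ b' := h6'
            have h7 := (hgb b' hb' y I).2 j
            rw [h6.fderiv] at h7
            exact h7.trans (le_abs_self _)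
        _ = K * |g y| := by
            rw [Finset.sum_const, nsmul_eq_mul, Finset.card_univ]
    calc C2 * ∑ j : Fin d, ‖((fderiv ℝ (fun p => hor n w (ω p)) (b', y)).comp
            (ContinuousLinearMap.inl ℝ B Y)) (e j)‖
        ≤ C2 * ∑ _j : Fin d, C1 * K * |g y| :=
          mul_le_mul_of_nonneg_left (Finset.sum_le_sum fun j _ => h3 j) hC2.le
      _ = C2 * (d * (C1 * K)) * |g y| := by
          rw [Finset.sum_const, nsmul_eq_mul, Finset.card_univ, Fintype.card_fin]
          ring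
  have hg0 : 0 ≤ |g y| := abs_nonneg _
  refine ⟨hn1.trans ?_, hn2.trans ?_⟩
  · refine mul_le_mul_of_nonneg_right ?_ hg0
    have : 0 ≤ C2 * (d * (C1 * K)) := by positivity
    linarith
  · refine mul_le_mul_of_nonneg_right ?_ hg0
    have : 0 ≤ C1 * K := by positivity
    linarith

end Vale.P273.H887
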