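import Mathlib

/-!
# Integration of a form with vertically compact support along the fibres of `B × Y → B`
-/

open ContinuousAlternatingMap MeasureTheory Set Filter
open scoped Topology

set_option linter.unusedSectionVars false
set_option linter.style.haveILetI false

namespace Vale.P273.H887

variable {B Y V G : Type*} [NormedAddCommGroup B] [NormedSpace ℝ B]
  [NormedAddCommGroup Y] [NormedSpace ℝ Y]
  [NormedAddCommGroup V] [NormedSpace ℝ V]
  [NormedAddCommGroup G] [NormedSpace ℝ G] {n m k : ℕ}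

/-- The support of `f` over `U` is compact in the vertical direction, locally uniformly. -/
def VSupp (U : Set B) (f : B × Y → V) : Prop :=
  ∀ b ∈ U, ∃ N ∈ 𝓝 b, ∃ K : Set Y, IsCompact K ∧ ∀ b' ∈ N, ∀ y, y ∉ K → f (b', y) = 0

theorem VSupp.open_nhds {U : Set B} {f : B × Y → V} (hU : IsOpen U) (h : VSupp U f) {b : B}
    (hb : b ∈ U) : ∃ N, IsOpen N ∧ b ∈ N ∧ N ⊆ U ∧ ∃ K : Set Y, IsCompact K ∧
      ∀ b' ∈ N, ∀ y, y ∉ K → f (b', y) = 0 := by
  obtain ⟨N, hN, K, hK, h0⟩ := h b hb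
  obtain ⟨N', hN', hN'o, hbN'⟩ := mem_nhds_iff.1 (inter_mem hN (hU.mem_nhds hb))
  exact ⟨N', hN'o, hbN', fun x hx => (hN' hx).2, K, hK, fun b' hb' => h0 b' (hN' hb').1⟩

theorem VSupp.comp {W : Type*} [NormedAddCommGroup W] [NormedSpace ℝ W] {U : Set B}
    {f : B × Y → V} (h : VSupp U f) (g : B × Y → V → W) (hg : ∀ p, g p 0 = 0) :
    VSupp U (fun p => g p (f p)) := by
  intro b hb
  obtain ⟨N, hN, K, hK, h0⟩ := h b hb
  exact ⟨N, hN, K, hK, fun b' hb' y hy => by simp [h0 b' hb' y hy, hg]⟩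

theorem VSupp.fderiv {U : Set B} {f : B × Y → V} (hU : IsOpen U) (h : VSupp U f) :
    VSupp U (fderiv ℝ f) := by
  intro b hb
  obtain ⟨N, hNo, hbN, hNU, K, hK, h0⟩ := h.open_nhds hU hb
  refine ⟨N, hNo.mem_nhds hbN, K, hK, fun b' hb' y hy => ?_⟩
  have : f =ᶠ[𝓝 (b', y)] fun _ => 0 := by
    have hn : N ×ˢ Kᶜ ∈ 𝓝 (b', y) :=
      (hNo.prod hK.isClosed.isOpen_compl).mem_nhds ⟨hb', hy⟩
    filter_upwards [hn] with p hp
    exact h0 p.1 hp.1 p.2 hp.2
  rw [this.fderiv_eq]
  simp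

variable [MeasurableSpace Y] [BorelSpace Y] [FiniteDimensional ℝ Y]
  (μ : Measure Y) [μ.IsAddHaarMeasure]

/-- The fibre integral of a function is as smooth as the function. -/
theorem contDiffOn_fib [CompleteSpace V] {r : ℕ∞} {U : Set B} (hU : IsOpen U) {f : B × Y → V}
    (hs : VSupp U f) (hf : ContDiffOn ℝ r f (U ×ˢ univ)) :
    ContDiffOn ℝ r (fun b => ∫ y, f (b, y) ∂μ) U := by
  intro b hb
  obtain ⟨N, hNo, hbN, hNU, K, hK, h0⟩ := hs.open_nhds hU hb
  have hN : ContDiffOn ℝ r (fun b => ∫ y, f (b, y) ∂μ) N := by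
    have h := contDiffOn_convolution_right_with_param_comp (𝕜 := ℝ) (μ := μ) (n := r)
      (ContinuousLinearMap.lsmul ℝ ℝ : ℝ →L[ℝ] V →L[ℝ] V) (s := N) (v := fun _ => (0 : Y))
      contDiffOn_const (f := fun _ : Y => (1 : ℝ)) (g := fun b y => f (b, -y)) (k := -K)
      hNo hK.neg (fun p x hp hx => h0 p hp (-x) (by simpa using hx))
      (locallyIntegrable_const 1) ?_
    · refine h.congr fun b' _ => ?_
      simp [convolution]
    · refine hf.comp (f := fun p : B × Y => (p.1, -p.2)) ?_ ?_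
      · exact (contDiff_fst.prodMk contDiff_snd.neg).contDiffOn
      · rintro ⟨p, y⟩ ⟨hp, _⟩
        exact ⟨hNU hp, mem_univ _⟩
  exact ((hN b hbN).contDiffAt (hNo.mem_nhds hbN)).contDiffWithinAt

theorem continuous_slice {r : WithTop ℕ∞} {U : Set B} {f : B × Y → V}
    (hf : ContDiffOn ℝ r f (U ×ˢ univ)) {b : B} (hb : b ∈ U) :
    Continuous fun y => f (b, y) := by
  have h := hf.continuousOn.comp (f := fun y : Y => (b, y)) (s := univ)
    (by fun_prop) (fun y _ => ⟨hb, mem_univ _⟩)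
  exact continuousOn_univ.1 h

theorem integrable_slice {r : WithTop ℕ∞} {U : Set B} {f : B × Y → V}
    (hs : VSupp U f) (hf : ContDiffOn ℝ r f (U ×ˢ univ)) {b : B} (hb : b ∈ U) :
    Integrable (fun y => f (b, y)) μ := by
  obtain ⟨N, hN, K, hK, h0⟩ := hs b hb
  exact (continuous_slice hf hb).integrable_of_hasCompactSupport
    (HasCompactSupport.intro hK fun y hy => h0 b (mem_of_mem_nhds hN) y hy)

theorem contDiffOn_fderiv {r : ℕ∞} {U : Set B} (hU : IsOpen U) {f : B × Y → V}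
    (hf : ContDiffOn ℝ (r + 1) f (U ×ˢ univ)) :
    ContDiffOn ℝ r (fderiv ℝ f) (U ×ˢ univ) :=
  hf.fderiv_of_isOpen (hU.prod isOpen_univ) le_rfl

/-- The derivative of the fibre integral. -/
theorem hasFDerivAt_fib [FiniteDimensional ℝ B] [CompleteSpace V] {U : Set B} (hU : IsOpen U)
    {f : B × Y → V} (hs : VSupp U f) (hf : ContDiffOn ℝ 1 f (U ×ˢ univ)) {b : B} (hb : b ∈ U) :
    HasFDerivAt (fun b => ∫ y, f (b, y) ∂μ)
      (∫ y, (fderiv ℝ f (b, y)).comp (ContinuousLinearMap.inl ℝ B Y) ∂μ) b := by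
  obtain ⟨N, hNo, hbN, hNU, K, hK, h0⟩ := hs.open_nhds hU hb
  have hf' : ContDiffOn ℝ (0 : ℕ∞) (fderiv ℝ f) (U ×ˢ univ) :=
    contDiffOn_fderiv hU (by simpa using hf)
  obtain ⟨ε, hε, hεN⟩ := Metric.nhds_basis_closedBall.mem_iff.1 (hNo.mem_nhds hbN)
  haveI : ProperSpace B := FiniteDimensional.proper_real B
  have hcomp : IsCompact (Metric.closedBall b ε ×ˢ K) := (isCompact_closedBall b ε).prod hK
  have hcont : ContinuousOn (fun p : B × Y => ‖fderiv ℝ f p‖) (Metric.closedBall b ε ×ˢ K) :=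
    (hf'.continuousOn.mono fun p hp => ⟨hNU (hεN hp.1), mem_univ _⟩).norm
  obtain ⟨C, hC⟩ := hcomp.bddAbove_image hcont
  have hf'0 : ∀ b' ∈ N, ∀ y, y ∉ K → fderiv ℝ f (b', y) = 0 := by
    intro b' hb' y hy
    have : f =ᶠ[𝓝 (b', y)] fun _ => 0 := by
      have hn : N ×ˢ Kᶜ ∈ 𝓝 (b', y) :=
        (hNo.prod hK.isClosed.isOpen_compl).mem_nhds ⟨hb', hy⟩
      filter_upwards [hn] with p hp
      exact h0 p.1 hp.1 p.2 hp.2
    rw [this.fderiv_eq]
    simp
  have hslice : ∀ b' ∈ U, Continuous fun y => (fderiv ℝ f (b', y)).comp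
      (ContinuousLinearMap.inl ℝ B Y) := fun b' hb' =>
    (continuous_slice hf' hb').clm_comp continuous_const
  refine hasFDerivAt_integral_of_dominated_of_fderiv_le (𝕜 := ℝ)
    (F := fun b y => f (b, y))
    (F' := fun b y => (fderiv ℝ f (b, y)).comp (ContinuousLinearMap.inl ℝ B Y))
    (bound := K.indicator fun _ => max C 0 * ‖ContinuousLinearMap.inl ℝ B Y‖)
    (s := Metric.closedBall b ε) (Metric.closedBall_mem_nhds b hε) ?_ ?_ ?_ ?_ ?_ ?_
  · filter_upwards [hU.mem_nhds hb] with b' hb'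
    exact (continuous_slice hf hb').aestronglyMeasurable
  · exact integrable_slice μ hs hf hb
  · exact (hslice b hb).aestronglyMeasurable
  · refine Eventually.of_forall fun y b' hb' => ?_
    by_cases hy : y ∈ K
    · rw [indicator_of_mem hy]
      refine (ContinuousLinearMap.opNorm_comp_le _ _).trans ?_
      refine mul_le_mul_of_nonneg_right ?_ (norm_nonneg _)
      exact (hC (mem_image_of_mem _ (show (b', y) ∈ Metric.closedBall b ε ×ˢ K from ⟨hb', hy⟩))).trans
        (le_max_left _ _)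
    · rw [indicator_of_notMem hy, hf'0 b' (hεN hb') y hy]
      simp
  · refine (integrable_indicator_iff hK.measurableSet).2 ?_
    exact integrableOn_const hK.measure_lt_top.ne
  · refine Eventually.of_forall fun y b' hb' => ?_
    have hd : HasFDerivAt f (fderiv ℝ f (b', y)) (b', y) :=
      ((hf.contDiffAt ((hU.prod isOpen_univ).mem_nhds
        ⟨hNU (hεN hb'), mem_univ y⟩)).differentiableAt one_ne_zero).hasFDerivAt
    exact hd.comp b' (hasFDerivAt_prodMk_left b' y)

/-- A linear expression in the derivative of the fibre integral. -/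
theorem clm_fderiv_fib [FiniteDimensional ℝ B] [CompleteSpace V] {W : Type*}
    [NormedAddCommGroup W] [NormedSpace ℝ W] [CompleteSpace W] {U : Set B} (hU : IsOpen U)
    {f : B × Y → V} (hs : VSupp U f) (hf : ContDiffOn ℝ 1 f (U ×ˢ univ)) {b : B} (hb : b ∈ U)
    (A : (B →L[ℝ] V) →L[ℝ] W) :
    A (fderiv ℝ (fun b => ∫ y, f (b, y) ∂μ) b) =
      ∫ y, A ((fderiv ℝ f (b, y)).comp (ContinuousLinearMap.inl ℝ B Y)) ∂μ := by
  have hf' : ContDiffOn ℝ (0 : ℕ∞) (fderiv ℝ f) (U ×ˢ univ) :=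
    contDiffOn_fderiv hU (by simpa using hf)
  have hi : Integrable (fun y => (fderiv ℝ f (b, y)).comp (ContinuousLinearMap.inl ℝ B Y)) μ :=
    integrable_slice (f := fun p => (fderiv ℝ f p).comp (ContinuousLinearMap.inl ℝ B Y)) μ
      ((hs.fderiv hU).comp (fun _ f => f.comp (ContinuousLinearMap.inl ℝ B Y)) (fun _ => by simp))
      (hf'.clm_comp contDiffOn_const) hb
  rw [(hasFDerivAt_fib μ hU hs hf hb).fderiv, ← ContinuousLinearMap.integral_comp_comm _ hi]

/-- The integral of a vertical derivative is zero. -/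
theorem integral_vertical [CompleteSpace V] {U : Set B} (hU : IsOpen U)
    {f : B × Y → V} (hs : VSupp U f) (hf : ContDiffOn ℝ 1 f (U ×ˢ univ)) {b : B} (hb : b ∈ U)
    (w : Y) : ∫ y, fderiv ℝ f (b, y) (0, w) ∂μ = 0 := by
  obtain ⟨N, hN, K, hK, h0⟩ := hs b hb
  have hf' : ContDiffOn ℝ (0 : ℕ∞) (fderiv ℝ f) (U ×ˢ univ) :=
    contDiffOn_fderiv hU (by simpa using hf)
  have hd : ∀ y, HasFDerivAt (fun y => f (b, y))
      ((fderiv ℝ f (b, y)).comp (ContinuousLinearMap.inr ℝ B Y)) y := by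
    intro y
    have hd : HasFDerivAt f (fderiv ℝ f (b, y)) (b, y) :=
      ((hf.contDiffAt ((hU.prod isOpen_univ).mem_nhds
        ⟨hb, mem_univ y⟩)).differentiableAt one_ne_zero).hasFDerivAt
    exact hd.comp y (hasFDerivAt_prodMk_right b y)
  have hd' : ∀ y, fderiv ℝ (fun y => f (b, y)) y w = fderiv ℝ f (b, y) (0, w) := by
    intro y
    rw [(hd y).fderiv]
    rfl
  have hint : Integrable (fun y => fderiv ℝ f (b, y) (0, w)) μ := by
    have hc : Continuous fun y => fderiv ℝ f (b, y) (0, w) :=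
      (continuous_slice hf' hb).clm_apply continuous_const
    obtain ⟨N', hN', K', hK', h0'⟩ := (hs.fderiv hU) b hb
    refine hc.integrable_of_hasCompactSupport (HasCompactSupport.intro hK' fun y hy => ?_)
    rw [h0' b (mem_of_mem_nhds hN') y hy]
    simp
  have h := integral_smul_fderiv_eq_neg_fderiv_smul_of_integrable (μ := μ) (𝕜 := ℝ)
    (f := fun _ : Y => (1 : ℝ)) (g := fun y => f (b, y)) (v := w) ?_ ?_ ?_ ?_ ?_
  · simpa [hd'] using h
  · simp
  · simpa [hd'] using hint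
  · simpa using integrable_slice μ hs hf hb
  · intro y _
    exact differentiableAt_const _
  · intro y _
    exact (hd y).differentiableAt

section Forms

variable {E : Type*} [NormedAddCommGroup E] [NormedSpace ℝ E]

/-- The interior product with a vector, as a continuous linear map on forms. -/
noncomputable def ins (e : E) : (E [⋀^Fin (k + 1)]→L[ℝ] G) →L[ℝ] (E [⋀^Fin k]→L[ℝ] G) :=
  (ContinuousLinearMap.apply ℝ (E [⋀^Fin k]→L[ℝ] G) e).comp
    (curryLeftLI (𝕜 := ℝ) (E := E) (F := G) (n := k)).toContinuousLinearMap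

theorem ins_apply (e : E) (ω : E [⋀^Fin (k + 1)]→L[ℝ] G) : ins e ω = ω.curryLeft e := rfl

theorem ins_apply_apply (e : E) (ω : E [⋀^Fin (k + 1)]→L[ℝ] G) (v : Fin k → E) :
    ins e ω v = ω (Matrix.vecCons e v) := rfl

/-- `contr n e ω v = ω (e 0, ..., e (n-1), v 0, ..., v (k-1))`. -/
noncomputable def contr : (n : ℕ) → (Fin n → E) →
    (E [⋀^Fin (k + n)]→L[ℝ] G) →L[ℝ] (E [⋀^Fin k]→L[ℝ] G)
  | 0, _ => ContinuousLinearMap.id ℝ _
  | n + 1, e => (contr n (fun i => e i.succ)).comp (ins (e 0))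

@[simp] theorem contr_zero (e : Fin 0 → E) (ω : E [⋀^Fin k]→L[ℝ] G) :
    contr (k := k) 0 e ω = ω := rfl

theorem contr_succ (e : Fin (n + 1) → E) (ω : E [⋀^Fin (k + (n + 1))]→L[ℝ] G) :
    contr (n + 1) e ω = contr n (fun i => e i.succ) (ins (k := k + n) (e 0) ω) := rfl

/-- Change of the name of the degree. -/
def castForm {a b : ℕ} (h : a = b) (ω : E [⋀^Fin a]→L[ℝ] G) : E [⋀^Fin b]→L[ℝ] G := h ▸ ω

/-- `castForm` as a continuous linear map. -/
noncomputable def castFormL {a b : ℕ} (h : a = b) : (E [⋀^Fin a]→L[ℝ] G) →L[ℝ] (E [⋀^Fin b]→L[ℝ] G) :=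
  h ▸ ContinuousLinearMap.id ℝ _

theorem castFormL_apply {a b : ℕ} (h : a = b) (ω : E [⋀^Fin a]→L[ℝ] G) :
    castFormL h ω = castForm h ω := by
  subst h
  rfl

theorem ins_castForm {a b : ℕ} (h : a = b) (e : E) (ω : E [⋀^Fin (a + 1)]→L[ℝ] G) :
    ins e (castForm (congrArg (· + 1) h) ω) = castForm h (ins e ω) := by
  subst h
  rfl

theorem castForm_zero {a b : ℕ} (h : a = b) : castForm h (0 : E [⋀^Fin a]→L[ℝ] G) = 0 := by
  subst h
  rfl

/-- Cartan's formula for a constant vector field. -/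
theorem extDeriv_ins {ω : E → E [⋀^Fin (k + 1)]→L[ℝ] G} {x : E} (hω : DifferentiableAt ℝ ω x)
    (e : E) : extDeriv (fun x => ins e (ω x)) x = - ins e (extDeriv ω x) + fderiv ℝ ω x e := by
  have h0 : HasFDerivAt (fun x => ins e (ω x)) ((ins e).comp (fderiv ℝ ω x)) x :=
    (ins (k := k) (G := G) e).hasFDerivAt.comp x hω.hasFDerivAt
  have h1 := h0.fderiv
  ext v
  rw [extDeriv, h1, alternatizeUncurryFin_apply, ContinuousAlternatingMap.add_apply,
    ContinuousAlternatingMap.neg_apply, ins_apply_apply, extDeriv,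
    alternatizeUncurryFin_apply (fderiv ℝ ω x),
    Fin.sum_univ_succ (fun i : Fin (k + 2) => (-1) ^ (i : ℕ) •
      (fderiv ℝ ω x (Matrix.vecCons e v i)) (i.removeNth (Matrix.vecCons e v)))]
  simp only [Fin.val_zero, pow_zero, one_smul, Matrix.cons_val_zero, Fin.val_succ,
    Matrix.cons_val_succ, ContinuousLinearMap.comp_apply, ins_apply_apply]
  have h2 : ∀ i : Fin (k + 1), (Fin.removeNth i.succ (Matrix.vecCons e v : Fin (k + 2) → E)) =
      Matrix.vecCons e (Fin.removeNth i v) := by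
    intro i
    funext j
    refine Fin.cases ?_ (fun j => ?_) j
    · simp [Fin.removeNth]
    · simp [Fin.removeNth]
  have h3 : (Fin.removeNth 0 (Matrix.vecCons e v : Fin (k + 2) → E)) = v := by
    funext j
    simp [Fin.removeNth]
  rw [h3]
  simp only [h2, pow_succ, mul_neg, mul_one, neg_smul, Finset.sum_neg_distrib]
  abel

end Forms

/-- The integrand: contraction with vertical vectors, restricted to horizontal vectors. -/
noncomputable def hor (n : ℕ) (w : Fin n → Y) :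
    ((B × Y) [⋀^Fin (k + n)]→L[ℝ] G) →L[ℝ] (B [⋀^Fin k]→L[ℝ] G) :=
  (compContinuousLinearMapCLM (ContinuousLinearMap.inl ℝ B Y)).comp
    (contr n (fun i => ((0 : B), w i)))

/-- The fibre integral of a form. -/
noncomputable def fibForm (n : ℕ) (w : Fin n → Y)
    (ω : B × Y → (B × Y) [⋀^Fin (k + n)]→L[ℝ] G) (b : B) : B [⋀^Fin k]→L[ℝ] G :=
  ∫ y, hor n w (ω (b, y)) ∂μ

/-- one step: exterior derivative and interior product anticommute under the fibre integral. -/
theorem integral_ins_step {W : Type*} [NormedAddCommGroup W] [NormedSpace ℝ W] [CompleteSpace W]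
    {U : Set B} (hU : IsOpen U) {b : B} (hb : b ∈ U) (w : Y) {a : ℕ}
    {ω : B × Y → (B × Y) [⋀^Fin (a + 1)]→L[ℝ] G} (hs : VSupp U ω)
    (hω : ContDiffOn ℝ 1 ω (U ×ˢ univ))
    (L : ((B × Y) [⋀^Fin (a + 1)]→L[ℝ] G) →L[ℝ] W) :
    ∫ y, L (extDeriv (fun p => ins ((0 : B), w) (ω p)) (b, y)) ∂μ =
      - ∫ y, L (ins ((0 : B), w) (extDeriv ω (b, y))) ∂μ := by
  have hdiff : ∀ y, DifferentiableAt ℝ ω (b, y) := fun y =>
    (hω.contDiffAt ((hU.prod isOpen_univ).mem_nhds ⟨hb, mem_univ y⟩)).differentiableAt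
      one_ne_zero
  have hf' : ContDiffOn ℝ (0 : ℕ∞) (fderiv ℝ ω) (U ×ˢ univ) :=
    contDiffOn_fderiv hU (by simpa using hω)
  have hsupp' : VSupp U (fderiv ℝ ω) := hs.fderiv hU
  let M : ((B × Y) →L[ℝ] (B × Y) [⋀^Fin (a + 1)]→L[ℝ] G) →L[ℝ] W :=
    L.comp ((ins ((0 : B), w)).comp (alternatizeUncurryFinCLM ℝ (B × Y) G))
  have hM : ∀ p, M (fderiv ℝ ω p) = L (ins ((0 : B), w) (extDeriv ω p)) := fun p => rfl
  have hi : Integrable (fun y => M (fderiv ℝ ω (b, y))) μ :=
    integrable_slice (f := fun p => M (fderiv ℝ ω p)) μ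
      (hsupp'.comp (fun _ => M) (fun _ => _root_.map_zero M))
      (M.contDiff.comp_contDiffOn hf') hb
  have hvf : ContDiffOn ℝ 1 (fun p => L (ω p)) (U ×ˢ univ) :=
    L.contDiff.comp_contDiffOn hω
  have hvs : VSupp U (fun p => L (ω p)) :=
    hs.comp (fun _ => L) (fun _ => _root_.map_zero L)
  have hv := integral_vertical μ hU hvs hvf hb w
  have hv' : ∀ y, fderiv ℝ (fun p => L (ω p)) (b, y) (0, w) =
      L (fderiv ℝ ω (b, y) (0, w)) := by
    intro y
    have h : HasFDerivAt (fun p => L (ω p)) (L.comp (fderiv ℝ ω (b, y))) (b, y) :=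
      L.hasFDerivAt.comp (b, y) (hdiff y).hasFDerivAt
    rw [h.fderiv]
    rfl
  simp only [hv'] at hv
  have hvi : Integrable (fun y => L (fderiv ℝ ω (b, y) (0, w))) μ := by
    let M' : ((B × Y) →L[ℝ] (B × Y) [⋀^Fin (a + 1)]→L[ℝ] G) →L[ℝ] W :=
      L.comp (ContinuousLinearMap.apply ℝ _ ((0 : B), w))
    exact integrable_slice (f := fun p => M' (fderiv ℝ ω p)) μ
      (hsupp'.comp (fun _ => M') (fun _ => _root_.map_zero M'))
      (M'.contDiff.comp_contDiffOn hf') hb
  have hsplit : ∀ y, L (extDeriv (fun p => ins ((0 : B), w) (ω p)) (b, y)) =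
      - M (fderiv ℝ ω (b, y)) + L (fderiv ℝ ω (b, y) (0, w)) := by
    intro y
    rw [extDeriv_ins (hdiff y), _root_.map_add, _root_.map_neg, hM]
  simp only [hsplit]
  have h9 := integral_add hi.neg hvi
  simp only [Pi.neg_apply] at h9
  rw [h9, hv, add_zero, integral_neg]
  rfl

theorem integral_extDeriv_contr {W : Type*} [NormedAddCommGroup W] [NormedSpace ℝ W]
    [CompleteSpace W] {U : Set B} (hU : IsOpen U) {b : B} (hb : b ∈ U) (n : ℕ) :
    ∀ (w : Fin n → Y) {k : ℕ} {ω : B × Y → (B × Y) [⋀^Fin (k + n)]→L[ℝ] G}, VSupp U ω →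
      ContDiffOn ℝ 1 ω (U ×ˢ univ) →
      ∀ L : ((B × Y) [⋀^Fin (k + 1)]→L[ℝ] G) →L[ℝ] W,
      ∫ y, L (extDeriv (fun p => contr n (fun i => ((0 : B), w i)) (ω p)) (b, y)) ∂μ =
        (-1 : ℝ) ^ n • ∫ y, L (contr n (fun i => ((0 : B), w i))
          (castForm (Nat.add_right_comm k n 1) (extDeriv ω (b, y)))) ∂μ := by
  induction n with
  | zero =>
    intro w k ω hs hω L
    simp only [pow_zero, one_smul]
    rfl
  | succ n ih =>
    intro w k ω hs hω L
    have hω' : ContDiffOn ℝ 1 (fun p => ins (k := k + n) ((0 : B), w 0) (ω p)) (U ×ˢ univ) :=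
      (ContinuousLinearMap.contDiff _).comp_contDiffOn hω
    have hs' : VSupp U (fun p => ins (k := k + n) ((0 : B), w 0) (ω p)) :=
      hs.comp (fun _ => ins (k := k + n) ((0 : B), w 0)) (fun _ => _root_.map_zero _)
    have h := ih (fun i => w i.succ) hs' hω' L
    have h2 := integral_ins_step (a := k + n) μ hU hb (w 0) hs hω
      (L.comp ((contr n (fun i : Fin n => ((0 : B), w i.succ))).comp
        (castFormL (Nat.add_right_comm k n 1))))
    simp only [ContinuousLinearMap.comp_apply, castFormL_apply] at h2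
    have hL : (fun p => contr (n + 1) (fun i => ((0 : B), w i)) (ω p)) =
        fun p => contr n (fun i : Fin n => ((0 : B), w i.succ))
          (ins (k := k + n) ((0 : B), w 0) (ω p)) := rfl
    rw [hL, h, pow_succ, mul_smul, h2, neg_one_smul]
    congr 2
    refine integral_congr_ae (Eventually.of_forall fun y => ?_)
    have h3 := ins_castForm (Nat.add_right_comm k n 1) ((0 : B), w 0) (extDeriv ω (b, y))
    change L (contr n (fun i : Fin n => ((0 : B), w i.succ)) (castForm (Nat.add_right_comm k n 1)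
      (ins ((0 : B), w 0) (extDeriv ω (b, y))))) = _
    rw [← h3]
    rfl

/-- The fibre integral of a form is as smooth as the form. -/
theorem contDiffOn_fibForm [CompleteSpace G] {r : ℕ∞} {U : Set B} (hU : IsOpen U) (n : ℕ)
    (w : Fin n → Y) {ω : B × Y → (B × Y) [⋀^Fin (k + n)]→L[ℝ] G} (hs : VSupp U ω)
    (hω : ContDiffOn ℝ r ω (U ×ˢ univ)) : ContDiffOn ℝ r (fibForm μ n w ω) U :=
  contDiffOn_fib μ hU (f := fun p => hor n w (ω p))
    (hs.comp (fun _ => hor n w) (fun _ => _root_.map_zero _))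
    ((ContinuousLinearMap.contDiff _).comp_contDiffOn hω)

/-- `d (∫_fibre ω) = (-1)^n ∫_fibre dω` (fibre vectors are inserted in front). -/
theorem extDeriv_fibForm [FiniteDimensional ℝ B] [CompleteSpace G] {U : Set B} (hU : IsOpen U)
    (n : ℕ) (w : Fin n → Y) {ω : B × Y → (B × Y) [⋀^Fin (k + n)]→L[ℝ] G} (hs : VSupp U ω)
    (hω : ContDiffOn ℝ 1 ω (U ×ˢ univ)) {b : B} (hb : b ∈ U) :
    extDeriv (fibForm μ n w ω) b = (-1 : ℝ) ^ n • ∫ y, hor n w
      (castForm (Nat.add_right_comm k n 1) (extDeriv ω (b, y))) ∂μ := by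
  have hf : ContDiffOn ℝ 1 (fun p => hor n w (ω p)) (U ×ˢ univ) :=
    (ContinuousLinearMap.contDiff _).comp_contDiffOn hω
  have hfs : VSupp U (fun p => hor n w (ω p)) :=
    hs.comp (fun _ => hor n w) (fun _ => _root_.map_zero _)
  have hdiff : ∀ y, DifferentiableAt ℝ ω (b, y) := fun y =>
    (hω.contDiffAt ((hU.prod isOpen_univ).mem_nhds ⟨hb, mem_univ y⟩)).differentiableAt
      one_ne_zero
  have h2 : extDeriv (fibForm μ n w ω) b = _ :=
    clm_fderiv_fib μ hU hfs hf hb (alternatizeUncurryFinCLM ℝ B G)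
  rw [h2]
  have h3 := integral_extDeriv_contr μ hU hb n w hs hω
    (compContinuousLinearMapCLM (ContinuousLinearMap.inl ℝ B Y))
  refine Eq.trans ?_ h3
  refine integral_congr_ae (Eventually.of_forall fun y => ?_)
  have h4 : HasFDerivAt (fun p => hor n w (ω p)) ((hor n w).comp (fderiv ℝ ω (b, y))) (b, y) :=
    (hor (B := B) (G := G) (k := k) n w).hasFDerivAt.comp (b, y) (hdiff y).hasFDerivAt
  have h5 : HasFDerivAt (fun p => contr n (fun i => ((0 : B), w i)) (ω p))
      ((contr n (fun i => ((0 : B), w i))).comp (fderiv ℝ ω (b, y))) (b, y) :=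
    (contr (G := G) (k := k) n (fun i => ((0 : B), w i))).hasFDerivAt.comp (b, y)
      (hdiff y).hasFDerivAt
  change alternatizeUncurryFin ((fderiv ℝ (fun p => hor n w (ω p)) (b, y)).comp
    (ContinuousLinearMap.inl ℝ B Y)) = (extDeriv (fun p => contr n (fun i => ((0 : B), w i))
      (ω p)) (b, y)).compContinuousLinearMap (ContinuousLinearMap.inl ℝ B Y)
  ext v
  rw [h4.fderiv, extDeriv, h5.fderiv, ContinuousAlternatingMap.compContinuousLinearMap_apply,
    alternatizeUncurryFin_apply, alternatizeUncurryFin_apply]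
  rfl

/-- The fibre integral of a closed form is closed. -/
theorem extDeriv_fibForm_eq_zero [FiniteDimensional ℝ B] [CompleteSpace G] {U : Set B}
    (hU : IsOpen U) (n : ℕ) (w : Fin n → Y)
    {ω : B × Y → (B × Y) [⋀^Fin (k + n)]→L[ℝ] G} (hs : VSupp U ω)
    (hω : ContDiffOn ℝ 1 ω (U ×ˢ univ)) (hcl : ∀ b ∈ U, ∀ y, extDeriv ω (b, y) = 0)
    {b : B} (hb : b ∈ U) : extDeriv (fibForm μ n w ω) b = 0 := by
  rw [extDeriv_fibForm μ hU n w hs hω hb]
  have h : ∀ y, hor n w (castForm (Nat.add_right_comm k n 1) (extDeriv ω (b, y))) = 0 := by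
    intro y
    rw [hcl b hb y, castForm_zero, _root_.map_zero]
  simp only [h, integral_zero, smul_zero]

end Vale.P273.H887
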