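import Vale.Agent.P273.H887.FibInt

/-!
# Integration along non-compact fibres, with integrable majorants
-/

open ContinuousAlternatingMap MeasureTheory Set Filter
open scoped Topology

set_option linter.unusedSectionVars false
set_option linter.style.haveILetI false

namespace Vale.P273.H887

variable {B Y V G : Type*} [NormedAddCommGroup B] [NormedSpace ℝ B]
  [NormedAddCommGroup Y] [NormedSpace ℝ Y]
  [NormedAddCommGroup V] [NormedSpace ℝ V]
  [NormedAddCommGroup G] [NormedSpace ℝ G] {n m k : ℕ}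

/-- The tuple `(0, w 0), ..., (0, w (n-1)), (v 0, 0), ..., (v (k-1), 0)`, indexed by `Fin N`
(`N = n + k` in all applications). -/
def tup (N n k : ℕ) (w : Fin n → Y) (v : Fin k → B) (i : Fin N) : B × Y :=
  if h : i.val < n then (0, w ⟨i.val, h⟩)
  else if h' : i.val - n < k then (v ⟨i.val - n, h'⟩, 0) else 0

theorem tup_zero (w : Fin 0 → Y) (v : Fin k → B) :
    tup k 0 k w v = fun i => (v i, 0) := by
  funext i
  simp [tup]

theorem tup_succ (N : ℕ) (w : Fin (n + 1) → Y) (v : Fin k → B) :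
    tup (N + 1) (n + 1) k w v = Matrix.vecCons ((0 : B), w 0) (tup N n k (fun i => w i.succ) v) := by
  funext i
  refine Fin.cases ?_ (fun j => ?_) i
  · simp [tup]
  · simp only [tup, Fin.val_succ, Matrix.cons_val_succ, Nat.add_lt_add_iff_right,
      Nat.add_sub_add_right]
    rfl

theorem contr_apply_tup (n : ℕ) : ∀ (w : Fin n → Y) {k : ℕ}
    (ω : (B × Y) [⋀^Fin (k + n)]→L[ℝ] G) (v : Fin k → B),
    contr n (fun i => ((0 : B), w i)) ω (fun i => (v i, 0)) = ω (tup (k + n) n k w v) := by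
  induction n with
  | zero =>
    intro w k ω v
    change ω _ = ω _
    rw [show tup (k + 0) 0 k w v = fun i => (v i, 0) from tup_zero w v]
  | succ n ih =>
    intro w k ω v
    rw [contr_succ, ih (fun i => w i.succ), ins_apply_apply]
    change _ = ω (tup (k + n + 1) (n + 1) k w v)
    rw [tup_succ]

theorem hor_apply (n : ℕ) (w : Fin n → Y) (ω : (B × Y) [⋀^Fin (k + n)]→L[ℝ] G) (v : Fin k → B) :
    hor n w ω v = ω (tup (k + n) n k w v) :=
  contr_apply_tup n w ω v

/-- removing a horizontal vector from a tuple. -/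
theorem removeNth_tup (w : Fin n → Y) (v : Fin (k + 1) → B) (i : Fin (k + 1))
    (hi : n + i.val < k + n + 1) :
    Fin.removeNth (⟨n + i.val, hi⟩ : Fin (k + n + 1)) (tup (k + n + 1) n (k + 1) w v) =
      tup (k + n) n k w (i.removeNth v) := by
  funext j
  simp only [Fin.removeNth, Fin.succAbove, Fin.lt_def, Fin.val_castSucc]
  by_cases h1 : j.val < n + i.val
  · rw [if_pos h1]
    by_cases h2 : j.val < n
    · simp [tup, h2]
    · have h3 : j.val - n < k := by omega
      have h4 : j.val - n < k + 1 := by omega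
      have h5 : j.val - n < i.val := by omega
      simp only [tup, Fin.val_castSucc, h2, h3, h4, dite_true, dite_false, Fin.removeNth,
        Fin.succAbove, Fin.lt_def, h5, if_true]
      rfl
  · rw [if_neg h1]
    have h2 : ¬ j.val < n := by omega
    have h2' : ¬ j.val + 1 < n := by omega
    have h3 : j.val - n < k := by omega
    have h4 : j.val + 1 - n < k + 1 := by omega
    have h5 : ¬ j.val - n < i.val := by omega
    have h6 : j.val + 1 - n = j.val - n + 1 := by omega
    simp only [tup, Fin.val_succ, h2, h2', h3, h4, dite_true, dite_false, Fin.removeNth,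
      Fin.succAbove, Fin.lt_def, Fin.val_castSucc, h5, if_false]
    congr 2
    exact Fin.ext h6

/-- a sum over `Fin (k + n + 1)` is a sum over the first `n` and the last `k + 1` indices. -/
theorem sum_fin_split {M : Type*} [AddCommMonoid M] (f : Fin (k + n + 1) → M) :
    ∑ i, f i = (∑ i : Fin n, f ⟨i.val, by omega⟩) +
      ∑ i : Fin (k + 1), f ⟨n + i.val, by omega⟩ := by
  have h : n + (k + 1) = k + n + 1 := by omega
  rw [← Equiv.sum_comp (finCongr h), Fin.sum_univ_add]
  rfl

variable [MeasurableSpace Y] [BorelSpace Y] [FiniteDimensional ℝ Y]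
  (μ : Measure Y)

/-- `f` and its horizontal derivative have a majorant that is integrable along the fibre,
locally uniformly in the base. -/
def LocMaj (U : Set B) (f : B × Y → V) : Prop :=
  ∀ b ∈ U, ∃ N ∈ 𝓝 b, ∃ g : Y → ℝ, Integrable g μ ∧ ∀ b' ∈ N, ∀ y, ‖f (b', y)‖ ≤ g y ∧
    ‖(fderiv ℝ f (b', y)).comp (ContinuousLinearMap.inl ℝ B Y)‖ ≤ g y

variable {μ}

theorem LocMaj.integrable {U : Set B} {f : B × Y → V} {r : WithTop ℕ∞} (hm : LocMaj μ U f)
    (hf : ContDiffOn ℝ r f (U ×ˢ univ)) {b : B} (hb : b ∈ U) :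
    Integrable (fun y => f (b, y)) μ := by
  obtain ⟨N, hN, g, hg, h⟩ := hm b hb
  exact hg.mono' (continuous_slice hf hb).aestronglyMeasurable
    (Eventually.of_forall fun y => (h b (mem_of_mem_nhds hN) y).1)

theorem continuous_slice_fderiv {U : Set B} (hU : IsOpen U) {f : B × Y → V}
    (hf : ContDiffOn ℝ 1 f (U ×ˢ univ)) {b : B} (hb : b ∈ U) :
    Continuous fun y => (fderiv ℝ f (b, y)).comp (ContinuousLinearMap.inl ℝ B Y) := by
  have h : ContDiffOn ℝ (0 : ℕ∞) (fderiv ℝ f) (U ×ˢ univ) :=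
    contDiffOn_fderiv hU (by simpa using hf)
  exact (continuous_slice h hb).clm_comp continuous_const

theorem LocMaj.integrable_fderiv {U : Set B} (hU : IsOpen U) {f : B × Y → V}
    (hm : LocMaj μ U f) (hf : ContDiffOn ℝ 1 f (U ×ˢ univ)) {b : B} (hb : b ∈ U) :
    Integrable (fun y => (fderiv ℝ f (b, y)).comp (ContinuousLinearMap.inl ℝ B Y)) μ := by
  obtain ⟨N, hN, g, hg, h⟩ := hm b hb
  exact hg.mono' (continuous_slice_fderiv hU hf hb).aestronglyMeasurable
    (Eventually.of_forall fun y => (h b (mem_of_mem_nhds hN) y).2)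

theorem hasFDerivAt_fib_L1 {U : Set B} (hU : IsOpen U) {f : B × Y → V}
    (hm : LocMaj μ U f) (hf : ContDiffOn ℝ 1 f (U ×ˢ univ)) {b : B} (hb : b ∈ U) :
    HasFDerivAt (fun b => ∫ y, f (b, y) ∂μ)
      (∫ y, (fderiv ℝ f (b, y)).comp (ContinuousLinearMap.inl ℝ B Y) ∂μ) b := by
  obtain ⟨N, hN, g, hg, h⟩ := hm b hb
  refine hasFDerivAt_integral_of_dominated_of_fderiv_le (𝕜 := ℝ)
    (F := fun b y => f (b, y))
    (F' := fun b y => (fderiv ℝ f (b, y)).comp (ContinuousLinearMap.inl ℝ B Y))
    (bound := g) (s := N ∩ U) (inter_mem hN (hU.mem_nhds hb)) ?_ ?_ ?_ ?_ hg ?_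
  · filter_upwards [hU.mem_nhds hb] with b' hb'
    exact (continuous_slice hf hb').aestronglyMeasurable
  · exact hm.integrable hf hb
  · exact (continuous_slice_fderiv hU hf hb).aestronglyMeasurable
  · exact Eventually.of_forall fun y b' hb' => (h b' hb'.1 y).2
  · refine Eventually.of_forall fun y b' hb' => ?_
    have hd : HasFDerivAt f (fderiv ℝ f (b', y)) (b', y) :=
      ((hf.contDiffAt ((hU.prod isOpen_univ).mem_nhds
        ⟨hb'.2, mem_univ y⟩)).differentiableAt one_ne_zero).hasFDerivAt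
    exact hd.comp b' (hasFDerivAt_prodMk_left b' y)

theorem contDiffOn_fib_L1 {U : Set B} (hU : IsOpen U) {f : B × Y → V}
    (hm : LocMaj μ U f) (hf : ContDiffOn ℝ 1 f (U ×ˢ univ)) :
    ContDiffOn ℝ 1 (fun b => ∫ y, f (b, y) ∂μ) U := by
  have hd : ∀ b ∈ U, HasFDerivAt (fun b => ∫ y, f (b, y) ∂μ)
      (∫ y, (fderiv ℝ f (b, y)).comp (ContinuousLinearMap.inl ℝ B Y) ∂μ) b :=
    fun b hb => hasFDerivAt_fib_L1 hU hm hf hb
  have hc : ContinuousOn
      (fun b => ∫ y, (fderiv ℝ f (b, y)).comp (ContinuousLinearMap.inl ℝ B Y) ∂μ) U := by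
    intro b hb
    obtain ⟨N, hN, g, hg, h⟩ := hm b hb
    refine ContinuousAt.continuousWithinAt ?_
    refine continuousAt_of_dominated (bound := g) ?_ ?_ hg ?_
    · filter_upwards [hU.mem_nhds hb] with b' hb'
      exact (continuous_slice_fderiv hU hf hb').aestronglyMeasurable
    · filter_upwards [hN] with b' hb'
      exact Eventually.of_forall fun y => (h b' hb' y).2
    · refine Eventually.of_forall fun y => ?_
      have h0 : ContDiffOn ℝ (0 : ℕ∞) (fderiv ℝ f) (U ×ˢ univ) :=
        contDiffOn_fderiv hU (by simpa using hf)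
      have h1 : ContinuousOn (fderiv ℝ f) (U ×ˢ univ) := h0.continuousOn
      have h2 : ContinuousAt (fderiv ℝ f) (b, y) :=
        h1.continuousAt ((hU.prod isOpen_univ).mem_nhds ⟨hb, mem_univ y⟩)
      have h3 : ContinuousAt (fun b' => fderiv ℝ f (b', y)) b :=
        ContinuousAt.comp (g := fderiv ℝ f) (f := fun b' : B => (b', y)) h2
          (by fun_prop)
      exact h3.clm_comp continuousAt_const
  rw [show (1 : WithTop ℕ∞) = 0 + 1 by simp, contDiffOn_succ_iff_fderiv_of_isOpen hU]
  refine ⟨fun b hb => (hd b hb).differentiableAt.differentiableWithinAt, by simp, ?_⟩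
  refine contDiffOn_zero.2 (hc.congr fun b hb => (hd b hb).fderiv)

theorem clm_fderiv_fib_L1 [CompleteSpace V] {W : Type*} [NormedAddCommGroup W]
    [NormedSpace ℝ W] [CompleteSpace W] {U : Set B} (hU : IsOpen U) {f : B × Y → V}
    (hm : LocMaj μ U f) (hf : ContDiffOn ℝ 1 f (U ×ˢ univ)) {b : B} (hb : b ∈ U)
    (A : (B →L[ℝ] V) →L[ℝ] W) :
    A (fderiv ℝ (fun b => ∫ y, f (b, y) ∂μ) b) =
      ∫ y, A ((fderiv ℝ f (b, y)).comp (ContinuousLinearMap.inl ℝ B Y)) ∂μ := by
  rw [(hasFDerivAt_fib_L1 hU hm hf hb).fderiv,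
    ← ContinuousLinearMap.integral_comp_comm _ (hm.integrable_fderiv hU hf hb)]

/-- The tuple with the horizontal vectors `v 0, ..., v k` and all fibre vectors but `w i`. -/
def tupDel (w : Fin n → Y) (v : Fin (k + 1) → B) (i : Fin n) : Fin (k + n) → B × Y :=
  Fin.removeNth (⟨i.val, by omega⟩ : Fin (k + n + 1)) (tup (k + n + 1) n (k + 1) w v)

variable (μ) in
/-- The integral over the fibre of the derivative, in the direction `w i`, of the component of `ω`
without `w i`, exists and is zero. -/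
def VertZero (U : Set B) (w : Fin n → Y)
    (ω : B × Y → (B × Y) [⋀^Fin (k + n)]→L[ℝ] G) : Prop :=
  ∀ b ∈ U, ∀ v : Fin (k + 1) → B, ∀ i : Fin n,
    Integrable (fun y => fderiv ℝ (fun y => ω (b, y) (tupDel w v i)) y (w i)) μ ∧
      ∫ y, fderiv ℝ (fun y => ω (b, y) (tupDel w v i)) y (w i) ∂μ = 0

theorem fderiv_apply_const_apply {E : Type*} [NormedAddCommGroup E] [NormedSpace ℝ E]
    {ω : E → E [⋀^Fin k]→L[ℝ] G} {x : E} (hω : DifferentiableAt ℝ ω x) (u : Fin k → E) (e : E) :
    fderiv ℝ ω x e u = fderiv ℝ (fun x => ω x u) x e :=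
  (fderiv_continuousAlternatingMap_apply_const_apply hω u e).symm

variable [μ.IsAddHaarMeasure]

/-- **The fibre integral of a closed form is closed**, non-compact fibres. -/
theorem extDeriv_fibForm_L1_eq_zero [CompleteSpace G] {U : Set B}
    (hU : IsOpen U) (n : ℕ) (w : Fin n → Y)
    {ω : B × Y → (B × Y) [⋀^Fin (k + n)]→L[ℝ] G}
    (hω : ContDiffOn ℝ 1 ω (U ×ˢ univ)) (hcl : ∀ b ∈ U, ∀ y, extDeriv ω (b, y) = 0)
    (hm : LocMaj μ U (fun p => hor n w (ω p))) (hv : VertZero μ U w ω)
    {b : B} (hb : b ∈ U) : extDeriv (fibForm μ n w ω) b = 0 := by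
  have hf : ContDiffOn ℝ 1 (fun p => hor n w (ω p)) (U ×ˢ univ) :=
    (ContinuousLinearMap.contDiff _).comp_contDiffOn hω
  have hdiff : ∀ y, DifferentiableAt ℝ ω (b, y) := fun y =>
    (hω.contDiffAt ((hU.prod isOpen_univ).mem_nhds ⟨hb, mem_univ y⟩)).differentiableAt
      one_ne_zero
  have hdh : ∀ y, HasFDerivAt (fun p => hor n w (ω p))
      ((hor n w).comp (fderiv ℝ ω (b, y))) (b, y) := fun y =>
    (hor (B := B) (G := G) (k := k) n w).hasFDerivAt.comp (b, y) (hdiff y).hasFDerivAt
  ext v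
  have h1 : extDeriv (fibForm μ n w ω) b v = _ :=
    clm_fderiv_fib_L1 hU hm hf hb (((ContinuousAlternatingMap.apply ℝ B G v)).comp
      (alternatizeUncurryFinCLM ℝ B G))
  rw [h1]
  -- pointwise: the horizontal part is minus the vertical part
  have h2 : ∀ y, ((ContinuousAlternatingMap.apply ℝ B G v).comp
      (alternatizeUncurryFinCLM ℝ B G)) ((fderiv ℝ (fun p => hor n w (ω p)) (b, y)).comp
        (ContinuousLinearMap.inl ℝ B Y)) =
      ∑ i : Fin n, (-((-1 : ℤ) ^ n * (-1) ^ i.val)) •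
        fderiv ℝ (fun y => ω (b, y) (tupDel w v i)) y (w i) := by
    intro y
    have h3 : extDeriv ω (b, y) (tup (k + n + 1) n (k + 1) w v) = 0 := by
      rw [hcl b hb y]
      rfl
    rw [extDeriv, alternatizeUncurryFin_apply, sum_fin_split] at h3
    have h4 : ∀ i : Fin n, fderiv ℝ (fun y => ω (b, y) (tupDel w v i)) y (w i) =
        fderiv ℝ ω (b, y) (0, w i) (tupDel w v i) := by
      intro i
      rw [fderiv_apply_const_apply (hdiff y)]
      have h5 : HasFDerivAt (fun p => ω p (tupDel w v i))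
          (fderiv ℝ (fun p => ω p (tupDel w v i)) (b, y)) (b, y) :=
        DifferentiableAt.hasFDerivAt ((hdiff y).continuousAlternatingMap_apply_const _)
      have h6 := h5.comp y (hasFDerivAt_prodMk_right b y)
      have h7 : HasFDerivAt (fun y => ω (b, y) (tupDel w v i)) _ y := h6
      rw [h7.fderiv]
      rfl
    have h8 : ∀ i : Fin n, tup (k + n + 1) n (k + 1) w v ⟨i.val, by omega⟩ = (0, w i) := by
      intro i
      simp [tup]
    have h9 : ∀ i : Fin (k + 1),
        tup (k + n + 1) n (k + 1) w v ⟨n + i.val, by omega⟩ = (v i, 0) := by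
      intro i
      have h10 : ¬ n + i.val < n := by omega
      have h11 : n + i.val - n < k + 1 := by omega
      have h12 : n + i.val - n = i.val := by omega
      simp only [tup, h10, h11, dite_true, dite_false]
      congr 2
      exact Fin.ext h12
    have h13 : ∀ i : Fin (k + 1), Fin.removeNth (⟨n + i.val, by omega⟩ : Fin (k + n + 1))
        (tup (k + n + 1) n (k + 1) w v) = tup (k + n) n k w (i.removeNth v) :=
      fun i => removeNth_tup w v i _
    simp only [h8, h9, h13] at h3
    change alternatizeUncurryFin ((fderiv ℝ (fun p => hor n w (ω p)) (b, y)).comp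
        (ContinuousLinearMap.inl ℝ B Y)) v = _
    rw [alternatizeUncurryFin_apply]
    have h14 : ∀ i : Fin (k + 1), (-1 : ℤ) ^ i.val • (((fderiv ℝ (fun p => hor n w (ω p)) (b, y)).comp
        (ContinuousLinearMap.inl ℝ B Y)) (v i)) (i.removeNth v) =
        (-1 : ℤ) ^ n • ((-1 : ℤ) ^ (n + i.val) • (fderiv ℝ ω (b, y) (v i, 0))
          (tup (k + n) n k w (i.removeNth v))) := by
      intro i
      rw [(hdh y).fderiv, smul_smul, ← pow_add]
      have h15 : (-1 : ℤ) ^ (n + (n + i.val)) = (-1) ^ i.val := by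
        rw [← add_assoc, pow_add, ← two_mul, pow_mul]
        simp
      rw [h15]
      congr 1
      exact hor_apply n w (fderiv ℝ ω (b, y) (v i, 0)) (i.removeNth v)
    rw [Finset.sum_congr rfl (fun i _ => h14 i), ← Finset.smul_sum]
    have h16 := eq_neg_of_add_eq_zero_right h3
    rw [h16, smul_neg, Finset.smul_sum, ← Finset.sum_neg_distrib]
    refine Finset.sum_congr rfl fun i _ => ?_
    rw [h4, neg_smul, mul_smul]
    rfl
  simp only [h2, ← Int.cast_smul_eq_zsmul ℝ]
  rw [integral_finsetSum]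
  · refine Finset.sum_eq_zero fun i _ => ?_
    rw [integral_smul, (hv b hb v i).2, smul_zero]
  · intro i _
    exact (hv b hb v i).1.smul _

end Vale.P273.H887
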