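import Vale.Agent.P273.H887.Zone1
import Vale.Agent.P273.H883.Pos1

/-!
# P273, row ASY1 (helper887): close points near the divisor where two roots coincide

`Cls b P Q`: the points `P`, `Q` of the curve are close for the cut-offs of all seven indices.
-/

noncomputable section

namespace Vale.P273.H887

open Set Filter Vale.Agent.P273 Vale.Agent.P273.H681 Vale.Agent.P273.H95 Vale.Agent.P273.H973
open Vale.Agent.P273.H578 (Pt fb rad rad_pos Close Hs same_iff re_pos_of_norm same_comm)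
open Vale.Agent.P273.H604 (Rr)
open scoped Topology ContDiff

/-- close for all cut-offs, in both orders -/
def Cls (b : C6) (P Q : ℂ × ℂ) : Prop :=
  ∀ k : ℕ, k < 7 → Close (rad k) b P Q ∧ Close (rad k) b Q P

theorem Cls.symm {b : C6} {P Q : ℂ × ℂ} (h : Cls b P Q) : Cls b Q P := fun k hk =>
  ⟨(h k hk).2, (h k hk).1⟩

theorem rad_six_le {k : ℕ} (hk : k < 7) : rad 6 ≤ rad k := by
  unfold rad
  exact pow_le_pow_of_le_one (by norm_num) (by norm_num) (by omega)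

theorem same_of_lt {y y' : ℂ} (h : ‖y - y'‖ < ‖y‖) : H578.Same y y' := by
  have hy : y ≠ 0 := by
    intro h0
    rw [h0, norm_zero] at h
    exact absurd h (not_lt.2 (norm_nonneg _))
  rw [same_iff hy]
  apply re_pos_of_norm
  have h1 : y' / y - 1 = -((y - y') / y) := by
    field_simp
    ring
  rw [h1, norm_neg, norm_div, div_lt_one (norm_pos_iff.2 hy)]
  exact h

theorem le_Hs6 {b : C6} {x : ℂ} {T : ℝ} (hT : 0 < T) (h : ∀ l, T ≤ ‖x - b l‖) :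
    T / 3 ≤ Hs b x := by
  refine le_trans ?_ (H578.le_Hs hT h)
  have h1 : Real.sqrt (Fintype.card (Fin 6)) ≤ 3 := by
    rw [Fintype.card_fin]
    refine Real.sqrt_le_iff.2 ⟨by norm_num, by norm_num⟩
  have h2 : 0 < Real.sqrt (Fintype.card (Fin 6)) := Real.sqrt_pos.2 (by simp)
  exact div_le_div_of_nonneg_left hT.le h2 h1

/-- points at distance at least `T` from the roots, close on the scale `T`, on one sheet -/
theorem cls_of {b : C6} {P Q : ℂ × ℂ} {T : ℝ} (hT : 0 < T) (h1 : ∀ l, T ≤ ‖P.1 - b l‖)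
    (h2 : ∀ l, T ≤ ‖Q.1 - b l‖) (hx : ‖P.1 - Q.1‖ < rad 6 * T / 6) (hs : H578.Same P.2 Q.2) :
    Cls b P Q := by
  have hr := rad_pos 6
  have key : ∀ k : ℕ, k < 7 → ∀ A : ℂ × ℂ, (∀ l, T ≤ ‖A.1 - b l‖) →
      rad 6 * T / 6 ≤ rad k / 2 * Hs b A.1 := by
    intro k hk A hA
    have h3 := le_Hs6 hT hA
    have h4 := rad_six_le hk
    have h5 : rad 6 / 2 * (T / 3) ≤ rad k / 2 * Hs b A.1 := by
      apply mul_le_mul (by linarith) h3 (by positivity) (by linarith)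
    linarith
  intro k hk
  refine ⟨⟨hs, hx.trans_le (key k hk P h1)⟩, ⟨same_comm.1 hs, ?_⟩⟩
  rw [norm_sub_rev]
  exact hx.trans_le (key k hk Q h2)

theorem norm_y_ge {b : C6} {P : ℂ × ℂ} (hP : Pt b P) {T : ℝ} (hT : 0 ≤ T)
    (h1 : ∀ l, T ≤ ‖P.1 - b l‖) : T ^ 3 ≤ ‖P.2‖ := by
  have h2 : (T ^ 3) ^ 2 ≤ ‖P.2‖ ^ 2 := by
    rw [← norm_pow, hP.1, H578.fb, norm_prod, ← pow_mul]
    calc T ^ (3 * 2) = ∏ _l : Fin 6, T := by simp
      _ ≤ ∏ l : Fin 6, ‖P.1 - b l‖ := Finset.prod_le_prod (fun _ _ => hT) fun l _ => h1 l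
  exact (sq_le_sq₀ (by positivity) (norm_nonneg _)).1 h2

/-- points of a compact part of the curve -/
theorem cls_of_near {b : C6} {P Q : ℂ × ℂ} {T : ℝ} (hT : 0 < T) (hP : Pt b P)
    (h1 : ∀ l, T ≤ ‖P.1 - b l‖) (h2 : ∀ l, T ≤ ‖Q.1 - b l‖) (hx : ‖P.1 - Q.1‖ < rad 6 * T / 6)
    (hy : ‖P.2 - Q.2‖ < T ^ 3) : Cls b P Q :=
  cls_of hT h1 h2 hx (same_of_lt (hy.trans_le (norm_y_ge hP hT.le h1)))

/-! ### marks on the core -/

theorem close_core {δ c : ℝ} (hδ : 0 < δ) (hc : 0 < c) : ∃ r > 0, ∀ (k : Fin 5) (b : C6)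
    (e z : ℂ) (P Q : ℂ × ℂ), b k.castSucc = e - z → b k.succ = e + z → ‖z‖ ≤ c / 16 → Pt b P →
    (c / 4 ≤ ‖P.1 - e‖ ∨ c / 4 ≤ ‖Q.1 - e‖) → ‖P.1 - Q.1‖ < r → ‖P.2 - Q.2‖ < r →
    (∃ l, l ≠ k.castSucc ∧ l ≠ k.succ ∧ ‖P.1 - b l‖ < δ / 50 ∧ ‖Q.1 - b l‖ < δ / 50) ∨
      Cls b P Q := by
  set T : ℝ := min (δ / 200) (c / 8) with hTd
  have hT : 0 < T := lt_min (by positivity) (by positivity)
  have hr6 := rad_pos 6
  refine ⟨min (min (δ / 200) (c / 16)) (min (rad 6 * T / 6) (T ^ 3)),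
    lt_min (lt_min (by positivity) (by positivity)) (lt_min (by positivity) (by positivity)), ?_⟩
  intro k b e z P Q hb1 hb2 hz hP hPQ hx hy
  have hx1 : ‖P.1 - Q.1‖ < δ / 200 := hx.trans_le ((min_le_left _ _).trans (min_le_left _ _))
  have hx2 : ‖P.1 - Q.1‖ < c / 16 := hx.trans_le ((min_le_left _ _).trans (min_le_right _ _))
  have hx3 : ‖P.1 - Q.1‖ < rad 6 * T / 6 := hx.trans_le ((min_le_right _ _).trans (min_le_left _ _))
  have hy3 : ‖P.2 - Q.2‖ < T ^ 3 := hy.trans_le ((min_le_right _ _).trans (min_le_right _ _))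
  by_cases hl : ∃ l, l ≠ k.castSucc ∧ l ≠ k.succ ∧ ‖P.1 - b l‖ < δ / 100
  · left
    obtain ⟨l, h1, h2, h3⟩ := hl
    refine ⟨l, h1, h2, by linarith, ?_⟩
    have h4 : ‖Q.1 - b l‖ ≤ ‖P.1 - Q.1‖ + ‖P.1 - b l‖ := by
      rw [norm_sub_rev P.1 Q.1]
      have := norm_add_le (Q.1 - P.1) (P.1 - b l)
      rwa [sub_add_sub_cancel] at this
    linarith
  · right
    push Not at hl
    have hPe : c / 4 - c / 16 ≤ ‖P.1 - e‖ := by
      rcases hPQ with h | h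
      · linarith
      · have h4 : ‖Q.1 - e‖ ≤ ‖P.1 - Q.1‖ + ‖P.1 - e‖ := by
          rw [norm_sub_rev P.1 Q.1]
          have := norm_add_le (Q.1 - P.1) (P.1 - e)
          rwa [sub_add_sub_cancel] at this
        linarith
    have hQe : c / 4 - c / 16 ≤ ‖Q.1 - e‖ := by
      rcases hPQ with h | h
      · have h4 : ‖P.1 - e‖ ≤ ‖P.1 - Q.1‖ + ‖Q.1 - e‖ := by
          have := norm_add_le (P.1 - Q.1) (Q.1 - e)
          rwa [sub_add_sub_cancel] at this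
        linarith
      · linarith
    have hpair : ∀ (x w : ℂ), ‖w‖ = ‖z‖ → c / 4 - c / 16 ≤ ‖x - e‖ → T ≤ ‖x - (e + w)‖ := by
      intro x w hw hxe
      have h4 : ‖x - e‖ ≤ ‖x - (e + w)‖ + ‖w‖ := by
        have h5 : x - e = (x - (e + w)) + w := by ring
        rw [h5]
        exact norm_add_le _ _
      have h6 : T ≤ c / 8 := min_le_right _ _
      rw [hw] at h4
      linarith
    have hall : ∀ (x : ℂ), c / 4 - c / 16 ≤ ‖x - e‖ →
        (∀ l, l ≠ k.castSucc → l ≠ k.succ → T ≤ ‖x - b l‖) → ∀ l, T ≤ ‖x - b l‖ := by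
      intro x hxe hx l
      by_cases h1 : l = k.castSucc
      · rw [h1, hb1, sub_eq_add_neg e z]
        exact hpair x (-z) (norm_neg z) hxe
      · by_cases h2 : l = k.succ
        · rw [h2, hb2]
          exact hpair x z rfl hxe
        · exact hx l h1 h2
    have hT1 : T ≤ δ / 200 := min_le_left _ _
    refine cls_of_near hT hP (hall P.1 hPe fun l h1 h2 => ?_)
      (hall Q.1 hQe fun l h1 h2 => ?_) hx3 hy3
    · have := hl l h1 h2
      linarith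
    · have h3 := hl l h1 h2
      have h4 : ‖P.1 - b l‖ ≤ ‖P.1 - Q.1‖ + ‖Q.1 - b l‖ := by
        have := norm_add_le (P.1 - Q.1) (Q.1 - b l)
        rwa [sub_add_sub_cancel] at this
      linarith

/-! ### marks near infinity -/

theorem norm_cube_sub_le {a b : ℂ} {A : ℝ} (ha : ‖a‖ ≤ A) (hb : ‖b‖ ≤ A) :
    ‖a ^ 3 - b ^ 3‖ ≤ 3 * A ^ 2 * ‖a - b‖ := by
  have h1 : a ^ 3 - b ^ 3 = (a ^ 2 + a * b + b ^ 2) * (a - b) := by ring
  rw [h1, norm_mul]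
  refine mul_le_mul_of_nonneg_right ?_ (norm_nonneg _)
  have hA : 0 ≤ A := (norm_nonneg a).trans ha
  calc ‖a ^ 2 + a * b + b ^ 2‖ ≤ ‖a ^ 2 + a * b‖ + ‖b ^ 2‖ := norm_add_le _ _
    _ ≤ ‖a ^ 2‖ + ‖a * b‖ + ‖b ^ 2‖ := by gcongr; exact norm_add_le _ _
    _ ≤ A ^ 2 + A * A + A ^ 2 := by
        rw [norm_pow, norm_mul, norm_pow]
        gcongr
    _ = 3 * A ^ 2 := by ring

theorem norm_v_le {b : C6} {M : ℝ} (hb : ∀ l, ‖b l‖ ≤ M) {w v : ℂ} (h : On1 true (b, w) v)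
    (hw : M * ‖w‖ ≤ 1) : ‖v‖ ≤ 8 := by
  have h0 := h.1
  simp only at h0
  rw [pol_true] at h0
  have h1 : ‖v‖ ^ 2 ≤ 8 ^ 2 := by
    rw [← norm_pow, h0, norm_prod]
    calc ∏ i : Fin 6, ‖1 - b i * w‖ ≤ ∏ _i : Fin 6, (2 : ℝ) := by
          refine Finset.prod_le_prod (fun _ _ => norm_nonneg _) fun i _ => ?_
          refine (norm_sub_le _ _).trans ?_
          rw [norm_one, norm_mul]
          have := mul_le_mul_of_nonneg_right (hb i) (norm_nonneg w)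
          linarith
      _ = 8 ^ 2 := by simp; norm_num
  exact (sq_le_sq₀ (norm_nonneg _) (by norm_num)).1 h1

theorem Rr_le {b : C6} {M : ℝ} (hb : ∀ l, ‖b l‖ ≤ M) : Rr b ≤ 8 * Real.sqrt (1 + 6 * M ^ 2) := by
  unfold H604.Rr
  gcongr
  calc ∑ i, ‖b i‖ ^ 2 ≤ ∑ _i : Fin 6, M ^ 2 :=
        Finset.sum_le_sum fun i _ => pow_le_pow_left₀ (norm_nonneg _) (hb i) 2
    _ = 6 * M ^ 2 := by simp

theorem far_dist {b : C6} {M : ℝ} (hb : ∀ l, ‖b l‖ ≤ M) {R₀ : ℝ} (hR : M + 2 ≤ R₀) {w : ℂ}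
    (_hR0 : 0 < R₀) (hw : w ≠ 0) (hw1 : ‖w‖ ≤ R₀⁻¹) (l : Fin 6) : 2 ≤ ‖w⁻¹ - b l‖ := by
  have h1 : R₀ ≤ ‖w⁻¹‖ := by
    rw [norm_inv, ← inv_inv R₀]
    exact inv_anti₀ (norm_pos_iff.2 hw) hw1
  have h2 := norm_sub_norm_le w⁻¹ (b l)
  have h3 := hb l
  linarith

theorem close_far {M R₀ : ℝ} (hM : 0 ≤ M) (hR : M + 2 ≤ R₀) : ∃ r > 0, ∀ (b : C6),
    (∀ l, ‖b l‖ ≤ M) → ∀ w v w' v' : ℂ, On1 true (b, w) v → On1 true (b, w') v' →
    (w ≠ 0 → Pt b (w⁻¹, v * (w⁻¹) ^ 3)) →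
    ‖w‖ ≤ R₀⁻¹ → ‖w'‖ ≤ R₀⁻¹ → ‖w - w'‖ < r → ‖v - v'‖ < r →
    (35 / 16 * Rr b * ‖w‖ < 1 ∧ 35 / 16 * Rr b * ‖w'‖ < 1 ∧ (0 < v.re ↔ 0 < v'.re)) ∨
    (w ≠ 0 ∧ w' ≠ 0 ∧ Cls b (w⁻¹, v * (w⁻¹) ^ 3) (w'⁻¹, v' * (w'⁻¹) ^ 3)) := by
  have hR0 : 0 < R₀ := by linarith
  set Rm : ℝ := 8 * Real.sqrt (1 + 6 * M ^ 2) with hRm
  have hRmp : 0 < Rm := by positivity
  set om : ℝ := 1 / (3 * Rm) with hom
  have homp : 0 < om := by positivity
  have hr6 := rad_pos 6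
  set A : ℝ := 2 / om with hA
  have hAp : 0 < A := by positivity
  set N : ℝ := A ^ 2 + 24 * A ^ 4 + A ^ 3 + 1 with hN
  have hNp : 0 < N := by positivity
  refine ⟨min (min 1 (om / 2)) (min (rad 6 / 6 / N) (1 / N)),
    lt_min (lt_min one_pos (by positivity)) (lt_min (by positivity) (by positivity)), ?_⟩
  intro b hb w v w' v' hv hv' hP hw hw' hx hy
  have hRr : Rr b ≤ Rm := Rr_le hb
  have hRr0 := H604.Rr_pos b
  have hx1 : ‖w - w'‖ < om / 2 := hx.trans_le ((min_le_left _ _).trans (min_le_right _ _))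
  have hx3 : ‖w - w'‖ < rad 6 / 6 / N := hx.trans_le ((min_le_right _ _).trans (min_le_left _ _))
  have hx4 : ‖w - w'‖ < 1 / N := hx.trans_le ((min_le_right _ _).trans (min_le_right _ _))
  have hy1 : ‖v - v'‖ < 1 := hy.trans_le ((min_le_left _ _).trans (min_le_left _ _))
  have hy4 : ‖v - v'‖ < 1 / N := hy.trans_le ((min_le_right _ _).trans (min_le_right _ _))
  have hzone : ∀ u : ℂ, ‖u‖ < om → 35 / 16 * Rr b * ‖u‖ < 1 := by
    intro u hu
    have h1 : Rr b * ‖u‖ ≤ Rm * om := mul_le_mul hRr hu.le (norm_nonneg _) hRmp.le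
    have h2 : Rm * om = 1 / 3 := by
      rw [hom]
      field_simp
    rw [h2] at h1
    linarith
  by_cases hz : ‖w‖ < om ∧ ‖w'‖ < om
  · left
    refine ⟨hzone w hz.1, hzone w' hz.2, ?_⟩
    have g1 : 2 * Rr b * ‖w‖ < 1 := by
      have := hzone w hz.1
      have h3 := mul_nonneg hRr0.le (norm_nonneg w)
      linarith
    have g2 : 2 * Rr b * ‖w'‖ < 1 := by
      have := hzone w' hz.2
      have h3 := mul_nonneg hRr0.le (norm_nonneg w')
      linarith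
    rcases re_of_far hv g1 with ⟨a1, a2⟩ | ⟨a1, a2⟩ <;> rcases re_of_far hv' g2 with ⟨b1, b2⟩ | ⟨b1, b2⟩
    · exact ⟨fun _ => b1, fun _ => a1⟩
    · exfalso
      have h5 : (2 : ℂ) = (v - v') - (v - 1) + (v' + 1) := by ring
      have h6 : ‖(2 : ℂ)‖ ≤ ‖v - v'‖ + ‖v - 1‖ + ‖v' + 1‖ := by
        rw [h5]
        refine (norm_add_le _ _).trans ?_
        gcongr
        exact norm_sub_le _ _
      rw [Complex.norm_ofNat] at h6
      linarith
    · exfalso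
      have h5 : (2 : ℂ) = -(v - v') + (v + 1) - (v' - 1) := by ring
      have h6 : ‖(2 : ℂ)‖ ≤ ‖v - v'‖ + ‖v + 1‖ + ‖v' - 1‖ := by
        rw [h5]
        refine (norm_sub_le _ _).trans ?_
        gcongr
        refine (norm_add_le _ _).trans ?_
        rw [norm_neg]
      rw [Complex.norm_ofNat] at h6
      linarith
    · exact ⟨fun h => absurd h (not_lt.2 a1.le), fun h => absurd h (not_lt.2 b1.le)⟩
  · right
    have hboth : om / 2 ≤ ‖w‖ ∧ om / 2 ≤ ‖w'‖ := by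
      have h1 := abs_norm_sub_norm_le w w'
      have h2 := abs_le.1 (h1.trans hx1.le)
      by_cases h3 : ‖w‖ < om
      · have h4 : om ≤ ‖w'‖ := not_lt.1 fun h => hz ⟨h3, h⟩
        exact ⟨by linarith [h2.1], by linarith⟩
      · have h4 := not_lt.1 h3
        exact ⟨by linarith, by linarith [h2.2]⟩
    have hw0 : w ≠ 0 := norm_pos_iff.1 (lt_of_lt_of_le (by positivity) hboth.1)
    have hw0' : w' ≠ 0 := norm_pos_iff.1 (lt_of_lt_of_le (by positivity) hboth.2)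
    refine ⟨hw0, hw0', ?_⟩
    have i1 : ‖w⁻¹‖ ≤ A := by
      rw [norm_inv, hA]
      have : (2 / om) = (om / 2)⁻¹ := by field_simp
      rw [this]
      exact inv_anti₀ (by positivity) hboth.1
    have i2 : ‖w'⁻¹‖ ≤ A := by
      rw [norm_inv, hA]
      have : (2 / om) = (om / 2)⁻¹ := by field_simp
      rw [this]
      exact inv_anti₀ (by positivity) hboth.2
    have hxx : ‖w⁻¹ - w'⁻¹‖ ≤ A ^ 2 * ‖w - w'‖ := by
      have h1 : w⁻¹ - w'⁻¹ = w⁻¹ * w'⁻¹ * (w' - w) := by field_simp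
      rw [h1, norm_mul, norm_mul, norm_sub_rev w']
      refine mul_le_mul_of_nonneg_right ?_ (norm_nonneg _)
      rw [sq]
      exact mul_le_mul i1 i2 (norm_nonneg _) hAp.le
    have hv8 : ‖v‖ ≤ 8 := by
      refine norm_v_le hb hv ?_
      have h1 : M * ‖w‖ ≤ M * R₀⁻¹ := mul_le_mul_of_nonneg_left hw hM
      have h2 : M * R₀⁻¹ ≤ 1 := by
        rw [← div_eq_mul_inv, div_le_one hR0]
        linarith
      linarith
    have hyy : ‖v * (w⁻¹) ^ 3 - v' * (w'⁻¹) ^ 3‖ ≤ 24 * A ^ 4 * ‖w - w'‖ + A ^ 3 * ‖v - v'‖ := by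
      have h1 : v * (w⁻¹) ^ 3 - v' * (w'⁻¹) ^ 3 =
          v * ((w⁻¹) ^ 3 - (w'⁻¹) ^ 3) + (v - v') * (w'⁻¹) ^ 3 := by ring
      rw [h1]
      refine (norm_add_le _ _).trans ?_
      rw [norm_mul, norm_mul, norm_pow]
      have h2 := norm_cube_sub_le i1 i2
      have h3 : ‖v‖ * ‖(w⁻¹) ^ 3 - (w'⁻¹) ^ 3‖ ≤ 8 * (3 * A ^ 2 * (A ^ 2 * ‖w - w'‖)) := by
        refine mul_le_mul hv8 (h2.trans ?_) (norm_nonneg _) (by norm_num)
        exact mul_le_mul_of_nonneg_left hxx (by positivity)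
      have h4 : ‖v - v'‖ * ‖w'⁻¹‖ ^ 3 ≤ ‖v - v'‖ * A ^ 3 :=
        mul_le_mul_of_nonneg_left (pow_le_pow_left₀ (norm_nonneg _) i2 3) (norm_nonneg _)
      calc _ ≤ 8 * (3 * A ^ 2 * (A ^ 2 * ‖w - w'‖)) + ‖v - v'‖ * A ^ 3 := add_le_add h3 h4
        _ = _ := by ring
    refine cls_of_near (T := 1) one_pos (hP hw0) (fun l => ?_) (fun l => ?_) ?_ ?_
    · have := far_dist hb hR hR0 hw0 hw l
      linarith
    · have := far_dist hb hR hR0 hw0' hw' l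
      linarith
    · rw [mul_one]
      refine hxx.trans_lt ?_
      have h1 : A ^ 2 ≤ N := by
        rw [hN]
        have : 0 ≤ 24 * A ^ 4 + A ^ 3 + 1 := by positivity
        linarith
      calc A ^ 2 * ‖w - w'‖ ≤ N * ‖w - w'‖ := mul_le_mul_of_nonneg_right h1 (norm_nonneg _)
        _ < N * (rad 6 / 6 / N) := mul_lt_mul_of_pos_left hx3 hNp
        _ = rad 6 / 6 := by field_simp
    · rw [one_pow]
      refine hyy.trans_lt ?_
      have h1 : 24 * A ^ 4 * ‖w - w'‖ + A ^ 3 * ‖v - v'‖ ≤ (24 * A ^ 4 + A ^ 3) * (1 / N) := by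
        rw [add_mul]
        exact add_le_add (mul_le_mul_of_nonneg_left hx4.le (by positivity))
          (mul_le_mul_of_nonneg_left hy4.le (by positivity))
      refine h1.trans_lt ?_
      rw [mul_one_div, div_lt_one hNp, hN]
      have : 0 < A ^ 2 := by positivity
      linarith

theorem close_mixed {M R₀ : ℝ} (hM : 0 ≤ M) (hR : M + 2 ≤ R₀) : ∃ r > 0, ∀ (b : C6),
    (∀ l, ‖b l‖ ≤ M) → ∀ x y w v : ℂ, On1 true (b, w) v →
    (w ≠ 0 → Pt b (w⁻¹, v * (w⁻¹) ^ 3)) →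
    ‖x‖ ≤ R₀ → ‖w‖ ≤ R₀⁻¹ → ‖x * w - 1‖ < r → (‖v - y * w ^ 3‖ < r ∨ ‖y - v * x ^ 3‖ < r) →
    w ≠ 0 ∧ Cls b (w⁻¹, v * (w⁻¹) ^ 3) (x, y) := by
  have hR0 : 0 < R₀ := by linarith
  have hr6 := rad_pos 6
  set A : ℝ := 2 * R₀ with hA
  have hAp : 0 < A := by positivity
  have hA1 : 1 ≤ A := by linarith
  set N : ℝ := 24 * A ^ 3 + A ^ 3 + A + 2 with hN
  have hNp : 0 < N := by positivity
  refine ⟨min (1 / 2) (min (rad 6 / 6 / N) (1 / N)),
    lt_min (by norm_num) (lt_min (by positivity) (by positivity)), ?_⟩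
  intro b hb x y w v hv hP hx hw hxw hy
  have h2 : ‖x * w - 1‖ < 1 / 2 := hxw.trans_le (min_le_left _ _)
  have h3 : ‖x * w - 1‖ < rad 6 / 6 / N := hxw.trans_le ((min_le_right _ _).trans (min_le_left _ _))
  have h4 : ‖x * w - 1‖ < 1 / N := hxw.trans_le ((min_le_right _ _).trans (min_le_right _ _))
  have hy4 : ‖v - y * w ^ 3‖ < 1 / N ∨ ‖y - v * x ^ 3‖ < 1 / N := by
    rcases hy with h | h
    · exact Or.inl (h.trans_le ((min_le_right _ _).trans (min_le_right _ _)))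
    · exact Or.inr (h.trans_le ((min_le_right _ _).trans (min_le_right _ _)))
  have hw2 : 1 / 2 < ‖x‖ * ‖w‖ := by
    rw [← norm_mul]
    have := norm_sub_norm_le (1 : ℂ) (1 - x * w)
    rw [norm_one, sub_sub_cancel, norm_sub_rev] at this
    linarith
  have hw0 : w ≠ 0 := by
    rintro rfl
    rw [norm_zero, mul_zero] at hw2
    linarith
  have hwp := norm_pos_iff.2 hw0
  refine ⟨hw0, ?_⟩
  have i1 : ‖w⁻¹‖ ≤ A := by
    rw [norm_inv, inv_le_comm₀ hwp hAp, hA, ← one_div, div_le_iff₀ (by positivity)]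
    have : ‖x‖ * ‖w‖ ≤ R₀ * ‖w‖ := mul_le_mul_of_nonneg_right hx hwp.le
    linarith
  have i2 : ‖x‖ ≤ A := by linarith
  have hxx : ‖w⁻¹ - x‖ ≤ A * ‖x * w - 1‖ := by
    have e1 : w⁻¹ - x = -(w⁻¹ * (x * w - 1)) := by
      field_simp
      ring
    rw [e1, norm_neg, norm_mul]
    exact mul_le_mul_of_nonneg_right i1 (norm_nonneg _)
  have hv8 : ‖v‖ ≤ 8 := by
    refine norm_v_le hb hv ?_
    have h1 : M * ‖w‖ ≤ M * R₀⁻¹ := mul_le_mul_of_nonneg_left hw hM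
    have h2 : M * R₀⁻¹ ≤ 1 := by
      rw [← div_eq_mul_inv, div_le_one hR0]
      linarith
    linarith
  have hN1 : A ≤ N := by
    rw [hN]
    have : 0 ≤ 24 * A ^ 3 + A ^ 3 + 2 := by positivity
    linarith
  have hAN : A * ‖x * w - 1‖ < 1 / 6 * rad 6 := by
    calc A * ‖x * w - 1‖ ≤ N * ‖x * w - 1‖ := mul_le_mul_of_nonneg_right hN1 (norm_nonneg _)
      _ < N * (rad 6 / 6 / N) := mul_lt_mul_of_pos_left h3 hNp
      _ = 1 / 6 * rad 6 := by field_simp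
  have hrad : rad 6 ≤ 1 := (H578.rad_le 6).trans (by norm_num)
  refine cls_of_near (T := 1) one_pos (hP hw0) (fun l => ?_) (fun l => ?_) ?_ ?_
  · have := far_dist hb hR hR0 hw0 hw l
    linarith
  · have h5 := far_dist hb hR hR0 hw0 hw l
    have h6 : ‖w⁻¹ - b l‖ ≤ ‖w⁻¹ - x‖ + ‖x - b l‖ := by
      have := norm_add_le (w⁻¹ - x) (x - b l)
      rwa [sub_add_sub_cancel] at this
    show 1 ≤ ‖x - b l‖
    linarith
  · rw [mul_one]
    show ‖w⁻¹ - x‖ < rad 6 / 6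
    linarith
  · rw [one_pow]
    show ‖v * (w⁻¹) ^ 3 - y‖ < 1
    have hA3 : A ^ 3 < N := by
      rw [hN]
      have : 0 ≤ 24 * A ^ 3 + A := by positivity
      linarith
    rcases hy4 with h | h
    · have e1 : v * (w⁻¹) ^ 3 - y = (w⁻¹) ^ 3 * (v - y * w ^ 3) := by
        field_simp
      rw [e1, norm_mul, norm_pow]
      calc ‖w⁻¹‖ ^ 3 * ‖v - y * w ^ 3‖ ≤ A ^ 3 * (1 / N) :=
            mul_le_mul (pow_le_pow_left₀ (norm_nonneg _) i1 3) h.le (norm_nonneg _) (by positivity)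
        _ < 1 := by rw [mul_one_div, div_lt_one hNp]; exact hA3
    · have e1 : v * (w⁻¹) ^ 3 - y = v * ((w⁻¹) ^ 3 - x ^ 3) - (y - v * x ^ 3) := by ring
      rw [e1]
      refine (norm_sub_le _ _).trans_lt ?_
      rw [norm_mul]
      have h5 := norm_cube_sub_le i1 i2
      have h6 : ‖v‖ * ‖(w⁻¹) ^ 3 - x ^ 3‖ ≤ 8 * (3 * A ^ 2 * (A * ‖x * w - 1‖)) := by
        refine mul_le_mul hv8 (h5.trans ?_) (norm_nonneg _) (by norm_num)
        exact mul_le_mul_of_nonneg_left hxx (by positivity)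
      have h7 : 8 * (3 * A ^ 2 * (A * ‖x * w - 1‖)) ≤ 24 * A ^ 3 * (1 / N) := by
        have : 8 * (3 * A ^ 2 * (A * ‖x * w - 1‖)) = 24 * A ^ 3 * ‖x * w - 1‖ := by ring
        rw [this]
        exact mul_le_mul_of_nonneg_left h4.le (by positivity)
      have h8 : 24 * A ^ 3 * (1 / N) + 1 / N < 1 := by
        rw [mul_one_div, ← add_div, div_lt_one hNp, hN]
        have : 0 < A ^ 3 + A := by positivity
        linarith
      linarith

end Vale.P273.H887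

end
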