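import Vale.Agent.P273.H887.Geo1

/-!
# P273, row ASY1 (helper887): close marks in the neck
-/

noncomputable section

namespace Vale.P273.H887

open Set Filter Vale.Agent.P273 Vale.Agent.P273.H681 Vale.Agent.P273.H95 Vale.Agent.P273.H973
open Vale.Agent.P273.H578 (Pt fb rad rad_pos Close Hs same_iff re_pos_of_norm same_comm)
open Vale.Agent.P273.H214 (hh)
open scoped Topology ContDiff

/-! ### neck coordinates -/

/-- off the discs around the two roots, the distance to them is comparable with `‖X‖ + ‖Y‖` -/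
theorem neck_sep {X Y z w : ℂ} (h : X * Y = z ^ 2) (hw : ‖w‖ = ‖z‖)
    (hd : 3 / 25 * ‖z‖ ≤ ‖(X + Y) / 2 - w‖) :
    3 / 200 * (‖X‖ + ‖Y‖) ≤ ‖(X + Y) / 2 - w‖ := by
  have h1 : ‖X‖ * ‖Y‖ = ‖z‖ ^ 2 := by rw [← norm_mul, h, norm_pow]
  have hX := norm_nonneg X
  have hY := norm_nonneg Y
  have hz := norm_nonneg z
  have key : ∀ A B : ℂ, ‖A‖ / 2 - ‖B‖ / 2 - ‖w‖ ≤ ‖(A + B) / 2 - w‖ := by
    intro A B
    have h2 : ‖A / 2‖ ≤ ‖(A + B) / 2 - w‖ + ‖B / 2‖ + ‖w‖ := by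
      have h3 : A / 2 = ((A + B) / 2 - w) - B / 2 + w := by ring
      calc ‖A / 2‖ = ‖((A + B) / 2 - w) - B / 2 + w‖ := by rw [← h3]
        _ ≤ ‖((A + B) / 2 - w) - B / 2‖ + ‖w‖ := norm_add_le _ _
        _ ≤ _ := by gcongr; exact norm_sub_le _ _
    rw [norm_div, norm_div, Complex.norm_ofNat] at h2
    linarith
  rw [hw] at key
  by_cases c1 : ‖Y‖ ≤ ‖X‖ / 16
  · have h2 : ‖z‖ ≤ ‖X‖ / 4 := by
      refine (sq_le_sq₀ hz (by positivity)).1 ?_
      rw [← h1]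
      nlinarith
    have := key X Y
    linarith
  · by_cases c2 : ‖X‖ ≤ ‖Y‖ / 16
    · have h2 : ‖z‖ ≤ ‖Y‖ / 4 := by
        refine (sq_le_sq₀ hz (by positivity)).1 ?_
        rw [← h1]
        nlinarith
      have h3 := key Y X
      rw [add_comm Y X] at h3
      linarith
    · push Not at c1 c2
      have h2 : (‖X‖ + ‖Y‖) / 8 ≤ ‖z‖ := by
        refine (sq_le_sq₀ (by positivity) hz).1 ?_
        rw [← h1]
        nlinarith
      linarith

/-- near a root of the pair the neck coordinates are of the size of the half difference -/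
theorem neck_near {X Y z w : ℂ} (h : X * Y = z ^ 2) (hw : w ^ 2 = z ^ 2)
    (hd : ‖(X + Y) / 2 - w‖ < 3 / 25 * ‖z‖) : ‖X‖ + ‖Y‖ ≤ 4 * ‖z‖ := by
  have hwn : ‖w‖ = ‖z‖ := by
    have : ‖w‖ ^ 2 = ‖z‖ ^ 2 := by rw [← norm_pow, hw, norm_pow]
    exact (pow_left_inj₀ (norm_nonneg _) (norm_nonneg _) two_ne_zero).1 this
  have hz := norm_nonneg z
  have h1 : ‖(X + Y) / 2‖ ≤ 28 / 25 * ‖z‖ := by
    have h2 : (X + Y) / 2 = ((X + Y) / 2 - w) + w := by ring
    rw [h2]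
    refine (norm_add_le _ _).trans ?_
    linarith
  have h2 : ‖(X + Y) / 2 + w‖ ≤ 53 / 25 * ‖z‖ := by
    refine (norm_add_le _ _).trans ?_
    linarith
  have h3 : ‖(X - Y) / 2‖ ^ 2 ≤ (3 / 5 * ‖z‖) ^ 2 := by
    have e1 : ((X - Y) / 2) ^ 2 = ((X + Y) / 2 - w) * ((X + Y) / 2 + w) := by
      have : ((X - Y) / 2) ^ 2 = ((X + Y) / 2) ^ 2 - X * Y := by ring
      rw [this, h, ← hw]
      ring
    rw [← norm_pow, e1, norm_mul]
    have h4 := mul_le_mul hd.le h2 (norm_nonneg _) (by positivity)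
    nlinarith [sq_nonneg ‖z‖]
  have h4 : ‖(X - Y) / 2‖ ≤ 3 / 5 * ‖z‖ := (sq_le_sq₀ (norm_nonneg _) (by positivity)).1 h3
  have h5 : ‖X‖ ≤ ‖(X + Y) / 2‖ + ‖(X - Y) / 2‖ := by
    have : X = (X + Y) / 2 + (X - Y) / 2 := by ring
    calc ‖X‖ = ‖(X + Y) / 2 + (X - Y) / 2‖ := by rw [← this]
      _ ≤ _ := norm_add_le _ _
  have h6 : ‖Y‖ ≤ ‖(X + Y) / 2‖ + ‖(X - Y) / 2‖ := by
    have : Y = (X + Y) / 2 - (X - Y) / 2 := by ring
    calc ‖Y‖ = ‖(X + Y) / 2 - (X - Y) / 2‖ := by rw [← this]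
      _ ≤ _ := norm_sub_le _ _
  linarith

/-- two marks of the neck with the ratio `μ` -/
theorem neck_cmp {X Y X' Y' μ : ℂ} {r : ℝ} (h1 : X' = μ * X) (h2 : Y = μ * Y')
    (hr : ‖μ - 1‖ ≤ r) (hr2 : r ≤ 1 / 2) :
    ‖(X + Y) / 2 - (X' + Y') / 2‖ ≤ r * (‖X‖ + ‖Y‖) ∧
      ‖(X - Y) - (X' - Y')‖ ≤ 2 * r * (‖X‖ + ‖Y‖) := by
  have hr0 : 0 ≤ r := (norm_nonneg _).trans hr
  have hX := norm_nonneg X
  have hY := norm_nonneg Y
  have hμ : 1 / 2 ≤ ‖μ‖ := by
    have := norm_sub_norm_le (1 : ℂ) (1 - μ)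
    rw [norm_one, sub_sub_cancel, norm_sub_rev] at this
    linarith
  have hY' : ‖Y'‖ ≤ 2 * ‖Y‖ := by
    have h3 : ‖Y‖ = ‖μ‖ * ‖Y'‖ := by rw [h2, norm_mul]
    have := norm_nonneg Y'
    nlinarith
  constructor
  · have e1 : (X + Y) / 2 - (X' + Y') / 2 = (-(μ - 1) * X + (μ - 1) * Y') / 2 := by
      rw [h1, h2]
      ring
    rw [e1, norm_div, Complex.norm_ofNat, div_le_iff₀ two_pos]
    refine (norm_add_le _ _).trans ?_
    rw [norm_mul, norm_mul, norm_neg]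
    have h3 := mul_le_mul_of_nonneg_right hr hX
    have h4 := mul_le_mul hr hY' (norm_nonneg _) hr0
    nlinarith
  · have e1 : (X - Y) - (X' - Y') = -(μ - 1) * X + -(μ - 1) * Y' := by
      rw [h1, h2]
      ring
    rw [e1]
    refine (norm_add_le _ _).trans ?_
    rw [norm_mul, norm_mul, norm_neg]
    have h3 := mul_le_mul_of_nonneg_right hr hX
    have h4 := mul_le_mul hr hY' (norm_nonneg _) hr0
    nlinarith

/-! ### square roots -/

theorem norm_csq_sub_one {t : ℂ} (ht : ‖t‖ ≤ 1 / 2) : ‖csq (1 + t) - 1‖ ≤ ‖t‖ := by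
  have h1 : 1 + t ∈ Complex.slitPlane := by
    left
    have := (abs_le.1 ((Complex.abs_re_le_norm t).trans ht)).1
    rw [Complex.add_re, Complex.one_re]
    linarith
  have h2 : 0 < (csq (1 + t)).re := H578.re_cpow_half_pos h1
  have h3 : (csq (1 + t) - 1) * (csq (1 + t) + 1) = t := by
    have := H883.csq_sq (1 + t)
    linear_combination this
  have h4 : 1 ≤ ‖csq (1 + t) + 1‖ := by
    have := Complex.abs_re_le_norm (csq (1 + t) + 1)
    rw [Complex.add_re, Complex.one_re, abs_of_pos (by linarith)] at this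
    linarith
  calc ‖csq (1 + t) - 1‖ ≤ ‖csq (1 + t) - 1‖ * ‖csq (1 + t) + 1‖ :=
        le_mul_of_one_le_right (norm_nonneg _) h4
    _ = ‖t‖ := by rw [← norm_mul, h3]

theorem norm_prod_csq {t : Fin 4 → ℂ} (ht : ∀ l, ‖t l‖ ≤ 1 / 64) :
    ‖(∏ l, csq (1 + t l)) - 1‖ ≤ 1 / 8 := by
  have h1 : ∏ l, csq (1 + t l) = ∏ l, (1 + (csq (1 + t l) - 1)) :=
    Finset.prod_congr rfl fun l _ => by ring
  rw [h1]
  refine (Finset.norm_prod_one_add_sub_one_le _ _).trans ?_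
  have h2 : ∑ l : Fin 4, ‖csq (1 + t l) - 1‖ ≤ 1 / 16 := by
    calc ∑ l : Fin 4, ‖csq (1 + t l) - 1‖ ≤ ∑ _l : Fin 4, (1 / 64 : ℝ) :=
          Finset.sum_le_sum fun l _ => (norm_csq_sub_one ((ht l).trans (by norm_num))).trans (ht l)
      _ = 1 / 16 := by simp; norm_num
  have h3 := Real.exp_le_exp.2 h2
  have h4 : Real.exp (1 / 16 : ℝ) ≤ 9 / 8 := by
    have h5 := Real.add_one_le_exp (-(1 / 16 : ℝ))
    have h6 : Real.exp (1 / 16 : ℝ) * Real.exp (-(1 / 16)) = 1 := by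
      rw [← Real.exp_add]; norm_num
    have h7 := Real.exp_pos (1 / 16 : ℝ)
    nlinarith
  linarith

theorem sheet_cmp {g P P' D D' : ℂ} (hg : g ≠ 0) (hD : D ≠ 0) (hP : ‖P - 1‖ ≤ 1 / 8)
    (hP' : ‖P' - 1‖ ≤ 1 / 8) (hDD : ‖D - D'‖ ≤ 1 / 4 * ‖D‖) :
    ‖g * P * D / 2 - g * P' * D' / 2‖ < ‖g * P * D / 2‖ := by
  have h1 : g * P * D / 2 - g * P' * D' / 2 = g * (P' * (D - D') + (P - P') * D) / 2 := by ring
  have h2 : ‖P - P'‖ ≤ 1 / 4 := by
    have : P - P' = (P - 1) - (P' - 1) := by ring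
    rw [this]
    exact (norm_sub_le _ _).trans (by linarith)
  have h3 : ‖P'‖ ≤ 9 / 8 := by
    have := norm_add_le (P' - 1) 1
    rw [sub_add_cancel, norm_one] at this
    linarith
  have h4 : 7 / 8 ≤ ‖P‖ := by
    have := norm_sub_norm_le (1 : ℂ) (1 - P)
    rw [norm_one, sub_sub_cancel, norm_sub_rev] at this
    linarith
  have hgp := norm_pos_iff.2 hg
  have hDp := norm_pos_iff.2 hD
  rw [h1, norm_div, norm_div, norm_mul, norm_mul, norm_mul]
  have h5 : ‖P' * (D - D') + (P - P') * D‖ < ‖P‖ * ‖D‖ := by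
    calc ‖P' * (D - D') + (P - P') * D‖ ≤ ‖P'‖ * ‖D - D'‖ + ‖P - P'‖ * ‖D‖ := by
          refine (norm_add_le _ _).trans ?_
          rw [norm_mul, norm_mul]
      _ ≤ 9 / 8 * (1 / 4 * ‖D‖) + 1 / 4 * ‖D‖ := by
          gcongr
      _ < 7 / 8 * ‖D‖ := by linarith
      _ ≤ ‖P‖ * ‖D‖ := mul_le_mul_of_nonneg_right h4 hDp.le
  have h6 : ‖g‖ * ‖P' * (D - D') + (P - P') * D‖ < ‖g‖ * (‖P‖ * ‖D‖) :=
    mul_lt_mul_of_pos_left h5 hgp
  have h7 : ‖g‖ * (‖P‖ * ‖D‖) = ‖g‖ * ‖P‖ * ‖D‖ := by ring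
  rw [h7] at h6
  exact div_lt_div_of_pos_right h6 (by simp)

/-! ### configurations with one small pair -/

/-- the roots `k`, `k+1` are `e - z`, `e + z`, the others are far -/
structure Pair1 (k : Fin 5) (δ M : ℝ) (b : C6) (e z : ℂ) : Prop where
  c1 : b k.castSucc = e - z
  c2 : b k.succ = e + z
  far : ∀ j, j ≠ k.castSucc → j ≠ k.succ → δ ≤ ‖b j - e‖
  far2 : ∀ i j, i ≠ j → i ≠ k.castSucc → i ≠ k.succ → j ≠ k.castSucc → j ≠ k.succ →
    δ ≤ ‖b i - b j‖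
  bd : ∀ j, ‖b j‖ ≤ M
  hz : ‖z‖ ≤ δ / 64
  z0 : z ≠ 0

theorem Pair1.out {k : Fin 5} {δ M : ℝ} {b : C6} {e z : ℂ} (h : Pair1 k δ M b e z)
    {l : Fin 6} (h1 : l ≠ k.castSucc) (h2 : l ≠ k.succ) (i : Fin 6) (hi : i ≠ l) :
    δ / 2 ≤ ‖b i - b l‖ := by
  have hz := h.hz
  have hz0 := norm_nonneg z
  have key : ∀ w : ℂ, ‖w‖ = ‖z‖ → δ / 2 ≤ ‖e + w - b l‖ := by
    intro w hw
    have h3 := h.far l h1 h2
    have h4 : ‖b l - e‖ ≤ ‖e + w - b l‖ + ‖w‖ := by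
      have h5 : b l - e = -(e + w - b l) + w := by ring
      rw [h5]
      refine (norm_add_le _ _).trans ?_
      rw [norm_neg]
    rw [hw] at h4
    linarith
  by_cases c1 : i = k.castSucc
  · rw [c1, h.c1, sub_eq_add_neg e z]
    exact key (-z) (norm_neg z)
  · by_cases c2 : i = k.succ
    · rw [c2, h.c2]
      exact key z rfl
    · have h3 := h.far2 i l hi c1 c2 h1 h2
      have h4 := norm_nonneg (b i - b l)
      linarith

theorem Pair1.inj {k : Fin 5} {δ M : ℝ} (hδ : 0 < δ) {b : C6} {e z : ℂ} (h : Pair1 k δ M b e z) :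
    Function.Injective b := by
  intro i j hij
  by_contra hne
  have key : ∀ a c : Fin 6, a ≠ c → b a = b c → a ≠ k.castSucc → a ≠ k.succ → False := by
    intro a c hac hbac h1 h2
    have := h.out h1 h2 c (Ne.symm hac)
    rw [hbac, sub_self, norm_zero] at this
    linarith
  by_cases h1 : i = k.castSucc ∨ i = k.succ
  · by_cases h2 : j = k.castSucc ∨ j = k.succ
    · have h3 : e - z ≠ e + z := by
        intro h4
        have : z + z = 0 := by linear_combination -h4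
        rw [← two_mul] at this
        exact h.z0 ((mul_eq_zero.1 this).resolve_left two_ne_zero)
      rcases h1 with h1 | h1 <;> rcases h2 with h2 | h2
      · exact hne (h1.trans h2.symm)
      · rw [h1, h2, h.c1, h.c2] at hij
        exact h3 hij
      · rw [h1, h2, h.c1, h.c2] at hij
        exact h3 hij.symm
      · exact hne (h1.trans h2.symm)
    · rw [not_or] at h2
      exact key j i (Ne.symm hne) hij.symm h2.1 h2.2
  · rw [not_or] at h1
    exact key i j hne hij h1.1 h1.2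

theorem hh_ge {b : C6} (hb : Function.Injective b) {l : Fin 6} {T : ℝ} (hT : 0 < T)
    (h : ∀ i, i ≠ l → T ≤ ‖b i - b l‖) : T ^ 2 / 6 ≤ hh b l := by
  unfold H214.hh
  rw [le_inv_comm₀ (by positivity) (H214.sum_pos_of_inj hb l)]
  calc ∑ i ∈ Finset.univ.erase l, (‖b i - b l‖ ^ 2)⁻¹ ≤
        ∑ _i ∈ Finset.univ.erase l, (T ^ 2)⁻¹ := by
          refine Finset.sum_le_sum fun i hi => ?_
          have h1 := h i (Finset.mem_erase.1 hi).1
          exact inv_anti₀ (by positivity) (pow_le_pow_left₀ hT.le h1 2)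
    _ = 5 * (T ^ 2)⁻¹ := by
        rw [Finset.sum_const, Finset.card_erase_of_mem (Finset.mem_univ l)]
        simp
    _ ≤ (T ^ 2 / 6)⁻¹ := by
        rw [inv_div, div_eq_mul_inv]
        have : (0 : ℝ) < (T ^ 2)⁻¹ := by positivity
        linarith

theorem Pair1.zone_out {k : Fin 5} {δ M : ℝ} (hδ : 0 < δ) {b : C6} {e z : ℂ}
    (h : Pair1 k δ M b e z) {l : Fin 6} (h1 : l ≠ k.castSucc) (h2 : l ≠ k.succ) :
    δ / 50 ≤ 29 / 256 * Real.sqrt (hh b l) := by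
  have h3 := hh_ge (h.inj hδ) (half_pos hδ) (h.out h1 h2)
  have h4 : δ / 5 ≤ Real.sqrt (hh b l) := by
    refine Real.le_sqrt_of_sq_le ?_
    refine le_trans ?_ h3
    nlinarith [sq_nonneg δ]
  linarith

theorem Pair1.zone_pair {k : Fin 5} {δ M : ℝ} (hδ : 0 < δ) {b : C6} {e z : ℂ}
    (h : Pair1 k δ M b e z) {l : Fin 6} (hl : l = k.castSucc ∨ l = k.succ) :
    ‖z‖ / 8 ≤ 29 / 256 * Real.sqrt (hh b l) := by
  have hz := norm_pos_iff.2 h.z0
  have hz1 := h.hz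
  have hinj := h.inj hδ
  -- the partner
  obtain ⟨l', hl', hll⟩ : ∃ l' : Fin 6, l' ≠ l ∧ (∀ i, i ≠ l → i ≠ l' →
      i ≠ k.castSucc ∧ i ≠ k.succ) ∧ ‖b l' - b l‖ = 2 * ‖z‖ := by
    have hne : k.castSucc ≠ k.succ := by
      intro h0
      have := congrArg Fin.val h0
      simp at this
    rcases hl with rfl | rfl
    · refine ⟨k.succ, hne.symm, fun i h1 h2 => ⟨h1, h2⟩, ?_⟩
      rw [h.c1, h.c2]
      have : e + z - (e - z) = 2 * z := by ring
      rw [this, norm_mul, Complex.norm_ofNat]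
    · refine ⟨k.castSucc, hne, fun i h1 h2 => ⟨h2, h1⟩, ?_⟩
      rw [h.c1, h.c2]
      have : e - z - (e + z) = -(2 * z) := by ring
      rw [this, norm_neg, norm_mul, Complex.norm_ofNat]
  obtain ⟨hll, hd⟩ := hll
  have hfar : ∀ i, i ≠ l → i ≠ l' → δ / 2 ≤ ‖b i - b l‖ := by
    intro i h1 h2
    obtain ⟨h3, h4⟩ := hll i h1 h2
    rw [norm_sub_rev]
    exact h.out h3 h4 l (Ne.symm h1)
  have hS : ∑ i ∈ Finset.univ.erase l, (‖b i - b l‖ ^ 2)⁻¹ ≤ (2 * ‖z‖ ^ 2)⁻¹ := by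
    rw [← Finset.add_sum_erase _ _ (Finset.mem_erase.2 ⟨hl', Finset.mem_univ l'⟩), hd]
    have h3 : ∑ i ∈ (Finset.univ.erase l).erase l', (‖b i - b l‖ ^ 2)⁻¹ ≤
        ∑ _i ∈ (Finset.univ.erase l).erase l', ((δ / 2) ^ 2)⁻¹ := by
      refine Finset.sum_le_sum fun i hi => ?_
      obtain ⟨h4, h5⟩ := Finset.mem_erase.1 hi
      have h6 := hfar i (Finset.mem_erase.1 h5).1 h4
      exact inv_anti₀ (by positivity) (pow_le_pow_left₀ (by positivity) h6 2)
    have h4 : ∑ _i ∈ (Finset.univ.erase l).erase l', ((δ / 2) ^ 2)⁻¹ = 4 * ((δ / 2) ^ 2)⁻¹ := by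
      rw [Finset.sum_const, Finset.card_erase_of_mem (Finset.mem_erase.2 ⟨hl', Finset.mem_univ l'⟩),
        Finset.card_erase_of_mem (Finset.mem_univ l)]
      simp
    rw [h4] at h3
    have h5 : ((δ / 2) ^ 2)⁻¹ ≤ ((32 * ‖z‖) ^ 2)⁻¹ :=
      inv_anti₀ (by positivity) (pow_le_pow_left₀ (by positivity) (by linarith) 2)
    have h6 : ((32 * ‖z‖) ^ 2)⁻¹ = 1 / 1024 * (‖z‖ ^ 2)⁻¹ := by
      rw [mul_pow, mul_inv]
      norm_num
    have h7 : ((2 * ‖z‖) ^ 2)⁻¹ = 1 / 4 * (‖z‖ ^ 2)⁻¹ := by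
      rw [mul_pow, mul_inv]
      norm_num
    have h8 : (2 * ‖z‖ ^ 2)⁻¹ = 1 / 2 * (‖z‖ ^ 2)⁻¹ := by
      rw [mul_inv]
      norm_num
    have h9 : (0 : ℝ) < (‖z‖ ^ 2)⁻¹ := by positivity
    rw [h7, h8]
    linarith
  have h3 : 2 * ‖z‖ ^ 2 ≤ hh b l := by
    unfold H214.hh
    rw [le_inv_comm₀ (by positivity) (H214.sum_pos_of_inj hinj l)]
    exact hS
  have h4 : 7 / 5 * ‖z‖ ≤ Real.sqrt (hh b l) := by
    refine Real.le_sqrt_of_sq_le ?_
    refine le_trans ?_ h3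
    nlinarith [sq_nonneg ‖z‖]
  linarith

/-- **two marks of the neck**: both in the disc of one of the two roots, or close -/
theorem close_neck {k : Fin 5} {δ M : ℝ} (hδ : 0 < δ) {b : C6} {e z : ℂ}
    (h : Pair1 k δ M b e z) {r : ℝ} (hr1 : r ≤ 1 / 1000) (hr2 : r ≤ rad 6 / 1000)
    {X Y X' Y' μ g : ℂ} {o : Fin 4 → ℂ} (ho : ∀ l, δ ≤ ‖e - o l‖) (hg : g ≠ 0)
    (hXY : X * Y = z ^ 2) (h1 : X' = μ * X) (h2 : Y = μ * Y') (hμ : ‖μ - 1‖ < r)
    (hX : ‖X‖ ≤ δ / 64) (hY : ‖Y‖ ≤ δ / 64) (hX' : ‖X'‖ ≤ δ / 64) (hY' : ‖Y'‖ ≤ δ / 64) :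
    (∃ l, (l = k.castSucc ∨ l = k.succ) ∧ ‖e + (X + Y) / 2 - b l‖ < ‖z‖ / 8 ∧
      ‖e + (X' + Y') / 2 - b l‖ < ‖z‖ / 8) ∨
    Cls b (e + (X + Y) / 2, g * (∏ l, csq ((e + (X + Y) / 2 - o l) / (e - o l))) * (X - Y) / 2)
      (e + (X' + Y') / 2,
        g * (∏ l, csq ((e + (X' + Y') / 2 - o l) / (e - o l))) * (X' - Y') / 2) := by
  have hz := norm_pos_iff.2 h.z0
  have hr0 : 0 < r := (norm_nonneg _).trans_lt hμ
  obtain ⟨hc1, hc2⟩ := neck_cmp h1 h2 hμ.le (by linarith)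
  have hXn := norm_nonneg X
  have hYn := norm_nonneg Y
  by_cases hdisc : ∃ w : ℂ, (w = z ∨ w = -z) ∧ ‖(X + Y) / 2 - w‖ < 3 / 25 * ‖z‖
  · left
    obtain ⟨w, hw, hd⟩ := hdisc
    have hw2 : w ^ 2 = z ^ 2 := by
      rcases hw with rfl | rfl
      · rfl
      · ring
    have h3 := neck_near hXY hw2 hd
    obtain ⟨l, hl, hbl⟩ : ∃ l, (l = k.castSucc ∨ l = k.succ) ∧ b l = e + w := by
      rcases hw with rfl | rfl
      · exact ⟨k.succ, Or.inr rfl, h.c2⟩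
      · exact ⟨k.castSucc, Or.inl rfl, by rw [h.c1]; ring⟩
    refine ⟨l, hl, ?_, ?_⟩
    · have e1 : e + (X + Y) / 2 - b l = (X + Y) / 2 - w := by rw [hbl]; ring
      rw [e1]
      linarith
    · have e1 : e + (X' + Y') / 2 - b l =
          ((X + Y) / 2 - w) - ((X + Y) / 2 - (X' + Y') / 2) := by rw [hbl]; ring
      rw [e1]
      refine (norm_sub_le _ _).trans_lt ?_
      have h4 : r * (‖X‖ + ‖Y‖) ≤ 1 / 1000 * (4 * ‖z‖) :=
        mul_le_mul hr1 h3 (by positivity) (by norm_num)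
      linarith
  · right
    push Not at hdisc
    have hdz := hdisc z (Or.inl rfl)
    have hdz' := hdisc (-z) (Or.inr rfl)
    have s1 := neck_sep hXY rfl hdz
    have s2 := neck_sep hXY (norm_neg z) hdz'
    set T : ℝ := ‖X‖ + ‖Y‖ with hTd
    have hTp : 0 < T := by
      have h3 : ‖X‖ * ‖Y‖ = ‖z‖ ^ 2 := by rw [← norm_mul, hXY, norm_pow]
      have h4 : 0 < ‖X‖ * ‖Y‖ := by rw [h3]; positivity
      have h5 : 0 < ‖X‖ := lt_of_le_of_ne hXn fun h0 => by rw [← h0] at h4; simp at h4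
      linarith
    -- distances
    have hrad : rad 6 ≤ 1 := (H578.rad_le 6).trans (by norm_num)
    have hdist : ∀ l, 3 / 200 * T ≤ ‖e + (X + Y) / 2 - b l‖ := by
      intro l
      by_cases g1 : l = k.castSucc
      · rw [g1, h.c1]
        have e1 : e + (X + Y) / 2 - (e - z) = (X + Y) / 2 - -z := by ring
        rw [e1]
        exact s2
      · by_cases g2 : l = k.succ
        · rw [g2, h.c2]
          have e1 : e + (X + Y) / 2 - (e + z) = (X + Y) / 2 - z := by ring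
          rw [e1]
          exact s1
        · have h3 := h.far l g1 g2
          have h4 : ‖b l - e‖ ≤ ‖e + (X + Y) / 2 - b l‖ + ‖(X + Y) / 2‖ := by
            have h5 : b l - e = -(e + (X + Y) / 2 - b l) + (X + Y) / 2 := by ring
            rw [h5]
            refine (norm_add_le _ _).trans ?_
            rw [norm_neg]
          have h5 : ‖(X + Y) / 2‖ ≤ T / 2 := by
            rw [norm_div, Complex.norm_ofNat]
            have := norm_add_le X Y
            linarith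
          linarith
    have hxx : ‖e + (X + Y) / 2 - (e + (X' + Y') / 2)‖ ≤ r * T := by
      have e1 : e + (X + Y) / 2 - (e + (X' + Y') / 2) = (X + Y) / 2 - (X' + Y') / 2 := by ring
      rw [e1]
      exact hc1
    have hrT : r * T ≤ 1 / 1000 * T := mul_le_mul_of_nonneg_right hr1 hTp.le
    have hdist' : ∀ l, 14 / 1000 * T ≤ ‖e + (X' + Y') / 2 - b l‖ := by
      intro l
      have h3 := hdist l
      have h4 : ‖e + (X + Y) / 2 - b l‖ ≤ ‖e + (X + Y) / 2 - (e + (X' + Y') / 2)‖ +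
          ‖e + (X' + Y') / 2 - b l‖ := by
        have := norm_add_le (e + (X + Y) / 2 - (e + (X' + Y') / 2)) (e + (X' + Y') / 2 - b l)
        rwa [sub_add_sub_cancel] at this
      linarith
    refine cls_of (T := 14 / 1000 * T) (by positivity) (fun l => ?_) hdist' ?_ ?_
    · show 14 / 1000 * T ≤ ‖e + (X + Y) / 2 - b l‖
      have := hdist l
      linarith
    · show ‖e + (X + Y) / 2 - (e + (X' + Y') / 2)‖ < rad 6 * (14 / 1000 * T) / 6
      refine hxx.trans_lt ?_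
      have h3 : r * T ≤ rad 6 / 1000 * T := mul_le_mul_of_nonneg_right hr2 hTp.le
      have h4 := mul_pos (rad_pos 6) hTp
      linarith
    · show H578.Same (g * (∏ l, csq ((e + (X + Y) / 2 - o l) / (e - o l))) * (X - Y) / 2)
        (g * (∏ l, csq ((e + (X' + Y') / 2 - o l) / (e - o l))) * (X' - Y') / 2)
      apply same_of_lt
      have ho0 : ∀ l, e - o l ≠ 0 := fun l =>
        norm_pos_iff.1 (hδ.trans_le (ho l))
      have hP : ∀ A B : ℂ, ‖A‖ ≤ δ / 64 → ‖B‖ ≤ δ / 64 →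
          ‖(∏ l, csq ((e + (A + B) / 2 - o l) / (e - o l))) - 1‖ ≤ 1 / 8 := by
        intro A B hA hB
        have e1 : ∀ l, (e + (A + B) / 2 - o l) / (e - o l) = 1 + (A + B) / 2 / (e - o l) := by
          intro l
          have := ho0 l
          field_simp
          ring
        simp only [e1]
        refine norm_prod_csq fun l => ?_
        rw [norm_div, div_le_iff₀ (norm_pos_iff.2 (ho0 l)), norm_div, Complex.norm_ofNat]
        have h3 := norm_add_le A B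
        have h4 := ho l
        linarith
      have hD2 : (3 / 200 * T) ^ 2 ≤ ‖(X - Y) / 2‖ ^ 2 := by
        have e1 : ((X - Y) / 2) ^ 2 = ((X + Y) / 2 - z) * ((X + Y) / 2 - -z) := by
          have : ((X - Y) / 2) ^ 2 = ((X + Y) / 2) ^ 2 - X * Y := by ring
          rw [this, hXY]
          ring
        rw [← norm_pow, e1, norm_mul, sq]
        exact mul_le_mul s1 s2 (by positivity) (norm_nonneg _)
      have hD3 : 3 / 200 * T ≤ ‖(X - Y) / 2‖ := (sq_le_sq₀ (by positivity) (norm_nonneg _)).1 hD2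
      rw [norm_div, Complex.norm_ofNat] at hD3
      have hD0 : X - Y ≠ 0 := norm_pos_iff.1 (by
        have : 0 < 3 / 200 * T := by positivity
        linarith)
      refine sheet_cmp hg hD0 (hP X Y hX hY) (hP X' Y' hX' hY') ?_
      refine hc2.trans ?_
      linarith

end Vale.P273.H887

end
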