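import Mathlib

/-!
# Exterior product of a 1-form with a k-form, exterior derivative, pull-back

`wedge1 θ ω` is `θ ∧ ω` for a continuous linear form `θ` and a continuous alternating
`n`-form `ω` with values in any normed space.
-/

open ContinuousAlternatingMap
open scoped Topology

namespace Vale.P273.H887

variable {E E' G : Type*} [NormedAddCommGroup E] [NormedSpace ℝ E]
  [NormedAddCommGroup E'] [NormedSpace ℝ E']
  [NormedAddCommGroup G] [NormedSpace ℝ G] {n m : ℕ}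

/-- The exterior product of a linear form with an alternating form. -/
noncomputable def wedge1 (θ : E →L[ℝ] ℝ) (ω : E [⋀^Fin n]→L[ℝ] G) :
    E [⋀^Fin (n + 1)]→L[ℝ] G :=
  alternatizeUncurryFin (θ.smulRight ω)

theorem wedge1_apply (θ : E →L[ℝ] ℝ) (ω : E [⋀^Fin n]→L[ℝ] G) (v : Fin (n + 1) → E) :
    wedge1 θ ω v = ∑ i : Fin (n + 1), (-1) ^ (i : ℕ) • (θ (v i) • ω (i.removeNth v)) := by
  rw [wedge1, alternatizeUncurryFin_apply]
  rfl

theorem wedge1_add_left (θ η : E →L[ℝ] ℝ) (ω : E [⋀^Fin n]→L[ℝ] G) :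
    wedge1 (θ + η) ω = wedge1 θ ω + wedge1 η ω := by
  ext v
  simp [wedge1_apply, add_smul, Finset.sum_add_distrib]

theorem wedge1_smul_left (c : ℝ) (θ : E →L[ℝ] ℝ) (ω : E [⋀^Fin n]→L[ℝ] G) :
    wedge1 (c • θ) ω = c • wedge1 θ ω := by
  ext v
  simp only [wedge1_apply, ContinuousAlternatingMap.smul_apply, Finset.smul_sum]
  refine Finset.sum_congr rfl fun i _ => ?_
  change (-1 : ℤ) ^ (i : ℕ) • ((c * θ (v i)) • ω (i.removeNth v)) = _
  rw [mul_smul, smul_comm _ c]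

theorem wedge1_add_right (θ : E →L[ℝ] ℝ) (ω ω' : E [⋀^Fin n]→L[ℝ] G) :
    wedge1 θ (ω + ω') = wedge1 θ ω + wedge1 θ ω' := by
  ext v
  simp [wedge1_apply, smul_add, Finset.sum_add_distrib]

theorem wedge1_smul_right (c : ℝ) (θ : E →L[ℝ] ℝ) (ω : E [⋀^Fin n]→L[ℝ] G) :
    wedge1 θ (c • ω) = c • wedge1 θ ω := by
  ext v
  simp only [wedge1_apply, ContinuousAlternatingMap.smul_apply, Finset.smul_sum]
  refine Finset.sum_congr rfl fun i _ => ?_
  rw [smul_comm c, smul_comm c]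

/-- `wedge1` as a continuous bilinear map. -/
noncomputable def wedge1CLM : (E →L[ℝ] ℝ) →L[ℝ] (E [⋀^Fin n]→L[ℝ] G) →L[ℝ]
    (E [⋀^Fin (n + 1)]→L[ℝ] G) :=
  ((ContinuousLinearMap.compL ℝ (E [⋀^Fin n]→L[ℝ] G) (E →L[ℝ] (E [⋀^Fin n]→L[ℝ] G))
    (E [⋀^Fin (n + 1)]→L[ℝ] G)) (alternatizeUncurryFinCLM ℝ E G)) ∘L
    (ContinuousLinearMap.smulRightL ℝ E (E [⋀^Fin n]→L[ℝ] G))

@[simp] theorem wedge1CLM_apply (θ : E →L[ℝ] ℝ) (ω : E [⋀^Fin n]→L[ℝ] G) :
    wedge1CLM θ ω = wedge1 θ ω := by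
  rfl

theorem wedge1_comp (θ : E →L[ℝ] ℝ) (ω : E [⋀^Fin n]→L[ℝ] G) (L : E' →L[ℝ] E) :
    (wedge1 θ ω).compContinuousLinearMap L = wedge1 (θ.comp L) (ω.compContinuousLinearMap L) := by
  ext v
  simp only [wedge1_apply, ContinuousAlternatingMap.compContinuousLinearMap_apply,
    ContinuousLinearMap.comp_apply]
  rfl

theorem contDiffWithinAt_wedge1 {r : WithTop ℕ∞} {θ : E' → E →L[ℝ] ℝ}
    {ω : E' → E [⋀^Fin n]→L[ℝ] G} {s : Set E'} {x : E'}
    (hθ : ContDiffWithinAt ℝ r θ s x) (hω : ContDiffWithinAt ℝ r ω s x) :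
    ContDiffWithinAt ℝ r (fun x => wedge1 (θ x) (ω x)) s x := by
  have h : ContDiffWithinAt ℝ r (fun x => (wedge1CLM (E := E) (G := G) (n := n)) (θ x)) s x :=
    (ContinuousLinearMap.contDiff _).contDiffAt.comp_contDiffWithinAt x hθ
  exact h.clm_apply hω

theorem contDiffOn_wedge1 {r : WithTop ℕ∞} {θ : E' → E →L[ℝ] ℝ}
    {ω : E' → E [⋀^Fin n]→L[ℝ] G} {s : Set E'}
    (hθ : ContDiffOn ℝ r θ s) (hω : ContDiffOn ℝ r ω s) :
    ContDiffOn ℝ r (fun x => wedge1 (θ x) (ω x)) s :=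
  fun x hx => contDiffWithinAt_wedge1 (hθ x hx) (hω x hx)

theorem hasFDerivAt_wedge1 {θ : E' → E →L[ℝ] ℝ} {ω : E' → E [⋀^Fin n]→L[ℝ] G}
    {θ' : E' →L[ℝ] E →L[ℝ] ℝ} {ω' : E' →L[ℝ] E [⋀^Fin n]→L[ℝ] G} {x : E'}
    (hθ : HasFDerivAt θ θ' x) (hω : HasFDerivAt ω ω' x) :
    HasFDerivAt (fun x => wedge1 (θ x) (ω x))
      ((wedge1CLM (θ x)).comp ω' + (wedge1CLM.flip (ω x)).comp θ') x := by
  have h := (wedge1CLM (E := E) (G := G) (n := n)).hasFDerivAt_of_bilinear hθ hω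
  simpa [ContinuousLinearMap.precompR, ContinuousLinearMap.precompL] using h

/-- alternating twice a bilinear map and its flip: opposite signs. -/
theorem alt_alt_flip (f : E →L[ℝ] E →L[ℝ] E [⋀^Fin n]→L[ℝ] G) :
    alternatizeUncurryFin (alternatizeUncurryFinCLM ℝ E G ∘L f) =
      - alternatizeUncurryFin (alternatizeUncurryFinCLM ℝ E G ∘L f.flip) := by
  have h := alternatizeUncurryFin_alternatizeUncurryFinCLM_comp_of_symmetric
    (f := f + f.flip) (by intro x y; simp [add_comm])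
  rw [ContinuousLinearMap.comp_add, alternatizeUncurryFin_add] at h
  exact eq_neg_of_add_eq_zero_left h

/-- `d(θ ∧ ω) = - θ ∧ dω` at a point where `θ` is closed. -/
theorem extDeriv_wedge1 {θ : E → E →L[ℝ] ℝ} {ω : E → E [⋀^Fin n]→L[ℝ] G} {x : E}
    (hθ : DifferentiableAt ℝ θ x) (hω : DifferentiableAt ℝ ω x)
    (hcl : ∀ v w, fderiv ℝ θ x v w = fderiv ℝ θ x w v) :
    extDeriv (fun x => wedge1 (θ x) (ω x)) x = - wedge1 (θ x) (extDeriv ω x) := by
  have h1 := (hasFDerivAt_wedge1 hθ.hasFDerivAt hω.hasFDerivAt).fderiv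
  rw [extDeriv, h1, alternatizeUncurryFin_add]
  have h2 : alternatizeUncurryFin ((wedge1CLM.flip (ω x)).comp (fderiv ℝ θ x)) = 0 := by
    have h3 : (wedge1CLM.flip (ω x)).comp (fderiv ℝ θ x) =
        alternatizeUncurryFinCLM ℝ E G ∘L
          (((ContinuousLinearMap.smulRightL ℝ E (E [⋀^Fin n]→L[ℝ] G)).flip (ω x)).comp
            (fderiv ℝ θ x)) := by
      ext v
      rfl
    rw [h3]
    apply alternatizeUncurryFin_alternatizeUncurryFinCLM_comp_of_symmetric
    intro v w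
    change fderiv ℝ θ x v w • ω x = fderiv ℝ θ x w v • ω x
    rw [hcl]
  have h4 : alternatizeUncurryFin ((wedge1CLM (θ x)).comp (fderiv ℝ ω x)) =
      - wedge1 (θ x) (extDeriv ω x) := by
    have h5 : (wedge1CLM (θ x)).comp (fderiv ℝ ω x) =
        alternatizeUncurryFinCLM ℝ E G ∘L
          (((ContinuousLinearMap.smulRightL ℝ E (E [⋀^Fin n]→L[ℝ] G)) (θ x)).comp
            (fderiv ℝ ω x)) := by
      ext v
      rfl
    rw [h5, alt_alt_flip, wedge1]
    congr 2
    refine ContinuousLinearMap.ext fun v => ?_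
    change alternatizeUncurryFin _ = θ x v • extDeriv ω x
    rw [extDeriv, ← alternatizeUncurryFin_smul]
    congr 1
  rw [h2, h4, add_zero]

/-- two linear forms anticommute. -/
theorem wedge1_wedge1 (θ η : E →L[ℝ] ℝ) (ω : E [⋀^Fin n]→L[ℝ] G) :
    wedge1 θ (wedge1 η ω) = - wedge1 η (wedge1 θ ω) := by
  have key : ∀ a b : E →L[ℝ] ℝ, wedge1 a (wedge1 b ω) = alternatizeUncurryFin
      (alternatizeUncurryFinCLM ℝ E G ∘L
        (((ContinuousLinearMap.smulRightL ℝ E (E [⋀^Fin n]→L[ℝ] G)).flip ω).comp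
          (a.smulRight b))) := by
    intro a b
    rw [wedge1]
    congr 1
    refine ContinuousLinearMap.ext fun v => ?_
    change a v • alternatizeUncurryFin (b.smulRight ω) =
      alternatizeUncurryFin ((a v • b).smulRight ω)
    rw [← alternatizeUncurryFin_smul]
    congr 1
    ext w
    simp [mul_smul]
  rw [key, key, alt_alt_flip]
  congr 3
  refine ContinuousLinearMap.ext fun v => ContinuousLinearMap.ext fun w => ?_
  change (θ w * η v) • ω = (η v * θ w) • ω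
  rw [mul_comm]

theorem wedge1_self (θ : E →L[ℝ] ℝ) (ω : E [⋀^Fin n]→L[ℝ] G) :
    wedge1 θ (wedge1 θ ω) = 0 := by
  have h := wedge1_wedge1 θ θ ω
  have h2 : (2 : ℝ) • wedge1 θ (wedge1 θ ω) = 0 := by
    rw [two_smul]
    nth_rewrite 1 [h]
    simp
  exact (smul_eq_zero.1 h2).resolve_left (by norm_num)

/-- `θ 0 ∧ θ 1 ∧ ... ∧ θ (m-1) ∧ ω`. -/
noncomputable def wedgeN : (m : ℕ) → (Fin m → E →L[ℝ] ℝ) → (E [⋀^Fin n]→L[ℝ] G) →
    (E [⋀^Fin (n + m)]→L[ℝ] G)
  | 0, _, ω => ω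
  | m + 1, θ, ω => wedge1 (θ 0) (wedgeN m (fun i => θ i.succ) ω)

@[simp] theorem wedgeN_zero (θ : Fin 0 → E →L[ℝ] ℝ) (ω : E [⋀^Fin n]→L[ℝ] G) :
    wedgeN 0 θ ω = ω := rfl

theorem wedgeN_succ (θ : Fin (m + 1) → E →L[ℝ] ℝ) (ω : E [⋀^Fin n]→L[ℝ] G) :
    wedgeN (m + 1) θ ω = wedge1 (θ 0) (wedgeN m (fun i => θ i.succ) ω) := rfl

theorem wedgeN_add_right (m : ℕ) (θ : Fin m → E →L[ℝ] ℝ) (ω ω' : E [⋀^Fin n]→L[ℝ] G) :
    wedgeN m θ (ω + ω') = wedgeN m θ ω + wedgeN m θ ω' := by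
  induction m with
  | zero => rfl
  | succ m ih => rw [wedgeN_succ, ih, wedge1_add_right, wedgeN_succ, wedgeN_succ]

theorem wedgeN_smul_right (m : ℕ) (c : ℝ) (θ : Fin m → E →L[ℝ] ℝ) (ω : E [⋀^Fin n]→L[ℝ] G) :
    wedgeN m θ (c • ω) = c • wedgeN m θ ω := by
  induction m with
  | zero => rfl
  | succ m ih => rw [wedgeN_succ, ih, wedge1_smul_right, wedgeN_succ]

theorem wedge1_zero_right (θ : E →L[ℝ] ℝ) : wedge1 θ (0 : E [⋀^Fin n]→L[ℝ] G) = 0 := by
  ext v
  simp [wedge1_apply]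

theorem wedge1_neg_right (θ : E →L[ℝ] ℝ) (ω : E [⋀^Fin n]→L[ℝ] G) :
    wedge1 θ (-ω) = - wedge1 θ ω := by
  have h := wedge1_smul_right (-1) θ ω
  simpa using h

theorem wedgeN_zero_right (m : ℕ) (θ : Fin m → E →L[ℝ] ℝ) :
    wedgeN m θ (0 : E [⋀^Fin n]→L[ℝ] G) = 0 := by
  induction m with
  | zero => rfl
  | succ m ih => rw [wedgeN_succ, ih, wedge1_zero_right]

/-- additivity in each slot. -/
theorem wedgeN_update_add (m : ℕ) (θ : Fin m → E →L[ℝ] ℝ) (i : Fin m) (a b : E →L[ℝ] ℝ)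
    (ω : E [⋀^Fin n]→L[ℝ] G) :
    wedgeN m (Function.update θ i (a + b)) ω =
      wedgeN m (Function.update θ i a) ω + wedgeN m (Function.update θ i b) ω := by
  induction m with
  | zero => exact i.elim0
  | succ m ih =>
    refine Fin.cases ?_ (fun j => ?_) i
    · simp only [wedgeN_succ, Function.update_self]
      have h : ∀ c : E →L[ℝ] ℝ, (fun k : Fin m => Function.update θ 0 c k.succ) =
          fun k => θ k.succ := by
        intro c
        funext k
        exact Function.update_of_ne (Fin.succ_ne_zero k) _ _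
      simp only [h, wedge1_add_left]
    · have h : ∀ c : E →L[ℝ] ℝ, (fun k : Fin m => Function.update θ j.succ c k.succ) =
          Function.update (fun k => θ k.succ) j c := by
        intro c
        funext k
        by_cases hk : k = j
        · subst hk
          simp
        · rw [Function.update_of_ne hk, Function.update_of_ne (fun h => hk (Fin.succ_injective _ h))]
      have h0 : ∀ c : E →L[ℝ] ℝ, Function.update θ j.succ c 0 = θ 0 := by
        intro c
        exact Function.update_of_ne (Fin.succ_ne_zero j).symm _ _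
      simp only [wedgeN_succ, h, h0, ih, wedge1_add_right]

/-- homogeneity in each slot. -/
theorem wedgeN_update_smul (m : ℕ) (θ : Fin m → E →L[ℝ] ℝ) (i : Fin m) (r : ℝ) (a : E →L[ℝ] ℝ)
    (ω : E [⋀^Fin n]→L[ℝ] G) :
    wedgeN m (Function.update θ i (r • a)) ω = r • wedgeN m (Function.update θ i a) ω := by
  induction m with
  | zero => exact i.elim0
  | succ m ih =>
    refine Fin.cases ?_ (fun j => ?_) i
    · simp only [wedgeN_succ, Function.update_self]
      have h : ∀ c : E →L[ℝ] ℝ, (fun k : Fin m => Function.update θ 0 c k.succ) =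
          fun k => θ k.succ := by
        intro c
        funext k
        exact Function.update_of_ne (Fin.succ_ne_zero k) _ _
      simp only [h, wedge1_smul_left]
    · have h : ∀ c : E →L[ℝ] ℝ, (fun k : Fin m => Function.update θ j.succ c k.succ) =
          Function.update (fun k => θ k.succ) j c := by
        intro c
        funext k
        by_cases hk : k = j
        · subst hk
          simp
        · rw [Function.update_of_ne hk, Function.update_of_ne (fun h => hk (Fin.succ_injective _ h))]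
      have h0 : ∀ c : E →L[ℝ] ℝ, Function.update θ j.succ c 0 = θ 0 := by
        intro c
        exact Function.update_of_ne (Fin.succ_ne_zero j).symm _ _
      simp only [wedgeN_succ, h, h0, ih, wedge1_smul_right]

/-- a linear form that occurs among the `θ i` kills `wedgeN`. -/
theorem wedge1_wedgeN_of_mem (m : ℕ) (θ : Fin m → E →L[ℝ] ℝ) (i : Fin m)
    (ω : E [⋀^Fin n]→L[ℝ] G) : wedge1 (θ i) (wedgeN m θ ω) = 0 := by
  induction m with
  | zero => exact i.elim0
  | succ m ih =>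
    refine Fin.cases ?_ (fun j => ?_) i
    · rw [wedgeN_succ, wedge1_self]
    · rw [wedgeN_succ, wedge1_wedge1, ih (fun k => θ k.succ) j, wedge1_zero_right, neg_zero]

/-- two equal slots give zero. -/
theorem wedgeN_eq_zero_of_eq (m : ℕ) (θ : Fin m → E →L[ℝ] ℝ) {i j : Fin m} (hij : i ≠ j)
    (h : θ i = θ j) (ω : E [⋀^Fin n]→L[ℝ] G) : wedgeN m θ ω = 0 := by
  induction m with
  | zero => exact i.elim0
  | succ m ih =>
    rw [wedgeN_succ]
    rcases Fin.eq_zero_or_eq_succ i with rfl | ⟨i', rfl⟩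
    · rcases Fin.eq_zero_or_eq_succ j with rfl | ⟨j', rfl⟩
      · exact absurd rfl hij
      · rw [h]
        exact wedge1_wedgeN_of_mem m (fun k => θ k.succ) j' ω
    · rcases Fin.eq_zero_or_eq_succ j with rfl | ⟨j', rfl⟩
      · rw [← h]
        exact wedge1_wedgeN_of_mem m (fun k => θ k.succ) i' ω
      · rw [ih (fun k => θ k.succ) (fun hh => hij (by rw [hh])) h, wedge1_zero_right]

/-- `wedgeN` as an alternating map of the linear forms. -/
noncomputable def wedgeAlt (m : ℕ) (ω : E [⋀^Fin n]→L[ℝ] G) :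
    (E →L[ℝ] ℝ) [⋀^Fin m]→ₗ[ℝ] (E [⋀^Fin (n + m)]→L[ℝ] G) where
  toFun θ := wedgeN m θ ω
  map_update_add' := by
    intro inst θ i a b
    have : inst = instDecidableEqFin m := Subsingleton.elim _ _
    subst this
    exact wedgeN_update_add m θ i a b ω
  map_update_smul' := by
    intro inst θ i r a
    have : inst = instDecidableEqFin m := Subsingleton.elim _ _
    subst this
    exact wedgeN_update_smul m θ i r a ω
  map_eq_zero_of_eq' := by
    intro θ i j h hij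
    exact wedgeN_eq_zero_of_eq m θ hij h ω

@[simp] theorem wedgeAlt_apply (m : ℕ) (ω : E [⋀^Fin n]→L[ℝ] G) (θ : Fin m → E →L[ℝ] ℝ) :
    wedgeAlt m ω θ = wedgeN m θ ω := rfl

theorem wedgeN_comp (m : ℕ) (θ : Fin m → E →L[ℝ] ℝ) (ω : E [⋀^Fin n]→L[ℝ] G) (L : E' →L[ℝ] E) :
    (wedgeN m θ ω).compContinuousLinearMap L =
      wedgeN m (fun i => (θ i).comp L) (ω.compContinuousLinearMap L) := by
  induction m with
  | zero => rfl
  | succ m ih => rw [wedgeN_succ, wedge1_comp, ih, wedgeN_succ]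

theorem contDiffOn_wedgeN {r : WithTop ℕ∞} (m : ℕ) {θ : Fin m → E' → E →L[ℝ] ℝ}
    {ω : E' → E [⋀^Fin n]→L[ℝ] G} {s : Set E'}
    (hθ : ∀ i, ContDiffOn ℝ r (θ i) s) (hω : ContDiffOn ℝ r ω s) :
    ContDiffOn ℝ r (fun x => wedgeN m (fun i => θ i x) (ω x)) s := by
  induction m with
  | zero => exact hω
  | succ m ih =>
    exact contDiffOn_wedge1 (hθ 0) (ih (θ := fun i => θ i.succ) (fun i => hθ i.succ))

theorem differentiableAt_wedgeN (m : ℕ) {θ : Fin m → E' → E →L[ℝ] ℝ}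
    {ω : E' → E [⋀^Fin n]→L[ℝ] G} {x : E'}
    (hθ : ∀ i, DifferentiableAt ℝ (θ i) x) (hω : DifferentiableAt ℝ ω x) :
    DifferentiableAt ℝ (fun x => wedgeN m (fun i => θ i x) (ω x)) x := by
  induction m with
  | zero => exact hω
  | succ m ih =>
    exact (hasFDerivAt_wedge1 (hθ 0).hasFDerivAt
      (ih (θ := fun i => θ i.succ) (fun i => hθ i.succ)).hasFDerivAt).differentiableAt

/-- `d(θ₁ ∧ ... ∧ θ_m ∧ ω) = (-1)^m θ₁ ∧ ... ∧ θ_m ∧ dω` for closed `θ_i`
(`(n + 1) + m` and `(n + m) + 1` are different index types: evaluated form below). -/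
theorem extDeriv_wedgeN_eq_zero (m : ℕ) {θ : Fin m → E → E →L[ℝ] ℝ}
    {ω : E → E [⋀^Fin n]→L[ℝ] G} {x : E}
    (hθ : ∀ i, DifferentiableAt ℝ (θ i) x) (hω : DifferentiableAt ℝ ω x)
    (hcl : ∀ i v w, fderiv ℝ (θ i) x v w = fderiv ℝ (θ i) x w v)
    (hcl' : extDeriv ω x = 0) :
    extDeriv (fun x => wedgeN m (fun i => θ i x) (ω x)) x = 0 := by
  induction m with
  | zero => exact hcl'
  | succ m ih =>
    have h := extDeriv_wedge1 (hθ 0)
      (differentiableAt_wedgeN m (θ := fun i => θ i.succ) (fun i => hθ i.succ) hω) (hcl 0)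
    have h2 := ih (θ := fun i => θ i.succ) (fun i => hθ i.succ) (fun i => hcl i.succ)
    change extDeriv (fun x => wedge1 (θ 0 x) (wedgeN m (fun i => θ i.succ x) (ω x))) x = 0
    rw [h, h2, wedge1_zero_right, neg_zero]

end Vale.P273.H887
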