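import Vale.Agent.P273.H887.Pol

/-!
# The integrand `Wf` is smooth and closed over `XX`
-/

noncomputable section

set_option linter.unusedSectionVars false

namespace Vale.P273.H887

open Set Filter Vale.Agent.P273.H95 Vale.Agent.P273.H973 ContinuousAlternatingMap
open Vale.Agent.P273.H681 (C6 XX swL)
open scoped Topology ContDiff

section General

variable {X E E' G : Type*} [NormedAddCommGroup X] [NormedSpace ℝ X]
  [NormedAddCommGroup E] [NormedSpace ℝ E] [FiniteDimensional ℝ E]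
  [NormedAddCommGroup E'] [NormedSpace ℝ E'] [FiniteDimensional ℝ E']
  [NormedAddCommGroup G] [NormedSpace ℝ G] [FiniteDimensional ℝ G] {k : ℕ} {r : WithTop ℕ∞}

theorem contDiffAt_alt_apply {f : X → E [⋀^Fin k]→L[ℝ] G} {u : X → Fin k → E} {x : X}
    (hf : ContDiffAt ℝ r f x) (hu : ∀ i, ContDiffAt ℝ r (fun x => u x i) x) :
    ContDiffAt ℝ r (fun x => f x (u x)) x := by
  classical
  let e := Module.finBasis ℝ E
  have h1 : (fun x => f x (u x)) = fun x => ∑ I : Fin k → Fin (Module.finrank ℝ E),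
      (∏ i, e.repr (u x i) (I i)) • f x (fun i => e (I i)) := by
    funext x
    have h2 : u x = fun i => ∑ j, e.repr (u x i) j • e j := by
      funext i
      exact (e.sum_repr (u x i)).symm
    conv_lhs => rw [h2]
    have h3 := ((f x).toContinuousMultilinearMap.toMultilinearMap).map_sum
      (g := fun (i : Fin k) (j : Fin (Module.finrank ℝ E)) => e.repr (u x i) j • e j)
    have h4 : f x (fun i => ∑ j, e.repr (u x i) j • e j) =
        ∑ I : Fin k → Fin (Module.finrank ℝ E), f x (fun i => e.repr (u x i) (I i) • e (I i)) := h3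
    rw [h4]
    refine Finset.sum_congr rfl fun I _ => ?_
    exact ((f x).toContinuousMultilinearMap.toMultilinearMap).map_smul_univ _ _
  rw [h1]
  refine ContDiffAt.sum fun I _ => ContDiffAt.smul ?_ ?_
  · refine contDiffAt_prod fun i _ => ?_
    let L : E →L[ℝ] ℝ := LinearMap.toContinuousLinearMap (e.coord (I i))
    exact L.contDiff.contDiffAt.comp x (hu i)
  · exact (ContinuousAlternatingMap.apply ℝ E G (fun i => e (I i))).contDiff.contDiffAt.comp x hf

theorem contDiffAt_compCLM {f : X → E [⋀^Fin k]→L[ℝ] G} {L : X → E' →L[ℝ] E} {x : X}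
    (hf : ContDiffAt ℝ r f x) (hL : ContDiffAt ℝ r L x) :
    ContDiffAt ℝ r (fun x => (f x).compContinuousLinearMap (L x)) x := by
  refine contDiffAt_alt fun w => ?_
  exact contDiffAt_alt_apply (f := f) (u := fun x i => L x (w i)) hf
    fun i => hL.clm_apply contDiffAt_const

theorem pullback_smooth_closed {g : E' → E' [⋀^Fin k]→L[ℝ] G} {φ : E → E'} {x : E}
    (hg : ContDiffAt ℝ ∞ g (φ x)) (hφ : ContDiffAt ℝ ∞ φ x) (hcl : extDeriv g (φ x) = 0) :
    ContDiffAt ℝ ∞ (fun x => (g (φ x)).compContinuousLinearMap (fderiv ℝ φ x)) x ∧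
      extDeriv (fun x => (g (φ x)).compContinuousLinearMap (fderiv ℝ φ x)) x = 0 := by
  constructor
  · exact contDiffAt_compCLM (hg.comp x hφ) (hφ.fderiv_right (m := ∞) (by simp))
  · rw [extDeriv_pullback (hg.differentiableAt (by simp)) hφ (by
        simp only [minSmoothness_of_isRCLikeNormedField]
        exact (WithTop.coe_le_coe.2 le_top : ((2 : ℕ∞) : WithTop ℕ∞) ≤ ((⊤ : ℕ∞) : WithTop ℕ∞))), hcl]
    rfl

/-- a form that is zero near a point -/
theorem zero_smooth_closed {f : E → E [⋀^Fin k]→L[ℝ] G} {x : E} (h : ∀ᶠ z in 𝓝 x, f z = 0) :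
    ContDiffAt ℝ ∞ f x ∧ extDeriv f x = 0 := by
  have h1 : f =ᶠ[𝓝 x] fun _ => 0 := h
  refine ⟨contDiffAt_const.congr_of_eventuallyEq h1, ?_⟩
  rw [h1.extDeriv_eq, extDeriv, fderiv_fun_const]
  exact _root_.map_zero (alternatizeUncurryFinCLM ℝ E G)

end General

theorem csq_sq (z : ℂ) : csq z ^ 2 = z := by
  have h := Complex.cpow_nat_inv_pow z (n := 2) two_ne_zero
  have h2 : ((2 : ℕ) : ℂ)⁻¹ = 1 / 2 := by norm_num
  rw [h2] at h
  exact h

theorem csq_mem (S : L → Bool) (e : E) : (fun j => csq (cf S e j)) ∈ shSet (cf S e) :=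
  fun _ => csq_sq _

/-- The summand. -/
def Qf (X : Ext) (Θ : Gauge) (T : MT) (S : L → Bool) (e : E) (v : L → ℂ) : Alt (16 + 14) E :=
  wedgeT (GR X.G S e v) T fun i => Θ.th i S e v

theorem isCl_col4 (a : Fin 4) : IsCl (col4 a) := by
  fin_cases a <;> simp [IsCl, col4, Fin.sum_univ_succ] <;> norm_num

theorem mrk_surj (j : L) : ∃ i, mrk i = j := by
  obtain ⟨a, b⟩ := j
  cases b
  · refine ⟨⟨a.val + 7, by omega⟩, ?_⟩
    simp [mrk]
  · refine ⟨⟨a.val, by omega⟩, ?_⟩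
    simp [mrk]

variable (X : Ext) (Θ : Gauge) {T : MT} {S : L → Bool}

theorem th_eq_zero {i : Fin 14} {e : E} {v : L → ℂ}
    (h : ∀ ξ, IsCl ξ → Θ.θ (mrk i) ξ S e v = 0) : Θ.th i S e v = 0 := by
  refine ContinuousLinearMap.ext fun w => funext fun a => ?_
  change Θ.θ (mrk i) (col4 a) S e v w = 0
  rw [h _ (isCl_col4 a)]
  rfl

theorem th_eq {i i' : Fin 14} {e : E} {v : L → ℂ}
    (h : ∀ ξ, IsCl ξ → Θ.θ (mrk i) ξ S e v = Θ.θ (mrk i') ξ S e v) :
    Θ.th i S e v = Θ.th i' S e v := by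
  refine ContinuousLinearMap.ext fun w => funext fun a => ?_
  change Θ.θ (mrk i) (col4 a) S e v w = Θ.θ (mrk i') (col4 a) S e v w
  rw [h _ (isCl_col4 a)]

theorem continuous_fac (s : Bool) (b : C6) (j : L) (k : Fin 6) :
    Continuous fun e : E => fac s b (e.2 j) k := by
  unfold fac
  cases s
  · simp only [Bool.false_eq_true, if_false]
    fun_prop
  · simp only [if_true]
    fun_prop

/-- near the roots the summand vanishes -/
theorem Qf_root (T : MT) {e₀ : E} (h0 : e₀.1 ∈ XX) {j : L} {k : Fin 6}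
    (hf : fac (S j) e₀.1 (e₀.2 j) k = 0) :
    ∀ᶠ e in 𝓝 e₀, ∀ v ∈ shSet (cf S e), Qf X Θ T S e v = 0 := by
  obtain ⟨r, hr, h⟩ := Θ.root e₀.1 h0 k
  have h1 : ∀ᶠ e in 𝓝 e₀, ‖e.1 - e₀.1‖ < r := by
    have hc : Continuous fun e : E => ‖e.1 - e₀.1‖ := by fun_prop
    have := hc.tendsto e₀
    simp only [sub_self, norm_zero] at this
    exact this.eventually_lt_const hr
  have h2 : ∀ᶠ e in 𝓝 e₀, ‖fac (S j) e₀.1 (e.2 j) k‖ < r := by
    have hc : Continuous fun e : E => ‖fac (S j) e₀.1 (e.2 j) k‖ :=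
      (continuous_fac (S j) e₀.1 j k).norm
    have := hc.tendsto e₀
    rw [hf, norm_zero] at this
    exact this.eventually_lt_const hr
  filter_upwards [h1, h2] with e h1 h2 v hv
  obtain ⟨i, hi⟩ := mrk_surj j
  refine wedgeT_eq_zero_of_zero _ _ (a := i) (th_eq_zero Θ fun ξ hξ => ?_)
  rw [hi]
  refine h j ξ S e v hξ h1 ?_ hv
  unfold fac at h2
  cases hS : S j
  · rw [hS] at h2
    simpa using h2
  · rw [hS] at h2
    simp only [if_true] at h2 ⊢
    have h3 : e.2 j * e₀.1 k - 1 = -(1 - e₀.1 k * e.2 j) := by ring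
    rw [h3, norm_neg]
    exact h2

/-- `Wf` as a sum over the sheets -/
theorem Wf_eq (T : MT) (S : L → Bool) {e : E} (he : e.1 ∈ XX) :
    Wf X Θ T S e = shSum (Qf X Θ T S e) (cf S e) := by
  by_cases h : ∃ j, cf S e j = 0
  · obtain ⟨j, hj⟩ := h
    obtain ⟨k, hk⟩ := cf_eq_zero hj
    have h1 := (Qf_root X Θ T he hk).self_of_nhds
    rw [shSum_eq_zero h1]
    refine Finset.sum_eq_zero fun s _ => ?_
    refine h1 _ fun j => ?_
    change ((if s j then 1 else -1) * csq (cf S e j)) ^ 2 = _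
    rw [mul_pow, csq_sq]
    cases s j <;> simp
  · push Not at h
    rw [shSum_eq (csq_mem S e) (ne_zero_of_mem (csq_mem S e) h)]
    rfl

theorem onC_of_mem {e : E} {v : L → ℂ} (hv : v ∈ shSet (cf S e)) (h0 : ∀ j, cf S e j ≠ 0) :
    OnC S (rts e.1) e.2 v :=
  fun j => ⟨hv j, ne_zero_of_mem hv h0 j⟩

/-- the map from roots to coefficients -/
def ρ (e : E) : E := (rts e.1, e.2)

theorem contDiff_ρ : ContDiff ℝ ∞ ρ :=
  (contDiff_rts.comp contDiff_fst).prodMk contDiff_snd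

theorem hasFDerivAt_ρ (e : E) : HasFDerivAt ρ
    ((fderiv ℝ rts e.1).prodMap (ContinuousLinearMap.id ℝ (L → ℂ))) e := by
  have h1 : HasFDerivAt (fun e : E => rts e.1)
      ((fderiv ℝ rts e.1).comp (ContinuousLinearMap.fst ℝ C6 (L → ℂ))) e :=
    HasFDerivAt.comp (g := rts) (f := (Prod.fst : E → C6)) e
      ((contDiff_rts.differentiable (by simp)) e.1).hasFDerivAt hasFDerivAt_fst
  exact h1.prodMk hasFDerivAt_snd

theorem eventually_close {y : E → L → ℂ} {e₀ : E} (hy : ContinuousAt y e₀) {r : ℝ} (hr : 0 < r) :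
    ∀ᶠ e in 𝓝 e₀, ∀ j, ‖y e j - y e₀ j‖ < r := by
  rw [eventually_all]
  intro j
  have h1 : ContinuousAt (fun e => ‖y e j - y e₀ j‖) e₀ :=
    (((continuous_apply j).continuousAt.comp hy).sub continuousAt_const).norm
  have h2 := h1.tendsto
  simp only [sub_self, norm_zero] at h2
  exact h2.eventually_lt_const hr

theorem GR_branch {e₀ : E} (h0 : e₀.1 ∈ XX) {y : E → L → ℂ} (hy : ContinuousAt y e₀)
    (hys : ∀ e, y e ∈ shSet (cf S e)) (hc : ∀ j, cf S e₀ j ≠ 0) (hsep : Sep S e₀.2 (y e₀)) :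
    ContDiffAt ℝ ∞ (fun e => GR X.G S e (y e)) e₀ ∧
      extDeriv (fun e => GR X.G S e (y e)) e₀ = 0 := by
  obtain ⟨W, g, r, hW, hmem, hr, hg, hP, hG⟩ := X.reg S (ρ e₀) (y e₀) (rts_mem_K6 h0)
    (onC_of_mem (hys e₀) hc) hsep
  have h1 : ∀ᶠ e in 𝓝 e₀, ρ e ∈ W := contDiff_ρ.continuous.continuousAt.eventually_mem
    (hW.mem_nhds hmem)
  have h2 : (fun e => GR X.G S e (y e)) =ᶠ[𝓝 e₀]
      fun e => (g (ρ e)).compContinuousLinearMap (fderiv ℝ ρ e) := by
    filter_upwards [h1, eventually_close hy hr] with e he hc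
    rw [(hasFDerivAt_ρ e).fderiv]
    unfold GR
    rw [show X.G S (rts e.1, e.2) (y e) = g (ρ e) from hG (ρ e) he (y e) (hys e) hc]
  have h3 := pullback_smooth_closed (g := g) (φ := ρ) (x := e₀)
    (hg.contDiffAt (hW.mem_nhds hmem)) contDiff_ρ.contDiffAt (hP _ hmem)
  exact ⟨h3.1.congr_of_eventuallyEq h2, by rw [h2.extDeriv_eq]; exact h3.2⟩

theorem theta_branch {e₀ : E} (h0 : e₀.1 ∈ XX) {y : E → L → ℂ} (hy : ContinuousAt y e₀)
    (hys : ∀ e, y e ∈ shSet (cf S e)) (hc : ∀ j, cf S e₀ j ≠ 0) (j : L) {ξ : Fin 6 → ℝ}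
    (hξ : IsCl ξ) :
    ContDiffAt ℝ ∞ (fun e => Θ.θ j ξ S e (y e)) e₀ ∧
      ∀ u w, fderiv ℝ (fun e => Θ.θ j ξ S e (y e)) e₀ u w =
        fderiv ℝ (fun e => Θ.θ j ξ S e (y e)) e₀ w u := by
  obtain ⟨W, g, r, hW, hmem, hr, hg, hP, hG⟩ := Θ.reg j ξ S e₀ (y e₀) hξ h0
    (onC_of_mem (hys e₀) hc)
  have h2 : (fun e => Θ.θ j ξ S e (y e)) =ᶠ[𝓝 e₀] g := by
    filter_upwards [hW.mem_nhds hmem, eventually_close hy hr] with e he hc
    exact hG e he (y e) (hys e) hc
  refine ⟨(hg.contDiffAt (hW.mem_nhds hmem)).congr_of_eventuallyEq h2, fun u w => ?_⟩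
  rw [h2.fderiv_eq]
  exact hP _ hmem u w

theorem th_branch {e₀ : E} (h0 : e₀.1 ∈ XX) {y : E → L → ℂ} (hy : ContinuousAt y e₀)
    (hys : ∀ e, y e ∈ shSet (cf S e)) (hc : ∀ j, cf S e₀ j ≠ 0) (i : Fin 14) :
    ContDiffAt ℝ ∞ (fun e => Θ.th i S e (y e)) e₀ ∧
      ∀ u w, fderiv ℝ (fun e => Θ.th i S e (y e)) e₀ u w =
        fderiv ℝ (fun e => Θ.th i S e (y e)) e₀ w u := by
  have h1 := fun a => theta_branch Θ h0 hy hys hc (mrk i) (isCl_col4 a)
  have h2 : ContDiffAt ℝ ∞ (fun e => Θ.th i S e (y e)) e₀ := by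
    have h5 : (fun e => Θ.th i S e (y e)) = fun e => ∑ a : Fin 4,
        ContinuousLinearMap.compL ℝ E ℝ H4
          (ContinuousLinearMap.single ℝ (fun _ : Fin 4 => ℝ) a)
            (Θ.θ (mrk i) (col4 a) S e (y e)) := by
      funext e
      refine ContinuousLinearMap.ext fun w => funext fun b => ?_
      rw [_root_.sum_apply, Finset.sum_apply]
      have h6 : ∀ a : Fin 4, (ContinuousLinearMap.compL ℝ E ℝ H4
          (ContinuousLinearMap.single ℝ (fun _ : Fin 4 => ℝ) a)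
            (Θ.θ (mrk i) (col4 a) S e (y e))) w b =
          if a = b then Θ.θ (mrk i) (col4 a) S e (y e) w else 0 := by
        intro a
        change (Pi.single a (Θ.θ (mrk i) (col4 a) S e (y e) w) : Fin 4 → ℝ) b = _
        by_cases hab : a = b
        · subst hab
          simp
        · rw [if_neg hab, Pi.single_eq_of_ne (Ne.symm hab)]
      simp only [h6, Finset.sum_ite_eq', Finset.mem_univ, if_true]
      rfl
    rw [h5]
    exact ContDiffAt.sum fun a _ =>
      (ContinuousLinearMap.contDiff _).contDiffAt.comp e₀ (h1 a).1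
  refine ⟨h2, fun u w => funext fun a => ?_⟩
  have h3 : HasFDerivAt (fun e => Θ.θ (mrk i) (col4 a) S e (y e))
      ((ContinuousLinearMap.compL ℝ E H4 ℝ (ContinuousLinearMap.proj a)).comp
        (fderiv ℝ (fun e => Θ.th i S e (y e)) e₀)) e₀ :=
    (ContinuousLinearMap.compL ℝ E H4 ℝ (ContinuousLinearMap.proj a)).hasFDerivAt.comp e₀
      (h2.differentiableAt (by simp)).hasFDerivAt
  have h4 := (h1 a).2 u w
  rw [h3.fderiv] at h4
  exact h4

/-- **The integrand is smooth and closed**, along branches. -/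
theorem Qf_branch (hT : SymT T) {e₀ : E} (h0 : e₀.1 ∈ XX) {y : E → L → ℂ}
    (hy : ContinuousAt y e₀) (hys : ∀ e, y e ∈ shSet (cf S e)) (hc : ∀ j, cf S e₀ j ≠ 0) :
    ContDiffAt ℝ ∞ (fun e => Qf X Θ T S e (y e)) e₀ ∧
      extDeriv (fun e => Qf X Θ T S e (y e)) e₀ = 0 := by
  by_cases hsep : Sep S e₀.2 (y e₀)
  · obtain ⟨h1, h2⟩ := GR_branch X h0 hy hys hc hsep
    have h3 := th_branch Θ h0 hy hys hc
    constructor
    · exact contDiffAt_wedgeT T h1 fun i => (h3 i).1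
    · exact extDeriv_wedgeT T (h1.differentiableAt (by simp))
        (fun i => (h3 i).1.differentiableAt (by simp)) h2 fun i u v => (h3 i).2 u v
  · unfold Vale.Agent.P273.H95.Sep at hsep
    push Not at hsep
    obtain ⟨i, j, hij, hty, hsame⟩ := hsep
    obtain ⟨r, hr, h⟩ := Θ.col i j hij hty S e₀ (y e₀) h0 (onC_of_mem (hys e₀) hc) hsame
    obtain ⟨a, ha⟩ := mrk_surj i
    obtain ⟨b, hb⟩ := mrk_surj j
    apply zero_smooth_closed
    have h1 : ∀ᶠ e in 𝓝 e₀, ‖e - e₀‖ < r := by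
      have hc : Continuous fun e : E => ‖e - e₀‖ := by fun_prop
      have := hc.tendsto e₀
      simp only [sub_self, norm_zero] at this
      exact this.eventually_lt_const hr
    filter_upwards [h1, eventually_close hy hr] with e he hc
    have hab : a ≠ b := fun hab => hij (by rw [← ha, ← hb, hab])
    refine wedgeT_eq_zero_of_eq _ hab (hT a b (by rw [ha, hb]; exact hty)) (th_eq Θ fun ξ hξ => ?_)
    rw [ha, hb]
    exact h e (y e) he hc (hys e) ξ hξ

/-- **(W1)** -/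
theorem Wf_smooth_closed (T : MT) (hT : SymT T) (S : L → Bool) (e : E) (he : e.1 ∈ XX) :
    ContDiffAt ℝ ∞ (Wf X Θ T S) e ∧ extDeriv (Wf X Θ T S) e = 0 := by
  have h1 := shSum_smooth_closed (P := E) (W := ℝ) (r := ∞) (by simp)
    (O := {e : E | e.1 ∈ XX}) (c := cf S) (Q := Qf X Θ T S)
    (fun p _ => analyticAt_cf S p)
    (fun p hp hc y hya hys => Qf_branch X Θ hT hp hya.continuousAt hys hc)
    (fun p hp hz => by
      obtain ⟨j, hj⟩ := hz
      obtain ⟨k, hk⟩ := cf_eq_zero hj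
      exact Qf_root X Θ T hp hk) e he
  have h2 : Wf X Θ T S =ᶠ[𝓝 e] fun p => shSum (Qf X Θ T S p) (cf S p) := by
    have h3 : ∀ᶠ p : E in 𝓝 e, p.1 ∈ XX :=
      continuous_fst.continuousAt.eventually_mem (isOpen_XX.mem_nhds he)
    filter_upwards [h3] with p hp
    exact Wf_eq X Θ T S hp
  exact ⟨h1.1.congr_of_eventuallyEq h2, by rw [h2.extDeriv_eq]; exact h1.2⟩

end Vale.P273.H887
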