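import Vale.Agent.P273.H973.Germ
import Vale.Agent.P273.H578.CutG
import Vale.Agent.P273.H214.Root

/-!
# P273, row ASY1 (helper887): the zones of the gauge at the roots and at infinity, uniformly

`OneZ O`: the one mark form vanishes in the discs `64 |x - b_j|^2 < hh b j`, and for
`2 R(b) |w| < 1` it is plus or minus a form of the roots.  Consequences for the forms `θ_j` after the
recursion, for every good point of `XX` (no compactness).
-/

noncomputable section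

namespace Vale.P273.H887

open Set Filter Vale.Agent.P273 Vale.Agent.P273.H681 Vale.Agent.P273.H95 Vale.Agent.P273.H973
open Vale.Agent.P273.H578 (Pt fb chiT psiT rad rad_root rad_far gf_root_gen gf_far_gen gf_not)
open Vale.Agent.P273.H214 (hh)
open Vale.Agent.P273.H604 (Rr)
open scoped Topology ContDiff

/-- **The zones of the one mark gauge**, uniform in the roots. -/
structure OneZ (O : One) : Prop where
  root : ∀ (ξ : Fin 6 → ℝ) (b : C6) (x y : ℂ) (j : Fin 6), IsCl ξ → b ∈ XX →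
    On1 false (b, x) y → 64 * ‖x - b j‖ ^ 2 < hh b j → O.η ξ false (b, x) y = 0
  far : ∃ g : (Fin 6 → ℝ) → C6 → (C6 →L[ℝ] ℝ), ∀ (ξ : Fin 6 → ℝ) (b : C6) (w v : ℂ), IsCl ξ →
    b ∈ XX → On1 true (b, w) v → 2 * Rr b * ‖w‖ < 1 →
    O.η ξ true (b, w) v =
      (if 0 < v.re then (1 : ℝ) else -1) • (g ξ b).comp (ContinuousLinearMap.fst ℝ C6 ℂ)

theorem XX_sub_Cf {b : C6} (hb : b ∈ XX) : b ∈ H214.Cf := by
  intro i j hij
  by_contra hne
  rcases lt_or_gt_of_ne hne with h | h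
  · exact absurd (hb i j h (by rw [hij])) (by rw [hij]; exact lt_irrefl _)
  · exact absurd (hb j i h (by rw [hij])) (by rw [hij]; exact lt_irrefl _)

variable {O : One} {ξ : Fin 6 → ℝ} {S : L → Bool} {e : E} {v : L → ℂ}

/-- the open disc at the root `l` in which `θ_j` vanishes -/
theorem gfun_root_zone (hZ : OneZ O) (hξ : IsCl ξ) {V : E → L → ℂ} (hV : BrE S V e) (j : L)
    (hS : S j = false) (l : Fin 6) (h : ‖e.2 j - e.1 l‖ < 29 / 256 * Real.sqrt (hh e.1 l)) :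
    ∀ᶠ e' in 𝓝 e, gfun (cE S j.2 V) (pE O ξ S j.2 V) j.1 e' = 0 := by
  have hC := XX_sub_Cf hV.mem
  have h1 : ContinuousAt (fun e' : E => hh e'.1 l) e :=
    ContinuousAt.comp (g := fun b : C6 => hh b l) (f := Prod.fst) (x := e)
      (H214.contDiffAt_hh hC l).continuousAt continuousAt_fst
  have h2 : ContinuousAt (fun e' : E => 29 / 256 * Real.sqrt (hh e'.1 l)) e :=
    continuousAt_const.mul h1.sqrt
  have h3 : ContinuousAt (fun e' : E => ‖e'.2 j - e'.1 l‖) e := by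
    have : Continuous (fun e' : E => ‖e'.2 j - e'.1 l‖) := by fun_prop
    exact this.continuousAt
  filter_upwards [h3.eventually_lt h2 h, hV.ev] with e' h4 h5
  obtain ⟨h6, h7, -⟩ := h5
  have hC' := XX_sub_Cf h6
  have hh0 := H214.hh_pos hC' l
  set ρ : ℝ := Real.sqrt (hh e'.1 l) / 8 with hρ
  have hρ0 : 0 ≤ ρ := by positivity
  have hρs : 64 * ρ ^ 2 = hh e'.1 l := by
    rw [hρ, div_pow, Real.sq_sqrt hh0.le]
    ring
  show gf (chiT (fin S j.2 e') e'.1 (PP S j.2 e' (V e')))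
    (psiT (etx O ξ) (fin S j.2 e') e'.1 (PP S j.2 e' (V e'))) j.1 = 0
  refine gf_root_gen (fun k hk => (pt_PP h7 hk).1) l (fun m => (1 - m / 64) * ρ)
    (fun k m hm hk => rad_root hρ0 k m hm hk) ?_ ?_
  · intro x' hx' y' hp w
    have h8 : O.η ξ false (e'.1, x') y' = 0 := by
      refine hZ.root ξ e'.1 x' y' l hξ h6 (on1_false.2 hp) ?_
      rw [← hρs]
      have h9 : ‖x' - e'.1 l‖ < ρ := by simpa using hx'
      have h10 := norm_nonneg (x' - e'.1 l)
      nlinarith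
    show O.η ξ false (e'.1, x') y' (0, w) = 0
    rw [h8]
    rfl
  · show ‖Xp S e' (j.1, j.2) - e'.1 l‖ < (1 - ((j.1 : ℕ) : ℝ) / 64) * ρ
    have h8 : Xp S e' (j.1, j.2) = e'.2 j := by
      show Xp S e' j = e'.2 j
      unfold Xp
      rw [hS]
      simp
    rw [h8]
    have h9 : ((j.1 : ℕ) : ℝ) ≤ 6 := by exact_mod_cast Nat.lt_succ_iff.1 j.1.2
    refine h4.trans_le ?_
    rw [hρ]
    have h10 := Real.sqrt_nonneg (hh e'.1 l)
    nlinarith

/-- **(II)**: `θ_j` vanishes in a disc of radius `29/256 √(hh b l)` at the root `l` -/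
theorem th_root_zone (hZ : OneZ O) (hξ : IsCl ξ) (j : L)
    (hS : S j = false) (l : Fin 6) (h : ‖e.2 j - e.1 l‖ < 29 / 256 * Real.sqrt (hh e.1 l)) :
    th O j ξ S e v = 0 := by
  by_cases hg : e.1 ∈ XX ∧ OnC S (rts e.1) e.2 v
  swap
  · exact th_bad O ξ hg j
  rw [th_good O ξ hg.1 hg.2]
  have hV := brE_BrE hg.1 hg.2
  have h1 := gfun_root_zone hZ hξ hV j hS l h
  have h2 : fderiv ℝ (gfun (cE S j.2 (brE S e v)) (pE O ξ S j.2 (brE S e v)) j.1) e = 0 := by
    have h3 : gfun (cE S j.2 (brE S e v)) (pE O ξ S j.2 (brE S e v)) j.1 =ᶠ[𝓝 e]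
        fun _ => (0 : ℝ) := h1
    rw [h3.fderiv_eq]
    exact fderiv_const_apply _
  have hC := XX_sub_Cf hg.1
  have hh0 := H214.hh_pos hC l
  have h4 : O.η ξ (S j) (prj j e) (brE S e v e j) = 0 := by
    have h5 := hg.2 j
    rw [hS] at h5
    rw [brE_self hg.2, hS]
    refine hZ.root ξ e.1 (e.2 j) (v j) l hξ hg.1 h5 ?_
    have h6 : ‖e.2 j - e.1 l‖ ^ 2 < (29 / 256 * Real.sqrt (hh e.1 l)) ^ 2 := by
      have := norm_nonneg (e.2 j - e.1 l)
      exact pow_lt_pow_left₀ h this two_ne_zero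
    rw [mul_pow, Real.sq_sqrt hh0.le] at h6
    nlinarith
  show (O.η ξ (S (j.1, j.2)) (prj (j.1, j.2) e) (brE S e v e (j.1, j.2))).comp (prj (j.1, j.2)) +
    fderiv ℝ (gfun (cE S j.2 (brE S e v)) (pE O ξ S j.2 (brE S e v)) j.1) e = 0
  have h5 : O.η ξ (S (j.1, j.2)) (prj (j.1, j.2) e) (brE S e v e (j.1, j.2)) = 0 := h4
  rw [h2, h5, ContinuousLinearMap.zero_comp, add_zero]

/-! ### the zone at infinity -/

/-- no vertical part for `2 R(b) < |x|` -/
theorem vert_far (hZ : OneZ O) (hξ : IsCl ξ) {b : C6} (hb : b ∈ XX) {x' y' : ℂ}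
    (hx' : 2 * Rr b < ‖x'‖) (hp : Pt b (x', y')) (w : ℂ) : etx O ξ b x' y' (0, w) = 0 := by
  obtain ⟨g, hg⟩ := hZ.far
  have hR := H604.Rr_pos b
  have hx0 : x' ≠ 0 := by
    rintro rfl
    rw [norm_zero] at hx'
    linarith
  have hon : On1 false (b, x') y' := on1_false.2 hp
  have hxr : 2 * Rr b * ‖x'⁻¹‖ < 1 := by
    rw [norm_inv, ← div_eq_mul_inv, div_lt_one (norm_pos_iff.2 hx0)]
    exact hx'
  have hon' : On1 true (b, x'⁻¹) (y' * (x'⁻¹) ^ 3) := by
    refine ⟨?_, mul_ne_zero hp.2 (pow_ne_zero 3 (inv_ne_zero hx0))⟩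
    show (y' * (x'⁻¹) ^ 3) ^ 2 = pol true (rts b) x'⁻¹
    simp only [pol, if_true]
    rw [sw_eq _ (inv_ne_zero hx0), inv_inv, H973.sx_rts, mul_pow, hp.1]
    ring
  have h6 := O.chg ξ (b, x') y' hξ hb hx0 hon
  have h7 := hg ξ b x'⁻¹ (y' * (x'⁻¹) ^ 3) hξ hb hon' hxr
  have h8 : HasFDerivAt (fun p : E1 => ((p.1, (p.2)⁻¹) : E1))
      ((ContinuousLinearMap.fst ℝ C6 ℂ).prod (((ContinuousLinearMap.toSpanSingleton ℂ
        (-(x' ^ 2)⁻¹)).restrictScalars ℝ).comp (ContinuousLinearMap.snd ℝ C6 ℂ))) (b, x') := by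
    have h9 : HasFDerivAt (fun p : E1 => (p.2)⁻¹) (((ContinuousLinearMap.toSpanSingleton ℂ
        (-(x' ^ 2)⁻¹)).restrictScalars ℝ).comp (ContinuousLinearMap.snd ℝ C6 ℂ)) (b, x') :=
      ((hasDerivAt_inv hx0).hasFDerivAt.restrictScalars ℝ).comp (b, x') hasFDerivAt_snd
    exact hasFDerivAt_fst.prodMk h9
  show O.η ξ false (b, x') y' (0, w) = 0
  rw [h6]
  show (O.η ξ true (b, x'⁻¹) (y' * (x'⁻¹) ^ 3))
    (fderiv ℝ (fun p : E1 => ((p.1, (p.2)⁻¹) : E1)) (b, x') (0, w)) = 0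
  rw [h7, h8.fderiv]
  simp only [_root_.smul_apply, ContinuousLinearMap.comp_apply,
    ContinuousLinearMap.prod_apply, ContinuousLinearMap.coe_fst', map_zero, smul_zero]

/-- the zone at infinity: the recursion is trivial -/
theorem gfun_far_zone (hZ : OneZ O) (hξ : IsCl ξ) {V : E → L → ℂ} (hV : BrE S V e) (j : L)
    (hS : S j = true) (h : 35 / 16 * Rr e.1 * ‖e.2 j‖ < 1) :
    ∀ᶠ e' in 𝓝 e, gfun (cE S j.2 V) (pE O ξ S j.2 V) j.1 e' = 0 := by
  have h1 : ContinuousAt (fun e' : E => 35 / 16 * Rr e'.1 * ‖e'.2 j‖) e := by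
    have hc : Continuous (fun e' : E => Rr e'.1) := H604.contDiff_Rr.continuous.comp continuous_fst
    have : Continuous (fun e' : E => 35 / 16 * Rr e'.1 * ‖e'.2 j‖) :=
      (continuous_const.mul hc).mul (by fun_prop)
    exact this.continuousAt
  filter_upwards [h1.eventually (gt_mem_nhds h), hV.ev] with e' h4 h5
  obtain ⟨h6, h7, -⟩ := h5
  show gf (chiT (fin S j.2 e') e'.1 (PP S j.2 e' (V e')))
    (psiT (etx O ξ) (fin S j.2 e') e'.1 (PP S j.2 e' (V e'))) j.1 = 0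
  by_cases hf : fin S j.2 e' j.1
  swap
  · exact gf_not j.1 hf
  have hw : e'.2 j ≠ 0 := fun h0 => hf ⟨hS, h0⟩
  have hR := H604.Rr_pos e'.1
  have hR0 : (0 : ℝ) ≤ 2 * Rr e'.1 := by linarith
  refine gf_far_gen (fun k hk => (pt_PP h7 hk).1) (fun m => (1 + m / 64) * (2 * Rr e'.1)) ?_
    (fun k m hm hk => rad_far hR0 k m hm hk) ?_ ?_ ?_
  · simpa using hR.le
  · have := H604.norm_le_Rr e'.1 0
    have h8 := norm_nonneg (e'.1 0)
    simp only [Nat.cast_zero, zero_div, add_zero, one_mul]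
    linarith
  · intro x' hx' y' hp w
    exact vert_far hZ hξ h6 (by simpa using hx') hp w
  · show (1 + ((j.1 : ℕ) : ℝ) / 64) * (2 * Rr e'.1) < ‖Xp S e' (j.1, j.2)‖
    have h8 : Xp S e' (j.1, j.2) = (e'.2 j)⁻¹ := by
      show Xp S e' j = _
      unfold Xp
      rw [hS]
      simp
    rw [h8, norm_inv]
    have h9 : ((j.1 : ℕ) : ℝ) ≤ 6 := by exact_mod_cast Nat.lt_succ_iff.1 j.1.2
    have hw' := norm_pos_iff.2 hw
    have h10 : 35 / 16 * Rr e'.1 < ‖e'.2 j‖⁻¹ := by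
      rw [← one_div, lt_div_iff₀ hw']
      exact h4
    refine lt_of_le_of_lt ?_ h10
    nlinarith

/-- **the form of a mark near infinity** -/
theorem th_far_zone (hZ : OneZ O) : ∃ g : (Fin 6 → ℝ) → C6 → (C6 →L[ℝ] ℝ),
    ∀ (ξ : Fin 6 → ℝ), IsCl ξ → ∀ (S : L → Bool) (e : E) (v : L → ℂ) (j : L), e.1 ∈ XX →
    OnC S (rts e.1) e.2 v → S j = true → 35 / 16 * Rr e.1 * ‖e.2 j‖ < 1 →
    th O j ξ S e v =
      (if 0 < (v j).re then (1 : ℝ) else -1) • (g ξ e.1).comp (ContinuousLinearMap.fst ℝ C6 _) := by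
  obtain ⟨g, hg⟩ := hZ.far
  refine ⟨g, fun ξ hξ S e v j hb hv hS h => ?_⟩
  rw [th_good O ξ hb hv]
  have hV := brE_BrE hb hv
  have h1 := gfun_far_zone hZ hξ hV j hS h
  have h2 : fderiv ℝ (gfun (cE S j.2 (brE S e v)) (pE O ξ S j.2 (brE S e v)) j.1) e = 0 := by
    have h3 : gfun (cE S j.2 (brE S e v)) (pE O ξ S j.2 (brE S e v)) j.1 =ᶠ[𝓝 e]
        fun _ => (0 : ℝ) := h1
    rw [h3.fderiv_eq]
    exact fderiv_const_apply _
  have h4 : O.η ξ (S j) (prj j e) (brE S e v e j) =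
      (if 0 < (v j).re then (1 : ℝ) else -1) • (g ξ e.1).comp (ContinuousLinearMap.fst ℝ C6 ℂ) := by
    have h5 := hv j
    rw [hS] at h5
    rw [brE_self hv, hS]
    refine hg ξ e.1 (e.2 j) (v j) hξ hb h5 ?_
    have h6 := mul_nonneg (H604.Rr_pos e.1).le (norm_nonneg (e.2 j))
    nlinarith
  show (O.η ξ (S (j.1, j.2)) (prj (j.1, j.2) e) (brE S e v e (j.1, j.2))).comp (prj (j.1, j.2)) +
    fderiv ℝ (gfun (cE S j.2 (brE S e v)) (pE O ξ S j.2 (brE S e v)) j.1) e = _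
  have h5 : O.η ξ (S (j.1, j.2)) (prj (j.1, j.2) e) (brE S e v e (j.1, j.2)) =
      (if 0 < (v j).re then (1 : ℝ) else -1) • (g ξ e.1).comp (ContinuousLinearMap.fst ℝ C6 ℂ) := h4
  rw [h2, h5, add_zero, ContinuousLinearMap.smul_comp]
  rfl

/-- the sheets near infinity -/
theorem re_of_far {b : C6} {w v : ℂ} (h : On1 true (b, w) v) (hw : 2 * Rr b * ‖w‖ < 1) :
    (0 < v.re ∧ ‖v - 1‖ < 1 / 2) ∨ (v.re < 0 ∧ ‖v + 1‖ < 1 / 2) := by
  have h0 := h.1
  simp only at h0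
  rw [pol_true] at h0
  have hR := H604.Rr_pos b
  have h1 : ∀ i, ‖-(b i * w)‖ ≤ 1 / 16 := by
    intro i
    rw [norm_neg, norm_mul]
    have h2 := H604.norm_le_Rr b i
    have h3 := norm_nonneg w
    have h4 := norm_nonneg (b i)
    nlinarith
  have h2 : ‖v ^ 2 - 1‖ ≤ 1 / 2 := by
    rw [h0]
    have e1 : ∏ i : Fin 6, (1 - b i * w) = ∏ i : Fin 6, (1 + -(b i * w)) :=
      Finset.prod_congr rfl fun i _ => by ring
    rw [e1]
    refine (Finset.norm_prod_one_add_sub_one_le _ _).trans ?_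
    have h3 : ∑ i : Fin 6, ‖-(b i * w)‖ ≤ 3 / 8 := by
      calc ∑ i : Fin 6, ‖-(b i * w)‖ ≤ ∑ _i : Fin 6, (1 / 16 : ℝ) :=
            Finset.sum_le_sum fun i _ => h1 i
        _ = 3 / 8 := by simp; norm_num
    have h4 : Real.exp (∑ i : Fin 6, ‖-(b i * w)‖) ≤ Real.exp (3 / 8) := Real.exp_le_exp.2 h3
    have h5 : Real.exp (3 / 8 : ℝ) ≤ 3 / 2 := by
      have h6 := Real.exp_bound' (x := 3 / 8) (by norm_num) (by norm_num) (n := 3) (by norm_num)
      refine h6.trans ?_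
      simp [Finset.sum_range_succ, Nat.factorial]
      norm_num
    linarith
  have h3 : ‖v - 1‖ * ‖v + 1‖ ≤ 1 / 2 := by
    rw [← norm_mul]
    have : (v - 1) * (v + 1) = v ^ 2 - 1 := by ring
    rw [this]
    exact h2
  rcases lt_or_ge v.re 0 with hr | hr
  · right
    have h4 : 1 < ‖v - 1‖ := by
      have := Complex.abs_re_le_norm (v - 1)
      rw [Complex.sub_re, Complex.one_re, abs_of_neg (by linarith)] at this
      linarith
    refine ⟨hr, ?_⟩
    have := norm_nonneg (v + 1)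
    nlinarith
  · left
    have h4 : 1 ≤ ‖v + 1‖ := by
      have := Complex.abs_re_le_norm (v + 1)
      rw [Complex.add_re, Complex.one_re, abs_of_nonneg (by linarith)] at this
      linarith
    have h6 : ‖v - 1‖ ≤ 1 / 2 := by
      have := norm_nonneg (v - 1)
      nlinarith
    have h7 : 1 / 2 ≤ v.re := by
      have := (abs_le.1 ((Complex.abs_re_le_norm (v - 1)).trans h6)).1
      rw [Complex.sub_re, Complex.one_re] at this
      linarith
    have h8 : 3 / 2 ≤ ‖v + 1‖ := by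
      have := Complex.abs_re_le_norm (v + 1)
      rw [Complex.add_re, Complex.one_re, abs_of_nonneg (by linarith)] at this
      linarith
    refine ⟨by linarith, ?_⟩
    have := norm_nonneg (v - 1)
    nlinarith

end Vale.P273.H887

end
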